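import Claimed.Agent.R257.Infra.Defs
import Claimed.Agent.Lib.BD.Defs

/-!
# R257 / Pk / Defs : THE BAND LIMITED PACKET CLASS  (H packets.tex l.28-76, Convention p:conventions)        (helper12, captain PK2)        -- SHARED by PK1, PK2, INST (R257/Tree), FR1, FR3

ROBUST FORM, NO GRIDS, NO CELLS (same philosophy as `Lib/BD/Defs`): a packet has a frequency label `v ∈ ℝ^k` (any point), a NATIVE CENTRE `u ∈ ℝ^k × ℝ` (any point; the paper's unit lattice cell `T` is replaced by its centre),
a native profile `F` (NOT recentred) and an amplitude.  The grid conditions of the paper are replaced by ONE phase space multiplicity condition (`PFam.In.mult`).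

Dictionary paper -> Lean (space dimension `k ≥ 1`, space-time `ST k = E k × ℝ`, sup norm):
* `X_{N,v}(x,t) = ((x - 2tv)/N, t/N²)`                     `natX N v z`,   inverse `natI N v X`
* `f_T = e^{i(x·v - t|v|²)} F_T(X_{N,v}(x,t))`             `A.pk T z = car (A.v T) z * A.F T (natX A.N (A.v T) z)`
* `d_T(z)`  (distance to the native cell)                  `A.d T z = ‖natX A.N (A.v T) z - A.u T‖`  (distance to the native CENTRE: `1 + d` changes by a factor `≤ 2`)
* `w_T(z) = (1 + d_T(z))^{-P}`                             `A.w P T z`   (`P : ℝ`, `Real.rpow`)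
* `z_T`                                                     `A.ctr T = natI A.N (A.v T) (A.u T)`
* `V = ∑_T f_T`                                            `A.fld s z`
* `B_b(z)² = ∑_T b_T² w_T(z)`                              `A.sq P s b z`     (the SQUARE)
* `E = N^{k+2} ∑ s_T²`                                     `A.en s a`
* "band limited packets of amplitudes `s_T`, fixed Fourier box, fixed decay `P'`, bounded frequencies, bounded phase space multiplicity"     `A.In s K a`,  `K : PCls`
* "a finite set of unit cubes with one witness per cube"    `Y : Finset (ST k)`, `USep Y` (1-separated in the norm of `ST k`).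
  A set with one point in each of finitely many distinct cubes `cube q` is the union of `≤ C_k` sets with `USep` (leaf `pk_usep_split`, `Pk/Api.lean`), so all COUNTS transfer with a constant.
  "Unit suprema", "separate witnesses", "fixed enlargements" of the paper = the statements hold for ALL `USep` sets of points.

FOURIER SUPPORT: `BD.FS S F` of `Lib/BD/Defs` with `V = E k` : `F X = ∫ ch (pr X w) g w`, `g` integrable, `g = 0` off `S`; pairing `pr X w = ⟪X.1,w.1⟫ + X.2 w.2`, no `2π`.  API: `Lib/BD/{Fs,FSApi,Ker,Loc}.lean`.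
NOTE the sign: `car v z = e^{i(x·v - t|v|²)}` lives on the paraboloid `τ = -|ξ|²`, `BD.cap` on `τ = +|ξ|²`: reflect the time (`FS.reflect`) when citing BD.

EXACT SELF-SIMILARITY (`pk_resc`): if `z' = natX K v₀ z` then `A.pk T z = car v₀ z * (A.resc K v₀).pk T z'`, where `A.resc K v₀` has scale `N/K`, labels `K (v - v₀)` and THE SAME native centres and profiles;
`natX N v z = natX (N/K) (K (v - v₀)) z'`, so `d`, `w`, `sq` are unchanged, and the multiplicity condition is unchanged (`In.resc`).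
-/

set_option autoImplicit false

namespace Claimed.Agent.R257

open MeasureTheory Metric Set
open scoped ENNReal InnerProductSpace

variable {k : ℕ} {ι : Type}

/-- the critical exponent `q_k = 2(k+2)/k` -/
noncomputable def qk (k : ℕ) : ℝ := 2 * ((k : ℝ) + 2) / (k : ℝ)

/-- the multilinear exponent `p_k = 2(k+1)/k` -/
noncomputable def pk' (k : ℕ) : ℝ := 2 * ((k : ℝ) + 1) / (k : ℝ)

/-- native coordinates `X_{N,v}(x,t) = ((x - 2tv)/N, t/N²)` -/
noncomputable def natX (N : ℝ) (v : E k) (z : ST k) : ST k := (N⁻¹ • (z.1 - (2 * z.2) • v), z.2 / N ^ 2)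

/-- the inverse of `natX N v` -/
noncomputable def natI (N : ℝ) (v : E k) (X : ST k) : ST k := (N • X.1 + (2 * (N ^ 2 * X.2)) • v, N ^ 2 * X.2)

/-- a family of packets of scale `N`: labels, native centres, native profiles (not recentred) -/
structure PFam (k : ℕ) (ι : Type) where
  /-- scale -/
  N : ℝ
  /-- frequency labels -/
  v : ι → E k
  /-- native centres -/
  u : ι → ST k
  /-- native profiles -/
  F : ι → ST k → ℂ

/-- the packet `f_T` -/
noncomputable def PFam.pk (A : PFam k ι) (T : ι) (z : ST k) : ℂ := car (A.v T) z * A.F T (natX A.N (A.v T) z)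

/-- the field `∑_{T ∈ s} f_T` -/
noncomputable def PFam.fld (A : PFam k ι) (s : Finset ι) (z : ST k) : ℂ := ∑ T ∈ s, A.pk T z

/-- native distance of `z` to the centre of `T` -/
noncomputable def PFam.d (A : PFam k ι) (T : ι) (z : ST k) : ℝ := ‖natX A.N (A.v T) z - A.u T‖

/-- the weight `w_T(z) = (1 + d_T(z))^{-P}` -/
noncomputable def PFam.w (A : PFam k ι) (P : ℝ) (T : ι) (z : ST k) : ℝ := (1 + A.d T z) ^ (-P)

/-- the physical centre `z_T` -/
noncomputable def PFam.ctr (A : PFam k ι) (T : ι) : ST k := natI A.N (A.v T) (A.u T)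

/-- the square envelope `B_b(z)² = ∑_T b_T² w_T(z)` -/
noncomputable def PFam.sq (A : PFam k ι) (P : ℝ) (s : Finset ι) (b : ι → ℝ) (z : ST k) : ℝ := ∑ T ∈ s, b T ^ 2 * A.w P T z

/-- the energy parameter `N^{k+2} ∑_T a_T²` -/
noncomputable def PFam.en (A : PFam k ι) (s : Finset ι) (a : ι → ℝ) : ℝ := A.N ^ ((k : ℝ) + 2) * ∑ T ∈ s, a T ^ 2

/-- the weighted budget `N^{k+2} ∑_T a_T^p b_T^{2-p}` -/
noncomputable def PFam.bud (A : PFam k ι) (p : ℝ) (s : Finset ι) (a b : ι → ℝ) : ℝ := A.N ^ ((k : ℝ) + 2) * ∑ T ∈ s, a T ^ p * b T ^ (2 - p)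

/-- parameters of the band limited class -/
structure PCls where
  /-- radius of the native Fourier box -/
  ρ : ℝ
  /-- decay order `P'` of the profiles -/
  P' : ℝ
  /-- radius of the frequency region -/
  C₀ : ℝ
  /-- phase space multiplicity -/
  m₀ : ℕ

/-- the subfamily `s` of `A` consists of band limited packets of the class `K` with amplitudes `a` -/
structure PFam.In (A : PFam k ι) (s : Finset ι) (K : PCls) (a : ι → ℝ) : Prop where
  one_le : 1 ≤ A.N
  fs : ∀ T ∈ s, BD.FS (closedBall (0 : ST k) K.ρ) (A.F T)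
  decay : ∀ T ∈ s, ∀ X, ‖A.F T X‖ ≤ a T * (1 + ‖X - A.u T‖) ^ (-K.P')
  freq : ∀ T ∈ s, ‖A.v T‖ ≤ K.C₀
  /-- per frequency slot `ξ`, time slab `τ` and intercept cell `y` AT THE COMMON TIME `τ` of the slab: at most `m₀` packets -/
  mult : ∀ (ξ y : E k) (τ : ℝ) (t : Finset ι), t ⊆ s →
    (∀ T ∈ t, ‖A.N • A.v T - ξ‖ ≤ 1 ∧ |(A.u T).2 - τ| ≤ 1 ∧ ‖(A.u T).1 + (2 * τ * A.N) • A.v T - y‖ ≤ 1) → t.card ≤ K.m₀

/-- one single packet of scale `N`, label `v`, native centre `u`, amplitude `a` (Fourier radius `ρ`, decay order `P'`), as a predicate on functions on space-time -/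
def IsPk (ρ P' N : ℝ) (v : E k) (u : ST k) (a : ℝ) (f : ST k → ℂ) : Prop :=
  ∃ F : ST k → ℂ, BD.FS (closedBall (0 : ST k) ρ) F ∧ (∀ X, ‖F X‖ ≤ a * (1 + ‖X - u‖) ^ (-P')) ∧ ∀ z, f z = car v z * F (natX N v z)

/-- witnesses: `1`-separated finite set of points of space-time -/
def USep (Y : Finset (ST k)) : Prop := ∀ z ∈ Y, ∀ z' ∈ Y, z ≠ z' → 1 ≤ ‖z - z'‖

/-- the family in the native coordinates `natX K v₀` of a parent cap: scale `N/K`, labels `K (v - v₀)`, same centres and profiles -/
noncomputable def PFam.resc (A : PFam k ι) (K : ℝ) (v₀ : E k) : PFam k ι where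
  N := A.N / K
  v := fun T => K • (A.v T - v₀)
  u := A.u
  F := A.F

/-- a packet array of `Infra/Defs` with its coefficients, as a packet family: `F_T(X) = L^{-k/2} c_T φ_T(X - u_T)`, `u_T = (y_T/L, tc_T)` -/
noncomputable def Arr.toPFam (A : Arr k ι) (c : ι → ℂ) : PFam k ι where
  N := A.L
  v := A.om
  u := fun α => (A.L⁻¹ • A.y α, A.tc α)
  F := fun α X => c α * ((A.L ^ (-(k : ℝ) / 2) : ℝ) : ℂ) * A.pf α (X - (A.L⁻¹ • A.y α, A.tc α))

/-! ## basic API -/

theorem natX_natI {N : ℝ} (hN : N ≠ 0) (v : E k) (X : ST k) : natX N v (natI N v X) = X := by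
  unfold natX natI
  ext1
  · simp only [add_sub_cancel_right, smul_smul, inv_mul_cancel₀ hN, one_smul]
  · simp only
    field_simp

theorem natI_natX {N : ℝ} (hN : N ≠ 0) (v : E k) (z : ST k) : natI N v (natX N v z) = z := by
  unfold natX natI
  have h2 : N ^ 2 * (z.2 / N ^ 2) = z.2 := by field_simp
  ext1
  · simp only [smul_smul, mul_inv_cancel₀ hN, one_smul, h2, sub_add_cancel]
  · simp only [h2]

theorem natX_sub (N : ℝ) (v : E k) (z z' : ST k) : natX N v (z - z') = natX N v z - natX N v z' := by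
  unfold natX
  ext1
  · simp only [Prod.fst_sub, Prod.snd_sub, mul_sub, sub_smul, smul_sub]
    abel
  · simp only [Prod.snd_sub, sub_div]

theorem chart_eq_natX (L : ℝ) (w y : E k) (τ : ℝ) (z : ST k) : chart L w y τ z = natX L w z - (L⁻¹ • y, τ) := by
  unfold chart natX
  ext1
  · simp only [Prod.fst_sub, smul_sub]
    abel
  · simp only [Prod.snd_sub]

/-- native coordinates are EXACTLY invariant under the parabolic rescaling -/
theorem natX_resc {N K : ℝ} (hK : K ≠ 0) (v v₀ : E k) (z : ST k) :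
    natX (N / K) (K • (v - v₀)) (natX K v₀ z) = natX N v z := by
  unfold natX
  ext1
  · simp only
    have h1 : 2 * (z.2 / K ^ 2) * K = K⁻¹ * (2 * z.2) := by field_simp
    have h2 : K⁻¹ • (z.1 - (2 * z.2) • v₀) - (K⁻¹ * (2 * z.2)) • (v - v₀) = K⁻¹ • (z.1 - (2 * z.2) • v) := by
      rw [mul_smul K⁻¹ (2 * z.2) (v - v₀), ← smul_sub, smul_sub (2 * z.2) v v₀]
      congr 1
      abel
    have h3 : (N / K)⁻¹ * K⁻¹ = N⁻¹ := by
      rw [inv_div]
      field_simp
    rw [smul_smul, h1, h2, smul_smul, h3]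
  · simp only
    by_cases hN : N = 0
    · subst hN; simp
    · field_simp

/-- the carrier in the coordinates of a parent cap -/
theorem car_resc {K : ℝ} (hK : K ≠ 0) (v v₀ : E k) (z : ST k) :
    car v z = car v₀ z * car (K • (v - v₀)) (natX K v₀ z) := by
  unfold car natX
  rw [← Complex.exp_add, ← mul_add, ← Complex.ofReal_add]
  congr 3
  simp only
  rw [real_inner_smul_left, real_inner_smul_right, norm_smul, mul_pow, Real.norm_eq_abs, sq_abs, inner_sub_left, inner_sub_right, inner_sub_right,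
    real_inner_smul_left, real_inner_smul_left, norm_sub_sq_real, real_inner_self_eq_norm_sq, real_inner_comm v v₀]
  field_simp
  ring

/-- **exact self-similarity of the packets** -/
theorem PFam.pk_resc (A : PFam k ι) {K : ℝ} (hK : K ≠ 0) (v₀ : E k) (T : ι) (z : ST k) :
    A.pk T z = car v₀ z * (A.resc K v₀).pk T (natX K v₀ z) := by
  unfold PFam.pk PFam.resc
  simp only
  rw [natX_resc hK, car_resc hK (A.v T) v₀ z, mul_assoc]

theorem PFam.d_resc (A : PFam k ι) {K : ℝ} (hK : K ≠ 0) (v₀ : E k) (T : ι) (z : ST k) :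
    (A.resc K v₀).d T (natX K v₀ z) = A.d T z := by
  unfold PFam.d PFam.resc
  simp only
  rw [natX_resc hK]

theorem PFam.w_resc (A : PFam k ι) {K : ℝ} (hK : K ≠ 0) (v₀ : E k) (P : ℝ) (T : ι) (z : ST k) :
    (A.resc K v₀).w P T (natX K v₀ z) = A.w P T z := by
  unfold PFam.w
  rw [A.d_resc hK]

theorem PFam.fld_resc (A : PFam k ι) {K : ℝ} (hK : K ≠ 0) (v₀ : E k) (s : Finset ι) (z : ST k) :
    A.fld s z = car v₀ z * (A.resc K v₀).fld s (natX K v₀ z) := by
  unfold PFam.fld
  rw [Finset.mul_sum]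
  exact Finset.sum_congr rfl fun T _ => A.pk_resc hK v₀ T z

theorem norm_car (v : E k) (z : ST k) : ‖car v z‖ = 1 := by
  unfold car
  rw [mul_comm]
  exact Complex.norm_exp_ofReal_mul_I _

/-- the field of an array is the field of its packet family -/
theorem Arr.fld_toPFam (A : Arr k ι) (c : ι → ℂ) (s : Finset ι) (z : ST k) : (A.toPFam c).fld s z = A.fld s c z := by
  unfold PFam.fld Arr.fld PFam.pk Arr.toPFam Arr.atom
  refine Finset.sum_congr rfl fun α _ => ?_
  simp only
  rw [chart_eq_natX]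
  ring

theorem PFam.In.amp_nonneg {A : PFam k ι} {s : Finset ι} {K : PCls} {a : ι → ℝ} (h : A.In s K a) {T : ι} (hT : T ∈ s) : 0 ≤ a T := by
  have := h.decay T hT (A.u T)
  simp only [sub_self, norm_zero, add_zero, Real.one_rpow, mul_one] at this
  exact (norm_nonneg _).trans this

theorem PFam.In.subset {A : PFam k ι} {s s' : Finset ι} {K : PCls} {a : ι → ℝ} (h : A.In s K a) (hs : s' ⊆ s) : A.In s' K a :=
  ⟨h.one_le, fun T hT => h.fs T (hs hT), fun T hT => h.decay T (hs hT), fun T hT => h.freq T (hs hT),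
    fun ξ y τ t ht => h.mult ξ y τ t (ht.trans hs)⟩

/-- the class is invariant under the parabolic rescaling to a parent cap of radius `C₁/K` -/
theorem PFam.In.resc {A : PFam k ι} {s : Finset ι} {K : PCls} {a : ι → ℝ} (h : A.In s K a) {Kp C₁ : ℝ} (hK : 0 < Kp) (hKN : Kp ≤ A.N) (v₀ : E k)
    (hcap : ∀ T ∈ s, ‖A.v T - v₀‖ ≤ C₁ / Kp) : (A.resc Kp v₀).In s ⟨K.ρ, K.P', C₁, K.m₀⟩ a := by
  refine ⟨?_, h.fs, h.decay, fun T hT => ?_, fun ξ y τ t ht hh => ?_⟩
  · show 1 ≤ A.N / Kp
    rw [le_div_iff₀ hK]; linarith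
  · show ‖Kp • (A.v T - v₀)‖ ≤ C₁
    rw [norm_smul, Real.norm_of_nonneg hK.le]
    have := hcap T hT
    rw [le_div_iff₀ hK] at this
    linarith
  · refine h.mult (ξ + A.N • v₀) (y + (2 * τ * A.N) • v₀) τ t ht fun T hT => ?_
    obtain ⟨h1, h2, h3⟩ := hh T hT
    have e1 : (A.N / Kp) • (Kp • (A.v T - v₀)) = A.N • A.v T - A.N • v₀ := by
      rw [smul_smul, div_mul_cancel₀ _ hK.ne', smul_sub]
    have e2 : (2 * τ * (A.N / Kp)) • (Kp • (A.v T - v₀)) = (2 * τ * A.N) • A.v T - (2 * τ * A.N) • v₀ := by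
      rw [smul_smul, ← smul_sub]
      congr 1
      field_simp
    refine ⟨?_, h2, ?_⟩
    · have : A.N • A.v T - (ξ + A.N • v₀) = (A.N / Kp) • (Kp • (A.v T - v₀)) - ξ := by rw [e1]; abel
      rw [this]; exact h1
    · have : (A.u T).1 + (2 * τ * A.N) • A.v T - (y + (2 * τ * A.N) • v₀) = (A.u T).1 + (2 * τ * (A.N / Kp)) • (Kp • (A.v T - v₀)) - y := by
        rw [e2]; abel
      rw [this]; exact h3

end Claimed.Agent.R257
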