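import Claimed.Agent.R257.Pk.ApiInt

/-!
# R257 / Pk / Api : BASIC ESTIMATES FOR THE PACKET CLASS  (PK2/Plan.lean, section API: A1-A6)        (helper12)

A1 (slot sum) = `pkw_slot` (`PK1/WOutB.lean`).   All constants depend only on `k`, the exponents and the radius `C₀` of the frequency region; the multiplicity `K.m₀` is explicit.
TOOLS: `BD.lintegral_Lam`, `BD.exists_lintegral_wt`, `BD.exists_volume_closedBall`, `BD.exists_sep_net`, `BD.card_le_of_sep` (`Lib/BD/Wt.lean`, `Fs.lean`), `pkw_usep_card`, `pkw_Lam_R` (`natX` versus `BD.Lam`).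
-/

set_option autoImplicit false

namespace Claimed.Agent.R257

open MeasureTheory Metric Set
open scoped ENNReal

variable {k : ℕ} {ι : Type}

/-! ## A4 : geometry of the native coordinates, Peetre inequalities -/

theorem PFam.d_nonneg (A : PFam k ι) (T : ι) (z : ST k) : 0 ≤ A.d T z := norm_nonneg _

theorem PFam.d_le_add (A : PFam k ι) (T : ι) (z z' : ST k) : A.d T z' ≤ A.d T z + ‖natX A.N (A.v T) (z' - z)‖ := by
  unfold PFam.d
  rw [natX_sub]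
  calc ‖natX A.N (A.v T) z' - A.u T‖ = ‖(natX A.N (A.v T) z - A.u T) + (natX A.N (A.v T) z' - natX A.N (A.v T) z)‖ := by congr 1; abel
    _ ≤ _ := norm_add_le _ _

theorem PFam.In.d_le {A : PFam k ι} {s : Finset ι} {K : PCls} {a : ι → ℝ} (h : A.In s K a) {T : ι} (hT : T ∈ s) (z z' : ST k) :
    A.d T z' ≤ A.d T z + (1 + 2 * K.C₀) * ‖z' - z‖ / A.N := by
  refine (A.d_le_add T z z').trans ?_
  have h1 := pk_natX_norm_le h.one_le (A.v T) (z' - z)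
  have h2 := h.freq T hT
  have hN0 : 0 < A.N := by linarith [h.one_le]
  have h3 : (1 + 2 * ‖A.v T‖) * ‖z' - z‖ / A.N ≤ (1 + 2 * K.C₀) * ‖z' - z‖ / A.N := by
    apply div_le_div_of_nonneg_right _ hN0.le
    apply mul_le_mul_of_nonneg_right _ (norm_nonneg _)
    linarith
  linarith

theorem PFam.In.C₀_nonneg {A : PFam k ι} {s : Finset ι} {K : PCls} {a : ι → ℝ} (h : A.In s K a) {T : ι} (hT : T ∈ s) : 0 ≤ K.C₀ :=
  (norm_nonneg _).trans (h.freq T hT)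

/-- Peetre inequality for the weights -/
theorem PFam.In.w_peetre {A : PFam k ι} {s : Finset ι} {K : PCls} {a : ι → ℝ} (h : A.In s K a) {T : ι} (hT : T ∈ s) {P : ℝ} (hP : 0 ≤ P) (z z' : ST k) :
    A.w P T z ≤ (1 + (1 + 2 * K.C₀) * ‖z' - z‖ / A.N) ^ P * A.w P T z' := by
  have hN0 : 0 < A.N := by linarith [h.one_le]
  have hC := h.C₀_nonneg hT
  have hc : 0 ≤ (1 + 2 * K.C₀) * ‖z' - z‖ / A.N := by positivity
  have hd := A.d_nonneg T z
  have hd' := A.d_nonneg T z'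
  have h1 : 1 + A.d T z' ≤ (1 + (1 + 2 * K.C₀) * ‖z' - z‖ / A.N) * (1 + A.d T z) := by
    have := h.d_le hT z z'
    nlinarith
  unfold PFam.w
  rw [Real.rpow_neg (by positivity), Real.rpow_neg (by positivity), ← div_eq_mul_inv, le_div_iff₀ (by positivity), inv_mul_le_iff₀ (by positivity),
    ← Real.mul_rpow (by positivity) (by positivity), mul_comm]
  exact Real.rpow_le_rpow (by positivity) (by linarith) hP

/-- Peetre inequality for the square envelopes -/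
theorem PFam.In.sq_peetre {A : PFam k ι} {s : Finset ι} {K : PCls} {a : ι → ℝ} (h : A.In s K a) {P : ℝ} (hP : 0 ≤ P) (b : ι → ℝ) (z z' : ST k) :
    A.sq P s b z ≤ (1 + (1 + 2 * K.C₀) * ‖z' - z‖ / A.N) ^ P * A.sq P s b z' := by
  unfold PFam.sq
  rw [Finset.mul_sum]
  refine Finset.sum_le_sum fun T hT => ?_
  have := h.w_peetre hT hP z z'
  calc b T ^ 2 * A.w P T z ≤ b T ^ 2 * ((1 + (1 + 2 * K.C₀) * ‖z' - z‖ / A.N) ^ P * A.w P T z') := by gcongr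
    _ = _ := by ring

/-- pointwise bound of a packet -/
theorem PFam.In.norm_pk_le {A : PFam k ι} {s : Finset ι} {K : PCls} {a : ι → ℝ} (h : A.In s K a) {T : ι} (hT : T ∈ s) (z : ST k) :
    ‖A.pk T z‖ ≤ a T * (1 + A.d T z) ^ (-K.P') := by
  unfold PFam.pk PFam.d
  rw [norm_mul, norm_car, one_mul]
  exact h.decay T hT _

theorem PFam.In.norm_fld_le {A : PFam k ι} {s : Finset ι} {K : PCls} {a : ι → ℝ} (h : A.In s K a) (z : ST k) :
    ‖A.fld s z‖ ≤ ∑ T ∈ s, a T * (1 + A.d T z) ^ (-K.P') :=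
  (norm_sum_le _ _).trans (Finset.sum_le_sum fun _ hT => h.norm_pk_le hT z)

/-! ## A2, A3 : count and Cauchy -/

/-- (H (p:count)).   Cover `closedBall 0 C₀ ⊆ E k` by `≤ C (C₀ N + 1)^k ≤ C' N^k` balls of radius `1/N` (`BD.exists_sep_net` with `ξ = 0`, `A r = C₀`, `r = 1/N`: maximal `1/N`-separated set; `BD.card_le_of_sep`);
every `T ∈ s` lies in the slot of one centre; `pkw_slot` (exponent `M`) for every centre.   (`K.C₀ ≤ C₀`; if `C₀ < 0` the family is empty.) -/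
theorem pk_count (k : ℕ) {M : ℝ} (hM : (k : ℝ) + 1 < M) (C₀ : ℝ) :
    ∃ C : ℝ, 0 ≤ C ∧ ∀ (ι : Type) (A : PFam k ι) (s : Finset ι) (K : PCls) (a : ι → ℝ), A.In s K a → K.C₀ ≤ C₀ → ∀ z : ST k,
      ∑ T ∈ s, (1 + A.d T z) ^ (-M) ≤ C * K.m₀ * A.N ^ k := by
  classical
  obtain ⟨c₃, hc₃, hslot⟩ := pkw_slot k hM
  set D : ℝ := max C₀ 0 with hD
  have hD0 : 0 ≤ D := le_max_right _ _
  refine ⟨(2 * D + 1) ^ k * c₃, by positivity, fun ι A s K a h hK z => ?_⟩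
  have hN := h.one_le
  have hN0 : 0 < A.N := by linarith
  obtain ⟨t, ht1, ht2, ht3⟩ := BD.exists_sep_net (0 : E k) (A := D * A.N) (r := 1 / A.N) (by positivity) (by positivity)
  have hDN : D * A.N * (1 / A.N) = D := by field_simp
  have hcard : (t.card : ℝ) ≤ (2 * D + 1) ^ k * A.N ^ k := by
    have := BD.card_le_of_sep (A := D * A.N) (r := 1 / A.N) (by positivity) (by positivity) t (0 : E k) ht1 ht2
    rw [finrank_euclideanSpace_fin] at this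
    refine this.trans ?_
    rw [← mul_pow]
    apply pow_le_pow_left₀ (by positivity)
    nlinarith
  have hcov : ∀ T ∈ s, ∃ c ∈ t, ‖A.v T - c‖ ≤ 1 / A.N := fun T hT => by
    apply ht3
    rw [hDN, sub_zero]
    exact ((h.freq T hT).trans hK).trans (le_max_left _ _)
  have h1 : ∑ T ∈ s, (1 + A.d T z) ^ (-M) ≤ ∑ c ∈ t, ∑ T ∈ s.filter (fun T => ‖A.v T - c‖ ≤ 1 / A.N), (1 + A.d T z) ^ (-M) := by
    simp only [Finset.sum_filter]
    rw [Finset.sum_comm]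
    refine Finset.sum_le_sum fun T hT => ?_
    obtain ⟨c, hc, hcT⟩ := hcov T hT
    have hd := A.d_nonneg T z
    have := Finset.single_le_sum (f := fun c => if ‖A.v T - c‖ ≤ 1 / A.N then (1 + A.d T z) ^ (-M) else 0)
      (fun c _ => by split_ifs <;> positivity) hc
    simpa only [if_pos hcT] using this
  calc ∑ T ∈ s, (1 + A.d T z) ^ (-M) ≤ ∑ c ∈ t, ∑ T ∈ s.filter (fun T => ‖A.v T - c‖ ≤ 1 / A.N), (1 + A.d T z) ^ (-M) := h1
    _ ≤ ∑ _c ∈ t, c₃ * K.m₀ := Finset.sum_le_sum fun c _ => by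
        have := hslot ι A s K a h c z
        convert this
    _ = t.card * (c₃ * K.m₀) := by rw [Finset.sum_const, nsmul_eq_mul]
    _ ≤ ((2 * D + 1) ^ k * A.N ^ k) * (c₃ * K.m₀) := by gcongr
    _ = _ := by ring

/-- **A3, weighted Cauchy-Schwarz**: `‖V z‖² ≤ C m₀ N^k ∑ a_T² w_T(z)`.   (Glue: `norm_fld_le`, `(1+d)^{-K.P'} ≤ (1+d)^{-P'} = (1+d)^{-P/2} (1+d)^{-(P'-P/2)}`, `Finset.sum_mul_sq_le_sq_mul_sq`, `pk_count` with `M = 2P' - P`.) -/
theorem pk_cauchy (k : ℕ) {P P' : ℝ} (hP : P + (k : ℝ) + 1 < 2 * P') (C₀ : ℝ) :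
    ∃ C : ℝ, 0 ≤ C ∧ ∀ (ι : Type) (A : PFam k ι) (s : Finset ι) (K : PCls) (a : ι → ℝ), A.In s K a → P' ≤ K.P' → K.C₀ ≤ C₀ → ∀ z : ST k,
      ‖A.fld s z‖ ^ 2 ≤ C * K.m₀ * A.N ^ k * A.sq P s a z := by
  obtain ⟨C, hC, hcount⟩ := pk_count k (M := 2 * P' - P) (by linarith) C₀
  refine ⟨C, hC, fun ι A s K a h hP' hC₀ z => ?_⟩
  have h1 : ‖A.fld s z‖ ≤ ∑ T ∈ s, (a T * (1 + A.d T z) ^ (-(P / 2))) * (1 + A.d T z) ^ (-(P' - P / 2)) := by
    refine (h.norm_fld_le z).trans (Finset.sum_le_sum fun T hT => ?_)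
    have hd := A.d_nonneg T z
    rw [mul_assoc, ← Real.rpow_add (by positivity)]
    apply mul_le_mul_of_nonneg_left _ (h.amp_nonneg hT)
    apply Real.rpow_le_rpow_of_exponent_le (by linarith)
    linarith
  have h2 := Finset.sum_mul_sq_le_sq_mul_sq s (fun T => a T * (1 + A.d T z) ^ (-(P / 2))) (fun T => (1 + A.d T z) ^ (-(P' - P / 2)))
  have h3 : ∑ T ∈ s, (a T * (1 + A.d T z) ^ (-(P / 2))) ^ 2 = A.sq P s a z := by
    unfold PFam.sq PFam.w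
    refine Finset.sum_congr rfl fun T _ => ?_
    have hd := A.d_nonneg T z
    rw [mul_pow]
    congr 1
    rw [← Real.rpow_natCast ((1 + A.d T z) ^ (-(P / 2))) 2, ← Real.rpow_mul (by positivity)]
    congr 1
    push_cast
    ring
  have h4 : ∑ T ∈ s, ((1 + A.d T z) ^ (-(P' - P / 2))) ^ 2 = ∑ T ∈ s, (1 + A.d T z) ^ (-(2 * P' - P)) := by
    refine Finset.sum_congr rfl fun T _ => ?_
    have hd := A.d_nonneg T z
    rw [← Real.rpow_natCast ((1 + A.d T z) ^ (-(P' - P / 2))) 2, ← Real.rpow_mul (by positivity)]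
    congr 1
    push_cast
    ring
  rw [h3, h4] at h2
  have h5 := hcount ι A s K a h hC₀ z
  have hsq : 0 ≤ A.sq P s a z := pkw_sq_nonneg A P s a z
  calc ‖A.fld s z‖ ^ 2 ≤ (∑ T ∈ s, (a T * (1 + A.d T z) ^ (-(P / 2))) * (1 + A.d T z) ^ (-(P' - P / 2))) ^ 2 := by
        gcongr
    _ ≤ A.sq P s a z * ∑ T ∈ s, (1 + A.d T z) ^ (-(2 * P' - P)) := h2
    _ ≤ A.sq P s a z * (C * K.m₀ * A.N ^ k) := by gcongr
    _ = _ := by ring

/-! ## A5 : sums over `1`-separated sets -/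

-- `pk_usep_int`, `pk_usep_real`, `pk_usep_sum`, `pk_usep_tube`: `Pk/ApiInt.lean` (proved).

open scoped Classical in
/-- number of points of a `1`-separated set in a ball.   (Glue: `pk_usep_sum` with `M = k + 2`: every point of the ball contributes `≥ 2^{-(k+2)}`.) -/
theorem pk_usep_ball (k : ℕ) : ∃ C : ℝ, 0 ≤ C ∧ ∀ (Y : Finset (ST k)), USep Y → ∀ (z₀ : ST k) (r : ℝ), 1 ≤ r →
    ((Y.filter fun z => ‖z - z₀‖ ≤ r).card : ℝ) ≤ C * r ^ (k + 1) := by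
  obtain ⟨C, hC, h⟩ := pk_usep_sum k (M := (k : ℝ) + 2) (by linarith)
  refine ⟨2 ^ ((k : ℝ) + 2) * C, by positivity, fun Y hY z₀ r hr => ?_⟩
  have h1 := h Y hY z₀ r hr
  have hr0 : 0 < r := by linarith
  have h2 : ((Y.filter fun z => ‖z - z₀‖ ≤ r).card : ℝ) * (2 : ℝ) ^ (-((k : ℝ) + 2)) ≤ ∑ z ∈ Y, (1 + ‖z - z₀‖ / r) ^ (-((k : ℝ) + 2)) := by
    calc ((Y.filter fun z => ‖z - z₀‖ ≤ r).card : ℝ) * (2 : ℝ) ^ (-((k : ℝ) + 2)) = ∑ z ∈ Y.filter (fun z => ‖z - z₀‖ ≤ r), (2 : ℝ) ^ (-((k : ℝ) + 2)) := by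
          rw [Finset.sum_const, nsmul_eq_mul]
      _ ≤ ∑ z ∈ Y.filter (fun z => ‖z - z₀‖ ≤ r), (1 + ‖z - z₀‖ / r) ^ (-((k : ℝ) + 2)) := by
          refine Finset.sum_le_sum fun z hz => ?_
          rw [Finset.mem_filter] at hz
          apply Real.rpow_le_rpow_of_nonpos (by positivity) _ (by linarith [(Nat.cast_nonneg k : (0:ℝ) ≤ k)])
          have : ‖z - z₀‖ / r ≤ 1 := by rw [div_le_one hr0]; exact hz.2
          linarith
      _ ≤ _ := Finset.sum_le_sum_of_subset_of_nonneg (Finset.filter_subset _ _) fun z _ _ => by positivity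
  have h3 : (2 : ℝ) ^ (-((k : ℝ) + 2)) = ((2 : ℝ) ^ ((k : ℝ) + 2))⁻¹ := Real.rpow_neg (by norm_num) _
  rw [h3, ← div_eq_mul_inv, div_le_iff₀ (by positivity)] at h2
  calc ((Y.filter fun z => ‖z - z₀‖ ≤ r).card : ℝ) ≤ (∑ z ∈ Y, (1 + ‖z - z₀‖ / r) ^ (-((k : ℝ) + 2))) * 2 ^ ((k : ℝ) + 2) := h2
    _ ≤ (C * r ^ (k + 1)) * 2 ^ ((k : ℝ) + 2) := by gcongr
    _ = _ := by ring

/-! ## A6 : the a priori bound -/

/-- **A6**: `∑_{z ∈ Y} ‖V z‖² ≤ C m₀ N^{2k+2} ∑ a_T²`  (no orthogonality; makes every best constant finite at a fixed scale).   (Glue: `pk_cauchy`, exchange the sums, `pk_usep_tube`.) -/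
theorem pk_apriori (k : ℕ) {P' : ℝ} (hP : (k : ℝ) + 1 < P') (C₀ : ℝ) :
    ∃ C : ℝ, 0 ≤ C ∧ ∀ (ι : Type) (A : PFam k ι) (s : Finset ι) (K : PCls) (a : ι → ℝ), A.In s K a → P' ≤ K.P' → K.C₀ ≤ C₀ → ∀ Y : Finset (ST k), USep Y →
      ∑ z ∈ Y, ‖A.fld s z‖ ^ 2 ≤ C * K.m₀ * A.N ^ (2 * k + 2) * ∑ T ∈ s, a T ^ 2 := by
  obtain ⟨C₁, hC₁, h1⟩ := pk_cauchy k (P := P') (P' := P') (by linarith) C₀
  obtain ⟨C₂, hC₂, h2⟩ := pk_usep_tube k hP C₀
  refine ⟨C₁ * C₂, by positivity, fun ι A s K a h hP' hC₀ Y hY => ?_⟩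
  have hN0 : 0 < A.N := by linarith [h.one_le]
  calc ∑ z ∈ Y, ‖A.fld s z‖ ^ 2 ≤ ∑ z ∈ Y, C₁ * K.m₀ * A.N ^ k * A.sq P' s a z := Finset.sum_le_sum fun z _ => h1 ι A s K a h hP' hC₀ z
    _ = C₁ * K.m₀ * A.N ^ k * ∑ T ∈ s, a T ^ 2 * ∑ z ∈ Y, A.w P' T z := by
        rw [← Finset.mul_sum]
        congr 1
        unfold PFam.sq
        rw [Finset.sum_comm]
        exact Finset.sum_congr rfl fun T _ => by rw [Finset.mul_sum]
    _ ≤ C₁ * K.m₀ * A.N ^ k * ∑ T ∈ s, a T ^ 2 * (C₂ * A.N ^ (k + 2)) := by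
        apply mul_le_mul_of_nonneg_left _ (by positivity)
        refine Finset.sum_le_sum fun T hT => ?_
        apply mul_le_mul_of_nonneg_left _ (by positivity)
        exact h2 Y hY A.N (A.v T) (A.u T) h.one_le ((h.freq T hT).trans hC₀)
    _ = _ := by
        rw [← Finset.sum_mul]
        ring

end Claimed.Agent.R257
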