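import Claimed.Agent.R257.PK1.WOut

/-!
# R257 / Pk / ApiInt : SUMS OVER `1`-SEPARATED SETS  (PK2/Plan.lean, A5)        (helper12)
`pk_usep_int` (comparison with an integral), `pk_usep_sum` (isotropic weights), `pk_usep_tube` (packet weights).
-/

set_option autoImplicit false

namespace Claimed.Agent.R257

open MeasureTheory Metric Set
open scoped ENNReal

variable {k : ℕ}

theorem pk_natX_norm_le {N : ℝ} (hN : 1 ≤ N) (v : E k) (ζ : ST k) : ‖natX N v ζ‖ ≤ (1 + 2 * ‖v‖) * ‖ζ‖ / N := by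
  have hN0 : 0 < N := by linarith
  have h1 : ‖ζ.1‖ ≤ ‖ζ‖ := norm_fst_le ζ
  have h2 : |ζ.2| ≤ ‖ζ‖ := by simpa using norm_snd_le ζ
  have hv := norm_nonneg v
  have hz := norm_nonneg ζ
  unfold natX
  rw [Prod.norm_def]
  apply max_le
  · simp only
    rw [norm_smul, norm_inv, Real.norm_of_nonneg hN0.le, inv_mul_eq_div]
    apply div_le_div_of_nonneg_right _ hN0.le
    calc ‖ζ.1 - (2 * ζ.2) • v‖ ≤ ‖ζ.1‖ + ‖(2 * ζ.2) • v‖ := norm_sub_le _ _
      _ = ‖ζ.1‖ + 2 * |ζ.2| * ‖v‖ := by rw [norm_smul, Real.norm_eq_abs, abs_mul]; norm_num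
      _ ≤ ‖ζ‖ + 2 * ‖ζ‖ * ‖v‖ := by gcongr
      _ = (1 + 2 * ‖v‖) * ‖ζ‖ := by ring
  · simp only
    rw [Real.norm_eq_abs, abs_div, abs_of_pos (by positivity : (0:ℝ) < N ^ 2)]
    have h3 : |ζ.2| / N ^ 2 ≤ ‖ζ‖ / N := by
      rw [div_le_div_iff₀ (by positivity) hN0]
      calc |ζ.2| * N ≤ ‖ζ‖ * N := by gcongr
        _ ≤ ‖ζ‖ * N ^ 2 := by
          apply mul_le_mul_of_nonneg_left _ hz
          nlinarith
    refine h3.trans ?_
    apply div_le_div_of_nonneg_right _ hN0.le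
    nlinarith

theorem pk_dd (k : ℕ) : BD.dd (E k) = k + 1 := by
  unfold BD.dd
  rw [finrank_euclideanSpace_fin]

theorem pk_natX_eq_Lam (N : ℝ) (v : E k) (z : ST k) : natX N v z = BD.Lam (-v) N⁻¹ (N ^ 2)⁻¹ z := by
  unfold natX BD.Lam
  ext1
  · simp only [smul_neg, sub_eq_add_neg]
  · simp only [div_eq_inv_mul]

/-- comparison of a sum over a `1`-separated set with an integral -/
theorem pk_usep_int (k : ℕ) : ∃ c : ℝ, 0 < c ∧ ∀ (Y : Finset (ST k)), USep Y → ∀ (f : ST k → ℝ≥0∞) (D : ℝ≥0∞), Measurable f →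
    (∀ z ∈ Y, ∀ y, ‖y - z‖ ≤ 1 / 2 → f z ≤ D * f y) → ENNReal.ofReal c * ∑ z ∈ Y, f z ≤ D * ∫⁻ y, f y := by
  obtain ⟨c₀, hc₀, hvol⟩ := BD.exists_volume_closedBall (V := E k)
  refine ⟨c₀ * (1 / 4 : ℝ) ^ (BD.dd (E k) : ℝ), by positivity, fun Y hY f D hf h => ?_⟩
  have hdisj : Set.PairwiseDisjoint (↑Y : Set (ST k)) (fun z => closedBall z (1 / 4 : ℝ)) := by
    intro z hz z' hz' hne
    apply Metric.closedBall_disjoint_closedBall
    have := hY z hz z' hz' hne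
    rw [dist_eq_norm]
    linarith
  calc ENNReal.ofReal (c₀ * (1 / 4 : ℝ) ^ (BD.dd (E k) : ℝ)) * ∑ z ∈ Y, f z
      = ∑ z ∈ Y, ∫⁻ _ in closedBall z (1 / 4 : ℝ), f z := by
        rw [Finset.mul_sum]
        refine Finset.sum_congr rfl fun z _ => ?_
        rw [setLIntegral_const, hvol z (1 / 4) (by norm_num), mul_comm]
    _ ≤ ∑ z ∈ Y, ∫⁻ y in closedBall z (1 / 4 : ℝ), D * f y := by
        refine Finset.sum_le_sum fun z hz => ?_
        refine setLIntegral_mono' measurableSet_closedBall fun y hy => ?_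
        apply h z hz y
        rw [mem_closedBall, dist_eq_norm] at hy
        linarith
    _ = ∫⁻ y in ⋃ z ∈ Y, closedBall z (1 / 4 : ℝ), D * f y :=
        (lintegral_biUnion_finset hdisj (fun _ _ => measurableSet_closedBall) _).symm
    _ ≤ ∫⁻ y, D * f y := setLIntegral_le_lintegral _ _
    _ = D * ∫⁻ y, f y := lintegral_const_mul D hf

/-- the real form of `pk_usep_int` -/
theorem pk_usep_real (k : ℕ) : ∃ c : ℝ, 0 < c ∧ ∀ (Y : Finset (ST k)), USep Y → ∀ (g : ST k → ℝ) (D I : ℝ), (∀ y, 0 ≤ g y) → Measurable g → 0 ≤ D → 0 ≤ I →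
    (∀ z ∈ Y, ∀ y, ‖y - z‖ ≤ 1 / 2 → g z ≤ D * g y) → ∫⁻ y, ENNReal.ofReal (g y) ≤ ENNReal.ofReal I → ∑ z ∈ Y, g z ≤ D * I / c := by
  obtain ⟨c, hc, h⟩ := pk_usep_int k
  refine ⟨c, hc, fun Y hY g D I hg hgm hD hI hcmp hint => ?_⟩
  have h1 := h Y hY (fun y => ENNReal.ofReal (g y)) (ENNReal.ofReal D) (ENNReal.measurable_ofReal.comp hgm) (fun z hz y hy => by
    rw [← ENNReal.ofReal_mul hD]
    exact ENNReal.ofReal_le_ofReal (hcmp z hz y hy))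
  have h2 : ENNReal.ofReal (c * ∑ z ∈ Y, g z) ≤ ENNReal.ofReal (D * I) := by
    rw [ENNReal.ofReal_mul hc.le, ENNReal.ofReal_sum_of_nonneg (fun z _ => hg z), ENNReal.ofReal_mul hD]
    exact h1.trans (mul_le_mul_right hint _)
  rw [ENNReal.ofReal_le_ofReal_iff (by positivity)] at h2
  rw [le_div_iff₀ hc]
  linarith

theorem pk_usep_sum (k : ℕ) {M : ℝ} (hM : (k : ℝ) + 1 < M) :
    ∃ C : ℝ, 0 ≤ C ∧ ∀ (Y : Finset (ST k)), USep Y → ∀ (z₀ : ST k) (r : ℝ), 1 ≤ r → ∑ z ∈ Y, (1 + ‖z - z₀‖ / r) ^ (-M) ≤ C * r ^ (k + 1) := by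
  have hk : (0 : ℝ) ≤ k := Nat.cast_nonneg k
  obtain ⟨c, hc, h⟩ := pk_usep_real k
  obtain ⟨cM, hcM, hint⟩ := BD.exists_lintegral_wt (V := E k) (E := M) (by rw [pk_dd]; push_cast; exact hM)
  refine ⟨2 ^ M * cM / c, by positivity, fun Y hY z₀ r hr => ?_⟩
  have hr0 : 0 < r := by linarith
  have h1 := h Y hY (fun y => (1 + ‖y - z₀‖ / r) ^ (-M)) (2 ^ M) (cM * r ^ (k + 1)) (fun y => by positivity)
    (Measurable.pow_const (by fun_prop) _) (by positivity) (by positivity) (fun z _ y hy => ?_) ?_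
  · calc ∑ z ∈ Y, (1 + ‖z - z₀‖ / r) ^ (-M) ≤ 2 ^ M * (cM * r ^ (k + 1)) / c := h1
      _ = _ := by ring
  · have e1 : (1 + ‖y - z₀‖ / r) / 2 ≤ 1 + ‖z - z₀‖ / r := by
      have e2 : ‖y - z₀‖ ≤ ‖z - z₀‖ + 1 / 2 := by
        calc ‖y - z₀‖ = ‖(z - z₀) + (y - z)‖ := by congr 1; abel
          _ ≤ ‖z - z₀‖ + ‖y - z‖ := norm_add_le _ _
          _ ≤ _ := by linarith
      have e3 : ‖y - z₀‖ / r ≤ ‖z - z₀‖ / r + 1 / 2 := by
        calc ‖y - z₀‖ / r ≤ (‖z - z₀‖ + 1 / 2) / r := by gcongr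
          _ = ‖z - z₀‖ / r + (1 / 2) / r := by ring
          _ ≤ ‖z - z₀‖ / r + 1 / 2 := by
            have : (1 / 2 : ℝ) / r ≤ 1 / 2 := div_le_self (by norm_num) hr
            linarith
      have e4 : 0 ≤ ‖z - z₀‖ / r := by positivity
      linarith
    have hpos : 0 < 1 + ‖y - z₀‖ / r := by positivity
    calc (1 + ‖z - z₀‖ / r) ^ (-M) ≤ ((1 + ‖y - z₀‖ / r) / 2) ^ (-M) :=
          Real.rpow_le_rpow_of_nonpos (by positivity) e1 (by linarith)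
      _ = 2 ^ M * (1 + ‖y - z₀‖ / r) ^ (-M) := by
          rw [Real.div_rpow hpos.le (by norm_num), Real.rpow_neg (by norm_num : (0:ℝ) ≤ 2), div_inv_eq_mul, mul_comm]
  · have e1 : ∫⁻ y : ST k, ENNReal.ofReal ((1 + ‖y - z₀‖ / r) ^ (-M)) = ∫⁻ y : ST k, BD.wt M r y :=
      lintegral_sub_right_eq_self (fun y : ST k => BD.wt M r y) z₀
    rw [e1, hint r hr0, pk_dd, Real.rpow_natCast]

theorem pk_usep_tube (k : ℕ) {M : ℝ} (hM : (k : ℝ) + 1 < M) (C₀ : ℝ) :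
    ∃ C : ℝ, 0 ≤ C ∧ ∀ (Y : Finset (ST k)), USep Y → ∀ (N : ℝ) (v : E k) (u : ST k), 1 ≤ N → ‖v‖ ≤ C₀ →
      ∑ z ∈ Y, (1 + ‖natX N v z - u‖) ^ (-M) ≤ C * N ^ (k + 2) := by
  have hk : (0 : ℝ) ≤ k := Nat.cast_nonneg k
  obtain ⟨c, hc, h⟩ := pk_usep_real k
  obtain ⟨cM, hcM, hint⟩ := BD.exists_lintegral_wt (V := E k) (E := M) (by rw [pk_dd]; push_cast; exact hM)
  refine ⟨|2 + C₀| ^ M * cM / c, by positivity, fun Y hY N v u hN hv => ?_⟩
  have hC₀ : 0 ≤ C₀ := (norm_nonneg _).trans hv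
  rw [abs_of_nonneg (by positivity : 0 ≤ 2 + C₀)]
  have hN0 : 0 < N := by linarith
  have hmeas : Measurable (fun y : ST k => natX N v y) := by
    unfold natX
    fun_prop
  have h1 := h Y hY (fun y => (1 + ‖natX N v y - u‖) ^ (-M)) ((2 + C₀) ^ M) (cM * N ^ (k + 2)) (fun y => by positivity)
    (Measurable.pow_const (by fun_prop) _) (by positivity) (by positivity) (fun z _ y hy => ?_) ?_
  · calc ∑ z ∈ Y, (1 + ‖natX N v z - u‖) ^ (-M) ≤ (2 + C₀) ^ M * (cM * N ^ (k + 2)) / c := h1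
      _ = _ := by ring
  · have e1 : (1 + ‖natX N v y - u‖) / (2 + C₀) ≤ 1 + ‖natX N v z - u‖ := by
      have e2 : ‖natX N v y - u‖ ≤ ‖natX N v z - u‖ + ‖natX N v (y - z)‖ := by
        rw [natX_sub]
        calc ‖natX N v y - u‖ = ‖(natX N v z - u) + (natX N v y - natX N v z)‖ := by congr 1; abel
          _ ≤ _ := norm_add_le _ _
      have e3 : ‖natX N v (y - z)‖ ≤ 1 / 2 + C₀ := by
        refine (pk_natX_norm_le hN v (y - z)).trans ?_
        rw [div_le_iff₀ hN0]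
        have : (1 + 2 * ‖v‖) * ‖y - z‖ ≤ (1 + 2 * C₀) * (1 / 2) := by
          apply mul_le_mul (by linarith) hy (norm_nonneg _) (by positivity)
        nlinarith
      rw [div_le_iff₀ (by positivity)]
      have e4 := norm_nonneg (natX N v z - u)
      nlinarith
    have hpos : 0 < 1 + ‖natX N v y - u‖ := by positivity
    calc (1 + ‖natX N v z - u‖) ^ (-M) ≤ ((1 + ‖natX N v y - u‖) / (2 + C₀)) ^ (-M) :=
          Real.rpow_le_rpow_of_nonpos (by positivity) e1 (by linarith)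
      _ = (2 + C₀) ^ M * (1 + ‖natX N v y - u‖) ^ (-M) := by
          rw [Real.div_rpow hpos.le (by positivity), Real.rpow_neg (by positivity : (0:ℝ) ≤ 2 + C₀), div_inv_eq_mul, mul_comm]
  · have e1 : ∫⁻ y : ST k, ENNReal.ofReal ((1 + ‖natX N v y - u‖) ^ (-M))
        = ∫⁻ y : ST k, (fun X : ST k => ENNReal.ofReal ((1 + ‖X - u‖) ^ (-M))) (BD.Lam (-v) N⁻¹ (N ^ 2)⁻¹ y) := by
      simp only [pk_natX_eq_Lam]
    have e2 : ∫⁻ X : ST k, ENNReal.ofReal ((1 + ‖X - u‖) ^ (-M)) = ∫⁻ X : ST k, BD.wt M 1 X := by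
      have := lintegral_sub_right_eq_self (μ := (volume : Measure (ST k))) (fun y : ST k => BD.wt M 1 y) u
      rw [← this]
      simp only [BD.wt, div_one]
    have hN1 : 0 < N⁻¹ := by positivity
    have hN2 : 0 < (N ^ 2)⁻¹ := by positivity
    rw [e1, BD.lintegral_Lam (-v) hN1 hN2 (fun X : ST k => ENNReal.ofReal ((1 + ‖X - u‖) ^ (-M))), e2, hint 1 one_pos, ← ENNReal.ofReal_mul (by positivity)]
    apply ENNReal.ofReal_le_ofReal
    rw [finrank_euclideanSpace_fin, Real.one_rpow, mul_one]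
    apply le_of_eq
    rw [mul_comm]
    congr 1
    rw [mul_inv, inv_pow, inv_inv, inv_inv, ← pow_add]

end Claimed.Agent.R257
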