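import Claimed.Agent.R257.Pk.AsmCau

/-!
# R257 / Pk / AsmBg : S5 = THE SAMPLED BACKGROUND KEEPS THE ENVELOPE EXPONENT (H l.880-890, from `p:convolution` = `pk_conv_two` of helper12)      (architect helper136)
-/

set_option autoImplicit false

namespace Claimed.Agent.R257

open MeasureTheory Metric Set
open scoped ENNReal

variable {k : ℕ} {ι κ : Type}

open scoped Classical in
/-- **L-PKA-S5** **S5: BACKGROUND.**  `∑_{T ∈ Wd} (∑_{T' ∈ J} b'² w^{(Q)}_{T'}(z_T)) w^{(P)}_T(z) ≤ C ∑_{T'} b'² w^{(P)}_{T'}(z)`.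
(All terms are `≥ 0`; `Wd ⊆ Wd.image Prod.fst ×ˢ Wd.image Prod.snd =: 𝒥 ×ˢ Fm`, so the left side is `≤ ∑_{J ∈ 𝒥} ∑_{T' ∈ fib J} b'_{T'}² ∑_{j ∈ Fm} w_{(J,j)}(z) w^{(Q)}_{T'}(z_{(J,j)})` (`Finset.sum_product`, `Finset.sum_comm`, `Finset.mul_sum`).
Unfold: `par.w P (J,j) z = (1+‖natX N (vc J) z - plat j‖)^(-P)`, `A.w Q T' (par.ctr (J,j)) = (1+‖natX N' v' (natI N (vc J) (plat j)) - u'‖)^(-Q) ≤ (…)^(-P)`; `pk_conv_two k (P₁ := P) (P₂ := P)` with `U = Fm.image plat` (`pka_usep_plat`, `Finset.sum_image`, `pka_plat_inj`), `Ok.near`: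
inner sum `≤ C A.w P T' z`.   Finally `∑_{J ∈ 𝒥} ∑_{fib J} ≤ ∑_s` (the fibres are disjoint subsets of `s`: `Finset.sum_fiberwise_of_maps_to` on `caps` + fibres over `J ∉ caps` are empty).) -/
theorem asm_bg (k : ℕ) (C₁ : ℝ) {P Q : ℝ} (hP : (k : ℝ) + 2 ≤ P) (hPQ : P ≤ Q) :
    ∃ C : ℝ, 0 ≤ C ∧ ∀ (ι κ : Type) (D : Asm k ι κ) (K : PCls) (a : ι → ℝ) (m₁ : ℕ) (ρχ Cχ Mχ : ℝ), D.Ok K a C₁ m₁ ρχ Cχ Mχ →
      ∀ (b' : ι → ℝ) (Wd : Finset (κ × PLat k)) (z : ST k), ∑ T ∈ Wd, D.smp Q b' T * D.par.w P T z ≤ C * D.A.sq P D.s b' z := by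
  have hk : (0 : ℝ) ≤ k := Nat.cast_nonneg k
  obtain ⟨C, hC, hconv⟩ := pk_conv_two k (P₁ := P) (P₂ := P) (by linarith) le_rfl hP C₁
  refine ⟨C, hC, fun ι κ D K a m₁ ρχ Cχ Mχ h b' Wd z => ?_⟩
  have hw0 : ∀ (R : ℝ) (T' : ι) (y : ST k), 0 ≤ D.A.w R T' y := fun R T' y => by
    unfold PFam.w
    have := D.A.d_nonneg T' y
    positivity
  have hpw0 : ∀ (T : κ × PLat k), 0 ≤ D.par.w P T z := fun T => by
    unfold PFam.w
    have := D.par.d_nonneg T z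
    positivity
  have hsm0 : ∀ T, 0 ≤ D.smp Q b' T := fun T => by
    unfold Asm.smp
    exact Finset.sum_nonneg fun T' _ => mul_nonneg (sq_nonneg _) (hw0 _ _ _)
  set 𝒥 := Wd.image Prod.fst with h𝒥
  set Fm := Wd.image Prod.snd with hFm
  have hsub : Wd ⊆ 𝒥 ×ˢ Fm := fun T hT => by
    rw [Finset.mem_product]
    exact ⟨Finset.mem_image_of_mem _ hT, Finset.mem_image_of_mem _ hT⟩
  have hin : ∀ J, ∀ T' ∈ D.fib J, ∑ j ∈ Fm, D.par.w P (J, j) z * D.A.w Q T' (D.par.ctr (J, j)) ≤ C * D.A.w P T' z := fun J T' hT' => by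
    have hT'' := D.mem_fib.1 hT'
    have hnear : ‖D.A.v T' - D.vc J‖ ≤ C₁ / D.N := by
      have := h.near T' hT''.1
      rwa [hT''.2] at this
    have := hconv D.N D.A.N (D.vc J) (D.A.v T') (D.A.u T') z (Fm.image plat) h.N_pos h.le hnear (pka_usep_plat Fm)
    rw [Finset.sum_image fun a _ b _ hab => pka_plat_inj hab] at this
    refine le_trans (Finset.sum_le_sum fun j _ => ?_) this
    apply mul_le_mul_of_nonneg_left _ (hpw0 _)
    show (1 + ‖natX D.A.N (D.A.v T') (natI D.N (D.vc J) (plat j)) - D.A.u T'‖) ^ (-Q) ≤ (1 + ‖natX D.A.N (D.A.v T') (natI D.N (D.vc J) (plat j)) - D.A.u T'‖) ^ (-P)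
    apply Real.rpow_le_rpow_of_exponent_le
    · linarith [norm_nonneg (natX D.A.N (D.A.v T') (natI D.N (D.vc J) (plat j)) - D.A.u T')]
    · linarith
  calc ∑ T ∈ Wd, D.smp Q b' T * D.par.w P T z ≤ ∑ T ∈ 𝒥 ×ˢ Fm, D.smp Q b' T * D.par.w P T z :=
        Finset.sum_le_sum_of_subset_of_nonneg hsub fun T _ _ => mul_nonneg (hsm0 T) (hpw0 T)
    _ = ∑ J ∈ 𝒥, ∑ T' ∈ D.fib J, b' T' ^ 2 * ∑ j ∈ Fm, D.par.w P (J, j) z * D.A.w Q T' (D.par.ctr (J, j)) := by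
        rw [Finset.sum_product]
        refine Finset.sum_congr rfl fun J _ => ?_
        unfold Asm.smp
        simp only [Finset.sum_mul, Finset.mul_sum]
        rw [Finset.sum_comm]
        refine Finset.sum_congr rfl fun T' _ => Finset.sum_congr rfl fun j _ => ?_
        ring
    _ ≤ ∑ J ∈ 𝒥, ∑ T' ∈ D.fib J, b' T' ^ 2 * (C * D.A.w P T' z) :=
        Finset.sum_le_sum fun J _ => Finset.sum_le_sum fun T' hT' => mul_le_mul_of_nonneg_left (hin J T' hT') (sq_nonneg _)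
    _ = ∑ T' ∈ D.s, if D.π T' ∈ 𝒥 then b' T' ^ 2 * (C * D.A.w P T' z) else 0 := by
        unfold Asm.fib
        simp only [Finset.sum_filter]
        rw [Finset.sum_comm]
        refine Finset.sum_congr rfl fun T' _ => ?_
        rw [Finset.sum_ite_eq]
    _ ≤ ∑ T' ∈ D.s, b' T' ^ 2 * (C * D.A.w P T' z) := by
        refine Finset.sum_le_sum fun T' _ => ?_
        split_ifs
        · exact le_rfl
        · exact mul_nonneg (sq_nonneg _) (mul_nonneg hC (hw0 _ _ _))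
    _ = C * D.A.sq P D.s b' z := by
        unfold PFam.sq
        rw [Finset.mul_sum]
        exact Finset.sum_congr rfl fun T' _ => by ring

end Claimed.Agent.R257
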