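import Claimed.Agent.R257.Pk.AsmCau

/-!
# R257 / Pk / AsmHier : S3 = WEIGHTED TRANSPORT THROUGH ONE STEP OF A HIERARCHY (H (p:hierarchy-equation)), S6 = its lossless `L²` form      (architect helper136)

`∑_{T ∈ Wd} N^(k+2) amp_T^p b_T^(2-p) ≤ C Ca^p Wt ∑_{T'} N'^(k+2) a_{T'}^p b'_{T'}^(2-p)`  whenever `b_T² ≥ ∑_{T' ∈ J} b'_{T'}² w^{(Q)}_{T'}(z_T)`, where `Wt` is ANY constant of the weighted packet estimate (`PkwLe`, envelope order `Q`, suprema over balls of radius `(k+1)/2`) at the scale `L = N'/N`.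
-/

set_option autoImplicit false

namespace Claimed.Agent.R257

open MeasureTheory Metric Set
open scoped ENNReal

variable {k : ℕ} {ι κ : Type}

/-- the counting measure of the lattice -/
noncomputable def platμ (k : ℕ) : Measure (ST k) := Measure.sum fun m : PLat k => Measure.dirac (plat m)

instance (k : ℕ) : SFinite (platμ k) := by unfold platμ; infer_instance

/-- (`lintegral_sum_measure`, `lintegral_dirac`.) -/
theorem pka_lintegral_platμ (f : ST k → ℝ≥0∞) : ∫⁻ z, f z ∂(platμ k) = ∑' m : PLat k, f (plat m) := by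
  unfold platμ
  rw [lintegral_sum_measure]
  exact tsum_congr fun m => lintegral_dirac _ _

/-- **L-PKA-PLATDENS** (`Measure.sum_apply`, `Measure.dirac_apply'`, indicator; the `tsum` of the indicator is the cardinality of a finite set: every finite subset of `{m | plat m ∈ closedBall z 1}` has `≤ 3^(k+1)` elements by `pka_lat_card` (`ENNReal.tsum_eq_iSup_sum`).) -/
theorem pka_platμ_ball (z : ST k) : platμ k (closedBall z 1) ≤ ENNReal.ofReal ((3 : ℝ) ^ (k + 1)) := by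
  classical
  unfold platμ
  rw [Measure.sum_apply _ measurableSet_closedBall, ENNReal.tsum_eq_iSup_sum]
  refine iSup_le fun t => ?_
  have e : ∀ m : PLat k, Measure.dirac (plat m) (closedBall z 1) = if plat m ∈ closedBall z 1 then 1 else 0 := fun m => by
    rw [Measure.dirac_apply' _ measurableSet_closedBall, indicator_apply]
    rfl
  simp only [e]
  rw [Finset.sum_ite, Finset.sum_const_zero, add_zero, Finset.sum_const, nsmul_eq_mul, mul_one]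
  have h1 : (t.filter fun m => plat m ∈ closedBall z 1).card ≤ 3 ^ (k + 1) := by
    refine pka_lat_card _ z.1 z.2 fun m hm => ?_
    have h2 := (Finset.mem_filter.1 hm).2
    rw [mem_closedBall, dist_eq_norm] at h2
    exact ⟨(norm_fst_le (plat m - z)).trans h2, (norm_snd_le (plat m - z)).trans h2⟩
  have h3 : ((3 : ℝ) ^ (k + 1)) = ((3 ^ (k + 1) : ℕ) : ℝ) := by push_cast; rfl
  rw [h3, ENNReal.ofReal_natCast]
  exact_mod_cast h1

/-- **L-PKA-ROUND** every point is within `(k+1)/2` of a lattice point.  (`m.1 i = round (X.1 i)`, `m.2 = round X.2`, `abs_sub_round`; `‖x‖₂ ≤ ∑ |x i| ≤ k/2` (`EuclideanSpace.norm_eq`, or `PiLp.norm_le_...`/`norm_le_sum` via `EuclideanSpace.basisFun`), sup norm of the pair.) -/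
theorem pka_round (X : ST k) : ∃ m : PLat k, ‖X - plat m‖ ≤ ((k : ℝ) + 1) / 2 := by
  refine ⟨(fun i => round (X.1 i), round X.2), ?_⟩
  rw [Prod.norm_def, max_le_iff]
  constructor
  · have h1 : ‖(X - plat ((fun i => round (X.1 i), round X.2) : PLat k)).1‖ ≤ ∑ i : Fin k, ‖(X - plat ((fun i => round (X.1 i), round X.2) : PLat k)).1 i‖ := by
      rw [EuclideanSpace.norm_eq]
      refine Real.sqrt_le_iff.2 ⟨Finset.sum_nonneg fun i _ => norm_nonneg _, ?_⟩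
      exact Finset.sum_sq_le_sq_sum_of_nonneg fun i _ => norm_nonneg _
    refine h1.trans ?_
    have h2 : ∀ i : Fin k, ‖(X - plat ((fun i => round (X.1 i), round X.2) : PLat k)).1 i‖ ≤ 1 / 2 := fun i => by
      rw [Real.norm_eq_abs]
      exact abs_sub_round (X.1 i)
    calc ∑ i : Fin k, ‖(X - plat ((fun i => round (X.1 i), round X.2) : PLat k)).1 i‖ ≤ ∑ _i : Fin k, (1 / 2 : ℝ) := Finset.sum_le_sum fun i _ => h2 i
      _ = (k : ℝ) / 2 := by simp; ring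
      _ ≤ _ := by linarith
  · have h2 : ‖(X - plat ((fun i => round (X.1 i), round X.2) : PLat k)).2‖ ≤ 1 / 2 := by
      rw [Real.norm_eq_abs]
      exact abs_sub_round X.2
    refine h2.trans ?_
    have : (0 : ℝ) ≤ k := Nat.cast_nonneg k
    linarith

/-- **L-PKA-SUPLAT** a weighted supremum is dominated by the lattice sum of the local suprema.
(For `X` take `l` from `pka_round`: `G X ≤ ⨆_{closedBall (plat l) r₀} G`; `1 + ‖plat l - plat j‖ ≤ (1 + r₀)(1 + ‖X - plat j‖)`, so `(1+‖X - plat j‖)^(-E₀) ≤ (1+r₀)^E₀ (1+‖plat l - plat j‖)^(-E₀)`; one term of the `tsum` (`ENNReal.le_tsum`).) -/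
theorem pka_sup_lat (G : ST k → ℝ≥0∞) {E₀ : ℝ} (hE : 0 ≤ E₀) (j : PLat k) :
    ⨆ X, G X * ENNReal.ofReal ((1 + ‖X - plat j‖) ^ (-E₀))
      ≤ ENNReal.ofReal ((1 + ((k : ℝ) + 1) / 2) ^ E₀) *
        ∑' l : PLat k, (⨆ X ∈ closedBall (plat l) (((k : ℝ) + 1) / 2), G X) * ENNReal.ofReal ((1 + ‖plat l - plat j‖) ^ (-E₀)) := by
  refine iSup_le fun X => ?_
  obtain ⟨l, hl⟩ := pka_round X
  set r₀ : ℝ := ((k : ℝ) + 1) / 2 with hr₀
  have hr0 : 0 ≤ r₀ := by positivity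
  have h1 : G X ≤ ⨆ X ∈ closedBall (plat l) r₀, G X :=
    le_iSup₂ (f := fun X (_ : X ∈ closedBall (plat l) r₀) => G X) X (by rw [mem_closedBall, dist_eq_norm]; exact hl)
  have h2 : 1 + ‖plat l - plat j‖ ≤ (1 + r₀) * (1 + ‖X - plat j‖) := by
    have e : plat l - plat j = (X - plat j) - (X - plat l) := by abel
    have := norm_sub_le (X - plat j) (X - plat l)
    rw [← e] at this
    have h0 := norm_nonneg (X - plat j)
    nlinarith
  have h3 : (1 + ‖X - plat j‖) ^ (-E₀) ≤ (1 + r₀) ^ E₀ * (1 + ‖plat l - plat j‖) ^ (-E₀) := by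
    rw [Real.rpow_neg (by positivity), Real.rpow_neg (by positivity), ← div_eq_mul_inv, le_div_iff₀ (by positivity), inv_mul_le_iff₀ (by positivity),
      ← Real.mul_rpow (by positivity) (by positivity), mul_comm]
    exact Real.rpow_le_rpow (by positivity) h2 hE
  calc G X * ENNReal.ofReal ((1 + ‖X - plat j‖) ^ (-E₀))
      ≤ (⨆ X ∈ closedBall (plat l) r₀, G X) * ENNReal.ofReal ((1 + r₀) ^ E₀ * (1 + ‖plat l - plat j‖) ^ (-E₀)) :=
        mul_le_mul' h1 (ENNReal.ofReal_le_ofReal h3)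
    _ = ENNReal.ofReal ((1 + r₀) ^ E₀) * ((⨆ X ∈ closedBall (plat l) r₀, G X) * ENNReal.ofReal ((1 + ‖plat l - plat j‖) ^ (-E₀))) := by
        rw [ENNReal.ofReal_mul (by positivity)]
        ring
    _ ≤ _ := by
        gcongr
        exact ENNReal.le_tsum (f := fun l : PLat k => (⨆ X ∈ closedBall (plat l) r₀, G X) * ENNReal.ofReal ((1 + ‖plat l - plat j‖) ^ (-E₀))) l

/-- the labels of the child family stay near the subspace in the coordinates of a cap.  (`e' = N • (e - vc J)`, `w' = N • w`; `‖N • x‖ = N ‖x‖`, `N * (C₂/N') = C₂/L`.) -/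
theorem Asm.near_ch (D : Asm k ι κ) (hN : 0 < D.N) {W : Submodule ℝ (E k)} {C₂ : ℝ} (h : D.A.Near D.s W C₂) (J : κ) : (D.ch J).Near (D.fib J) W C₂ := by
  obtain ⟨e, he⟩ := h
  refine ⟨D.N • (e - D.vc J), fun T hT => ?_⟩
  obtain ⟨w, hw, hle⟩ := he T (D.fib_subset J hT)
  refine ⟨D.N • w, W.smul_mem _ hw, ?_⟩
  show ‖D.N • (D.A.v T - D.vc J) - D.N • (e - D.vc J) - D.N • w‖ ≤ C₂ / (D.A.N / D.N)
  have e1 : D.N • (D.A.v T - D.vc J) - D.N • (e - D.vc J) - D.N • w = D.N • (D.A.v T - e - w) := by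
    rw [← smul_sub, ← smul_sub]
    congr 1
    abel
  rw [e1, norm_smul, Real.norm_of_nonneg hN.le]
  calc D.N * ‖D.A.v T - e - w‖ ≤ D.N * (C₂ / D.A.N) := mul_le_mul_of_nonneg_left hle hN.le
    _ = C₂ / (D.A.N / D.N) := by
      by_cases h0 : D.A.N = 0
      · simp [h0]
      · field_simp

/-- **L-PKA-HCELL** one parent cell.  In `ℝ≥0∞`:  `amp_T^p b_T^(2-p) ≤ C₀ Ca^p ∑'_l [sq'(plat l)^(1-p/2) sup_{B(plat l, r₀)} ‖U_J‖^p] (1+‖plat l - plat j‖)^(-(Cs p - Q (p/2-1)))`,   `sq' = (D.ch J).sq Q (fib J) b'`, `C₀ = (1+r₀)^(Cs p) (1+2C₁)^(Q(p/2-1))`.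
PLAN.  If `smp Q b' T = 0`: all `b' = 0` on the fibre (weights `> 0`), so all `a = 0`, `U_J = 0` (`Ok.U_le`, amplitudes `≥ 0`), `amp = 0`, left side `0` (`p > 0`).   Otherwise `0 < smp ≤ b_T²`, `b_T^(2-p) = (b_T²)^(1-p/2) ≤ smp^(1-p/2)` (antitone), `smp = sq'(plat j)` (`Asm.smp_eq`);
`sq'(plat l) ≤ (1+2C₁)^Q (1+‖plat l - plat j‖)^Q sq'(plat j)` (`PFam.In.sq_peetre` for `Ok.ch_in`, `1 ≤ L`), hence `sq'(plat j)^(1-p/2) ≤ (1+2C₁)^(Q(p/2-1)) (1+‖plat l - plat j‖)^(Q(p/2-1)) sq'(plat l)^(1-p/2)`.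
`ofReal (amp^p) ≤ ofReal (Ca^p) * ⨆ X, ‖U X‖ₑ^p * ofReal ((1+‖X - plat j‖)^(-(Cs p)))` (`Ok.amp_le` with `B = (that supremum)^(1/p)` if finite); `pka_sup_lat` with `G = ‖U ·‖ₑ^p`, `E₀ = Cs p`; multiply termwise (`ENNReal.tsum_mul_left`). -/
theorem asm_hier_cell (k : ℕ) {p Q Cs C₁ : ℝ} (hp : 2 ≤ p) (hQ : 0 ≤ Q) (hCs : 0 ≤ Cs) (hC₁ : 0 ≤ C₁)
    {D : Asm k ι κ} {K : PCls} {a : ι → ℝ} {m₁ : ℕ} {ρχ Cχ Mχ : ℝ} (hD : D.Cs = Cs) (h : D.Ok K a C₁ m₁ ρχ Cχ Mχ)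
    (b' : ι → ℝ) (hb' : ∀ T' ∈ D.s, 0 ≤ b' T') (hab : ∀ T' ∈ D.s, b' T' = 0 → a T' = 0)
    (T : κ × PLat k) (bT : ℝ) (hbT : 0 ≤ bT) (hsm : D.smp Q b' T ≤ bT ^ 2) :
    ENNReal.ofReal (D.amp T ^ p * bT ^ (2 - p))
      ≤ ENNReal.ofReal ((1 + ((k : ℝ) + 1) / 2) ^ (Cs * p) * (1 + 2 * C₁) ^ (Q * (p / 2 - 1)) * D.Ca ^ p) *
        ∑' l : PLat k, (ENNReal.ofReal ((D.ch T.1).sq Q (D.fib T.1) b' (plat l) ^ (1 - p / 2)) * (⨆ X ∈ closedBall (plat l) (((k : ℝ) + 1) / 2), ENNReal.ofReal (‖D.U T.1 X‖ ^ p))) *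
          ENNReal.ofReal ((1 + ‖plat l - plat T.2‖) ^ (-(Cs * p - Q * (p / 2 - 1)))) := by
  obtain ⟨J, j⟩ := T
  simp only
  have hp0 : 0 < p := by linarith
  have hN := h.N_pos
  have hin := h.ch_in J
  have hL := h.one_le_L
  have hL0 : 0 < D.L := lt_of_lt_of_le one_pos hL
  set r₀ : ℝ := ((k : ℝ) + 1) / 2 with hr₀
  set θ : ℝ := p / 2 - 1 with hθ
  have hθ0 : 0 ≤ θ := by rw [hθ]; linarith
  have e1θ : 1 - p / 2 = -θ := by rw [hθ]; ring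
  set sq' : ST k → ℝ := fun X => (D.ch J).sq Q (D.fib J) b' X with hsq'
  have hsmp : D.smp Q b' (J, j) = sq' (plat j) := D.smp_eq hN.ne' Q b' (J, j)
  have hw0 : ∀ T' X, 0 < (D.ch J).w Q T' X := fun T' X => Real.rpow_pos_of_pos (by have := (D.ch J).d_nonneg T' X; linarith) _
  have hsq0 : ∀ X, 0 ≤ sq' X := fun X => Finset.sum_nonneg fun T' _ => mul_nonneg (sq_nonneg _) (hw0 T' X).le
  have hCa := h.Ca_nonneg
  rcases (hsq0 (plat j)).eq_or_lt with h0 | hpos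
  · have hb0 : ∀ T' ∈ D.fib J, a T' = 0 := by
      intro T' hT'
      refine hab T' (D.fib_subset J hT') ?_
      have h1 := (Finset.sum_eq_zero_iff_of_nonneg (fun T' _ => mul_nonneg (sq_nonneg (b' T')) (hw0 T' (plat j)).le)).1 h0.symm T' hT'
      rcases mul_eq_zero.1 h1 with h2 | h2
      · exact (pow_eq_zero_iff two_ne_zero).1 h2
      · exact absurd h2 (hw0 T' (plat j)).ne'
    have hU : ∀ X, ‖D.U J X‖ = 0 := fun X => le_antisymm ((h.U_le J X).trans (le_of_eq (Finset.sum_eq_zero hb0))) (norm_nonneg _)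
    have hamp : D.amp (J, j) = 0 := by
      refine le_antisymm ?_ (h.amp_nonneg _)
      have := h.amp_le (J, j) (le_refl (0 : ℝ)) (fun X => by simp only [hU, zero_mul, le_refl])
      simpa using this
    rw [hamp, Real.zero_rpow hp0.ne', zero_mul, ENNReal.ofReal_zero]
    exact zero_le
  -- the main case
  have hbT0 : 0 < bT := by
    rcases hbT.eq_or_lt with h1 | h1
    · rw [← h1, hsmp] at hsm
      norm_num at hsm
      linarith
    · exact h1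
  have hb1 : bT ^ (2 - p) ≤ sq' (plat j) ^ (-θ) := by
    have e : bT ^ (2 - p) = (bT ^ 2) ^ (-θ) := by
      rw [← Real.rpow_natCast bT 2, ← Real.rpow_mul hbT]
      congr 1
      rw [hθ]; push_cast; ring
    rw [e]
    exact Real.rpow_le_rpow_of_nonpos hpos (hsmp ▸ hsm) (by linarith)
  -- the weighted supremum
  set G : ST k → ℝ≥0∞ := fun X => ENNReal.ofReal (‖D.U J X‖ ^ p) with hG
  set Sup : ℝ≥0∞ := ⨆ X, G X * ENNReal.ofReal ((1 + ‖X - plat j‖) ^ (-(Cs * p))) with hSup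
  have hamp : ENNReal.ofReal (D.amp (J, j) ^ p) ≤ ENNReal.ofReal (D.Ca ^ p) * Sup := by
    by_cases htop : Sup = ⊤
    · by_cases hCa0 : D.Ca = 0
      · have : D.amp (J, j) = 0 := by unfold Asm.amp; rw [hCa0, zero_mul]
        rw [this, Real.zero_rpow hp0.ne', ENNReal.ofReal_zero]
        exact zero_le
      · rw [htop, ENNReal.mul_top]
        · exact le_top
        · have : 0 < D.Ca ^ p := Real.rpow_pos_of_pos (lt_of_le_of_ne hCa (Ne.symm hCa0)) _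
          exact (ENNReal.ofReal_pos.2 this).ne'
    · set B : ℝ := Sup.toReal ^ (1 / p) with hB
      have hB0 : 0 ≤ B := Real.rpow_nonneg ENNReal.toReal_nonneg _
      have hX : ∀ X, ‖D.U J X‖ * (1 + ‖X - plat j‖) ^ (-D.Cs) ≤ B := by
        intro X
        have h1 : G X * ENNReal.ofReal ((1 + ‖X - plat j‖) ^ (-(Cs * p))) ≤ Sup := le_iSup (fun X => G X * ENNReal.ofReal ((1 + ‖X - plat j‖) ^ (-(Cs * p)))) X
        have h2 : (‖D.U J X‖ * (1 + ‖X - plat j‖) ^ (-D.Cs)) ^ p = ‖D.U J X‖ ^ p * (1 + ‖X - plat j‖) ^ (-(Cs * p)) := by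
          rw [Real.mul_rpow (norm_nonneg _) (by positivity), ← Real.rpow_mul (by positivity), hD]
          congr 2
          ring
        rw [hG] at h1
        simp only at h1
        rw [← ENNReal.ofReal_mul (by positivity), ← h2, ← ENNReal.ofReal_toReal htop] at h1
        have h3 := (ENNReal.ofReal_le_ofReal_iff ENNReal.toReal_nonneg).1 h1
        rw [hB]
        calc ‖D.U J X‖ * (1 + ‖X - plat j‖) ^ (-D.Cs) = ((‖D.U J X‖ * (1 + ‖X - plat j‖) ^ (-D.Cs)) ^ p) ^ (1 / p) := by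
              rw [← Real.rpow_mul (by positivity), mul_one_div_cancel hp0.ne', Real.rpow_one]
          _ ≤ _ := Real.rpow_le_rpow (by positivity) h3 (by positivity)
      have h4 := h.amp_le (J, j) hB0 hX
      have h5 : D.amp (J, j) ^ p ≤ D.Ca ^ p * Sup.toReal := by
        calc D.amp (J, j) ^ p ≤ (D.Ca * B) ^ p := Real.rpow_le_rpow (h.amp_nonneg _) h4 hp0.le
          _ = D.Ca ^ p * Sup.toReal := by
              rw [Real.mul_rpow hCa hB0, hB, ← Real.rpow_mul ENNReal.toReal_nonneg, one_div_mul_cancel hp0.ne', Real.rpow_one]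
      calc ENNReal.ofReal (D.amp (J, j) ^ p) ≤ ENNReal.ofReal (D.Ca ^ p * Sup.toReal) := ENNReal.ofReal_le_ofReal h5
        _ = _ := by rw [ENNReal.ofReal_mul (by positivity), ENNReal.ofReal_toReal htop]
  have hlat := pka_sup_lat G (mul_nonneg hCs hp0.le) j
  rw [← hSup, ← hr₀] at hlat
  -- comparison of the envelopes
  have hcmp : ∀ l : PLat k, sq' (plat j) ^ (-θ) ≤ (1 + 2 * C₁) ^ (Q * θ) * (1 + ‖plat l - plat j‖) ^ (Q * θ) * sq' (plat l) ^ (-θ) := by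
    intro l
    set M : ℝ := (1 + 2 * C₁) * (1 + ‖plat l - plat j‖) with hM
    have hM0 : 0 < M := by positivity
    have hbase : ∀ z z' : ST k, ‖z' - z‖ = ‖plat l - plat j‖ → sq' z ≤ M ^ Q * sq' z' := by
      intro z z' hzz
      have h1 := hin.sq_peetre hQ b' z z'
      refine h1.trans (mul_le_mul_of_nonneg_right (Real.rpow_le_rpow ?_ ?_ hQ) (hsq0 z'))
      · have : (0 : ℝ) ≤ (1 + 2 * (Asm.clsCh K C₁).C₀) * ‖z' - z‖ / (D.ch J).N := by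
          have e1 : (Asm.clsCh K C₁).C₀ = C₁ := rfl
          have e2 : (D.ch J).N = D.L := rfl
          rw [e1, e2]
          positivity
        linarith
      · have e1 : (Asm.clsCh K C₁).C₀ = C₁ := rfl
        have e2 : (D.ch J).N = D.L := rfl
        rw [e1, e2, hzz, hM]
        have h2 : (1 + 2 * C₁) * ‖plat l - plat j‖ / D.L ≤ (1 + 2 * C₁) * ‖plat l - plat j‖ := div_le_self (by positivity) hL
        nlinarith [norm_nonneg (plat l - plat j)]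
    have h1 : sq' (plat l) ≤ M ^ Q * sq' (plat j) := hbase _ _ (norm_sub_rev _ _)
    have h2 : sq' (plat j) ≤ M ^ Q * sq' (plat l) := hbase _ _ rfl
    have hposl : 0 < sq' (plat l) := by
      by_contra hcon
      have : sq' (plat l) = 0 := le_antisymm (not_lt.1 hcon) (hsq0 _)
      rw [this, mul_zero] at h2
      linarith
    have h3 : sq' (plat l) ^ θ ≤ M ^ (Q * θ) * sq' (plat j) ^ θ := by
      calc sq' (plat l) ^ θ ≤ (M ^ Q * sq' (plat j)) ^ θ := Real.rpow_le_rpow hposl.le h1 hθ0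
        _ = _ := by rw [Real.mul_rpow (by positivity) hpos.le, ← Real.rpow_mul hM0.le]
    have h4 : M ^ (Q * θ) = (1 + 2 * C₁) ^ (Q * θ) * (1 + ‖plat l - plat j‖) ^ (Q * θ) := by
      rw [hM, Real.mul_rpow (by positivity) (by positivity)]
    rw [← h4, Real.rpow_neg hpos.le, Real.rpow_neg hposl.le, ← div_eq_mul_inv, le_div_iff₀ (by positivity), inv_mul_le_iff₀ (by positivity), mul_comm]
    exact h3
  have hterm : ∀ l : PLat k,
      ((⨆ X ∈ closedBall (plat l) r₀, G X) * ENNReal.ofReal ((1 + ‖plat l - plat j‖) ^ (-(Cs * p)))) * ENNReal.ofReal (sq' (plat j) ^ (-θ))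
        ≤ ENNReal.ofReal ((1 + 2 * C₁) ^ (Q * θ)) * ((ENNReal.ofReal (sq' (plat l) ^ (-θ)) * (⨆ X ∈ closedBall (plat l) r₀, G X)) *
          ENNReal.ofReal ((1 + ‖plat l - plat j‖) ^ (-(Cs * p - Q * θ)))) := by
    intro l
    have hpl : 0 < 1 + ‖plat l - plat j‖ := by positivity
    have e : (1 + ‖plat l - plat j‖) ^ (-(Cs * p - Q * θ)) = (1 + ‖plat l - plat j‖) ^ (-(Cs * p)) * (1 + ‖plat l - plat j‖) ^ (Q * θ) := by
      rw [← Real.rpow_add hpl]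
      congr 1
      ring
    calc ((⨆ X ∈ closedBall (plat l) r₀, G X) * ENNReal.ofReal ((1 + ‖plat l - plat j‖) ^ (-(Cs * p)))) * ENNReal.ofReal (sq' (plat j) ^ (-θ))
        ≤ ((⨆ X ∈ closedBall (plat l) r₀, G X) * ENNReal.ofReal ((1 + ‖plat l - plat j‖) ^ (-(Cs * p)))) *
            ENNReal.ofReal ((1 + 2 * C₁) ^ (Q * θ) * (1 + ‖plat l - plat j‖) ^ (Q * θ) * sq' (plat l) ^ (-θ)) := by
          gcongr
          exact hcmp l
      _ = _ := by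
          rw [e, ENNReal.ofReal_mul (by positivity), ENNReal.ofReal_mul (by positivity), ENNReal.ofReal_mul (by positivity)]
          ring
  rw [e1θ]
  calc ENNReal.ofReal (D.amp (J, j) ^ p * bT ^ (2 - p))
      = ENNReal.ofReal (D.amp (J, j) ^ p) * ENNReal.ofReal (bT ^ (2 - p)) := ENNReal.ofReal_mul (Real.rpow_nonneg (h.amp_nonneg _) _)
    _ ≤ (ENNReal.ofReal (D.Ca ^ p) * (ENNReal.ofReal ((1 + r₀) ^ (Cs * p)) *
          ∑' l : PLat k, (⨆ X ∈ closedBall (plat l) r₀, G X) * ENNReal.ofReal ((1 + ‖plat l - plat j‖) ^ (-(Cs * p))))) * ENNReal.ofReal (sq' (plat j) ^ (-θ)) := by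
        refine mul_le_mul' (hamp.trans ?_) (ENNReal.ofReal_le_ofReal hb1)
        gcongr
    _ = ENNReal.ofReal (D.Ca ^ p) * ENNReal.ofReal ((1 + r₀) ^ (Cs * p)) *
          ∑' l : PLat k, ((⨆ X ∈ closedBall (plat l) r₀, G X) * ENNReal.ofReal ((1 + ‖plat l - plat j‖) ^ (-(Cs * p)))) * ENNReal.ofReal (sq' (plat j) ^ (-θ)) := by
        rw [ENNReal.tsum_mul_right]
        ring
    _ ≤ ENNReal.ofReal (D.Ca ^ p) * ENNReal.ofReal ((1 + r₀) ^ (Cs * p)) *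
          ∑' l : PLat k, ENNReal.ofReal ((1 + 2 * C₁) ^ (Q * θ)) * ((ENNReal.ofReal (sq' (plat l) ^ (-θ)) * (⨆ X ∈ closedBall (plat l) r₀, G X)) *
            ENNReal.ofReal ((1 + ‖plat l - plat j‖) ^ (-(Cs * p - Q * θ)))) := by
        exact mul_le_mul_right (ENNReal.tsum_le_tsum hterm) _
    _ = _ := by
        rw [ENNReal.tsum_mul_left, ENNReal.ofReal_mul (by positivity), ENNReal.ofReal_mul (by positivity)]
        ring

/-- **L-PKA-HCAP** one cap.  (Sum `asm_hier_cell` over `j ∈ Fm`; exchange `∑_j` and `∑'_l` (`ENNReal.tsum_comm`/`tsum_finsetSum`…); `∑_{j ∈ Fm} (1+‖plat l - plat j‖)^(-E₁) ≤ C_lat` (`pka_lat_sum`, `E₁ = Cs p - Q(p/2-1) > k+1`);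
`∑'_l sq'(plat l)^(1-p/2) sup ‖U‖^p = ∫ … d(platμ k)` (`pka_lintegral_platμ`) `≤ ∫ (sup sq'^(1-p/2)) (sup ‖fld‖^p) dplatμ ≤ ofReal (Wt 3^(k+1) (D.ch J).bud p (fib J) a b')` by `PkwLe` for the family `D.ch J` of scale `L` (`Ok.ch_in`, `Asm.near_ch`, `pka_platμ_ball`; `le_iSup₂` at the centre for the first factor).) -/
theorem asm_hier_cap (k : ℕ) {p Q Cs C₁ : ℝ} (hp : 2 ≤ p) (hQ : 0 ≤ Q) (hC₁ : 0 ≤ C₁) (hCs : (k : ℝ) + 1 < Cs * p - Q * (p / 2 - 1)) :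
    ∃ C : ℝ, 0 ≤ C ∧ ∀ (ι κ : Type) (D : Asm k ι κ) (K : PCls) (a : ι → ℝ) (m₁ : ℕ) (ρχ Cχ Mχ : ℝ) (W : Submodule ℝ (E k)) (C₂ Wt : ℝ),
      D.Cs = Cs → D.Ok K a C₁ m₁ ρχ Cχ Mχ → 0 ≤ Wt → PkwLe W (Asm.clsCh K C₁) C₂ p Q (((k : ℝ) + 1) / 2) D.L Wt → D.A.Near D.s W C₂ →
      ∀ (b' : ι → ℝ), (∀ T' ∈ D.s, 0 ≤ b' T') → (∀ T' ∈ D.s, b' T' = 0 → a T' = 0) →
      ∀ (J : κ) (Fm : Finset (PLat k)) (b : κ × PLat k → ℝ), (∀ j ∈ Fm, 0 ≤ b (J, j) ∧ D.smp Q b' (J, j) ≤ b (J, j) ^ 2) →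
        ∑ j ∈ Fm, D.amp (J, j) ^ p * b (J, j) ^ (2 - p) ≤ C * D.Ca ^ p * Wt * (D.L ^ ((k : ℝ) + 2) * ∑ T' ∈ D.fib J, a T' ^ p * b' T' ^ (2 - p)) := by
  obtain ⟨Cl, hCl, hlat⟩ := pka_lat_sum k hCs
  set r₀ : ℝ := ((k : ℝ) + 1) / 2 with hr₀
  have hr0 : 0 ≤ r₀ := by positivity
  refine ⟨(1 + r₀) ^ (Cs * p) * (1 + 2 * C₁) ^ (Q * (p / 2 - 1)) * Cl * 3 ^ (k + 1), by positivity, ?_⟩
  intro ι κ D K a m₁ ρχ Cχ Mχ W C₂ Wt hD h hWt hPk hNear b' hb' hab J Fm b hb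
  have hCs0 : 0 ≤ Cs := hD ▸ h.Cs_nonneg
  have hin := h.ch_in J
  have hbud : 0 ≤ (D.ch J).bud p (D.fib J) a b' := pkw_bud_nonneg hin (fun T hT => hb' T (D.fib_subset J hT))
  have ebud : (D.ch J).bud p (D.fib J) a b' = D.L ^ ((k : ℝ) + 2) * ∑ T' ∈ D.fib J, a T' ^ p * b' T' ^ (2 - p) := rfl
  rw [← ebud]
  have hCa := h.Ca_nonneg
  rw [← ENNReal.ofReal_le_ofReal_iff (by positivity),
    ENNReal.ofReal_sum_of_nonneg (fun j hj => mul_nonneg (Real.rpow_nonneg (h.amp_nonneg _) _) (Real.rpow_nonneg (hb j hj).1 _))]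
  set H : PLat k → ℝ≥0∞ := fun l => ENNReal.ofReal ((D.ch J).sq Q (D.fib J) b' (plat l) ^ (1 - p / 2)) * (⨆ X ∈ closedBall (plat l) r₀, ENNReal.ofReal (‖D.U J X‖ ^ p)) with hH
  set c : ℝ≥0∞ := ENNReal.ofReal ((1 + r₀) ^ (Cs * p) * (1 + 2 * C₁) ^ (Q * (p / 2 - 1)) * D.Ca ^ p) with hc
  have hHle : ∑' l, H l ≤ ENNReal.ofReal (Wt * 3 ^ (k + 1) * (D.ch J).bud p (D.fib J) a b') := by
    have := hPk ι (D.ch J) (D.fib J) a b' rfl hin (D.near_ch h.N_pos hNear J) (fun T hT => hb' T (D.fib_subset J hT)) (fun T hT => hab T (D.fib_subset J hT))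
      (platμ k) (3 ^ (k + 1)) (by positivity) pka_platμ_ball
    rw [pka_lintegral_platμ] at this
    refine le_trans (ENNReal.tsum_le_tsum fun l => ?_) this
    refine mul_le_mul' ?_ le_rfl
    exact le_iSup₂ (f := fun z' (_ : z' ∈ closedBall (plat l) r₀) => ENNReal.ofReal ((D.ch J).sq Q (D.fib J) b' z' ^ (1 - p / 2))) (plat l) (mem_closedBall_self hr0)
  have hsumj : ∀ l : PLat k, ∑ j ∈ Fm, ENNReal.ofReal ((1 + ‖plat l - plat j‖) ^ (-(Cs * p - Q * (p / 2 - 1)))) ≤ ENNReal.ofReal Cl := by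
    intro l
    rw [← ENNReal.ofReal_sum_of_nonneg (fun j _ => by positivity)]
    exact ENNReal.ofReal_le_ofReal (hlat Fm (plat l))
  calc ∑ j ∈ Fm, ENNReal.ofReal (D.amp (J, j) ^ p * b (J, j) ^ (2 - p))
      ≤ ∑ j ∈ Fm, c * ∑' l : PLat k, H l * ENNReal.ofReal ((1 + ‖plat l - plat j‖) ^ (-(Cs * p - Q * (p / 2 - 1)))) :=
        Finset.sum_le_sum fun j hj => asm_hier_cell k hp hQ hCs0 hC₁ hD h b' hb' hab (J, j) (b (J, j)) (hb j hj).1 (hb j hj).2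
    _ = c * ∑' l : PLat k, H l * ∑ j ∈ Fm, ENNReal.ofReal ((1 + ‖plat l - plat j‖) ^ (-(Cs * p - Q * (p / 2 - 1)))) := by
        rw [← Finset.mul_sum, ← Summable.tsum_finsetSum (fun _ _ => ENNReal.summable)]
        simp only [Finset.mul_sum]
    _ ≤ c * ∑' l : PLat k, H l * ENNReal.ofReal Cl :=
        mul_le_mul_right (ENNReal.tsum_le_tsum fun l => mul_le_mul_right (hsumj l) _) _
    _ = c * ENNReal.ofReal Cl * ∑' l : PLat k, H l := by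
        rw [ENNReal.tsum_mul_right]
        ring
    _ ≤ c * ENNReal.ofReal Cl * ENNReal.ofReal (Wt * 3 ^ (k + 1) * (D.ch J).bud p (D.fib J) a b') := mul_le_mul_right hHle _
    _ = _ := by
        rw [hc, ← ENNReal.ofReal_mul (by positivity), ← ENNReal.ofReal_mul (by positivity)]
        congr 1
        ring

/-- the fibres are disjoint subsets of `s` -/
theorem Asm.sum_fib_le (D : Asm k ι κ) (𝒥 : Finset κ) (g : ι → ℝ) (hg : ∀ T ∈ D.s, 0 ≤ g T) : ∑ J ∈ 𝒥, ∑ T ∈ D.fib J, g T ≤ ∑ T ∈ D.s, g T := by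
  classical
  unfold Asm.fib
  simp only [Finset.sum_filter]
  rw [Finset.sum_comm]
  refine Finset.sum_le_sum fun T hT => ?_
  rw [Finset.sum_ite_eq]
  split_ifs
  · exact le_rfl
  · exact hg T hT

open scoped Classical in
/-- **L-PKA-S3** **S3: ONE STEP OF THE HIERARCHY.**  (Group `Wd` by the first component: `∑_{T ∈ Wd} = ∑_{J ∈ Wd.image fst} ∑_{j ∈ (Wd.filter (·.1 = J)).image snd}`; `asm_hier_cap`; for `J ∉ caps` the fibre is empty and the bound is `0`; `∑_{J} ∑_{fib J} ≤ ∑_s` (fibres are disjoint, terms `≥ 0`);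
`N^(k+2) L^(k+2) = N'^(k+2)` (`Real.mul_rpow`, `D.L = D.A.N / D.N`); unfold `PFam.bud`, `D.par.N = D.N`.) -/
theorem asm_hier (k : ℕ) {p Q Cs C₁ : ℝ} (hp : 2 ≤ p) (hQ : 0 ≤ Q) (hC₁ : 0 ≤ C₁) (hCs : (k : ℝ) + 1 < Cs * p - Q * (p / 2 - 1)) :
    ∃ C : ℝ, 0 ≤ C ∧ ∀ (ι κ : Type) (D : Asm k ι κ) (K : PCls) (a : ι → ℝ) (m₁ : ℕ) (ρχ Cχ Mχ : ℝ) (W : Submodule ℝ (E k)) (C₂ Wt : ℝ),
      D.Cs = Cs → D.Ok K a C₁ m₁ ρχ Cχ Mχ → 0 ≤ Wt → PkwLe W (Asm.clsCh K C₁) C₂ p Q (((k : ℝ) + 1) / 2) D.L Wt → D.A.Near D.s W C₂ →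
      ∀ (b' : ι → ℝ), (∀ T' ∈ D.s, 0 ≤ b' T') → (∀ T' ∈ D.s, b' T' = 0 → a T' = 0) →
      ∀ (Wd : Finset (κ × PLat k)) (b : κ × PLat k → ℝ), (∀ T ∈ Wd, 0 ≤ b T ∧ D.smp Q b' T ≤ b T ^ 2) →
        D.par.bud p Wd D.amp b ≤ C * D.Ca ^ p * Wt * D.A.bud p D.s a b' := by
  obtain ⟨C, hC, hcap⟩ := asm_hier_cap k hp hQ hC₁ hCs
  refine ⟨C, hC, ?_⟩
  intro ι κ D K a m₁ ρχ Cχ Mχ W C₂ Wt hD h hWt hPk hNear b' hb' hab Wd b hb
  have hN := h.N_pos
  have hCa := h.Ca_nonneg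
  set g : ι → ℝ := fun T' => a T' ^ p * b' T' ^ (2 - p) with hg
  have hg0 : ∀ T' ∈ D.s, 0 ≤ g T' := fun T' hT' => mul_nonneg (Real.rpow_nonneg (h.inn.amp_nonneg hT') _) (Real.rpow_nonneg (hb' T' hT') _)
  set f : κ × PLat k → ℝ := fun T => D.amp T ^ p * b T ^ (2 - p) with hf
  have h1 : ∑ T ∈ Wd, f T = ∑ J ∈ Wd.image Prod.fst, ∑ j ∈ (Wd.filter fun T => T.1 = J).image Prod.snd, f (J, j) := by
    rw [← Finset.sum_fiberwise_of_maps_to (fun T hT => Finset.mem_image_of_mem Prod.fst hT)]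
    refine Finset.sum_congr rfl fun J _ => ?_
    rw [Finset.sum_image]
    · refine Finset.sum_congr rfl fun T hT => ?_
      have := (Finset.mem_filter.1 hT).2
      rw [← this]
    · intro T hT T' hT' e
      have e1 := (Finset.mem_filter.1 (Finset.mem_coe.1 hT)).2
      have e2 := (Finset.mem_filter.1 (Finset.mem_coe.1 hT')).2
      exact Prod.ext (e1.trans e2.symm) e
  have h2 : ∀ J ∈ Wd.image Prod.fst, ∑ j ∈ (Wd.filter fun T => T.1 = J).image Prod.snd, f (J, j) ≤ C * D.Ca ^ p * Wt * (D.L ^ ((k : ℝ) + 2) * ∑ T' ∈ D.fib J, g T') := by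
    intro J _
    refine hcap ι κ D K a m₁ ρχ Cχ Mχ W C₂ Wt hD h hWt hPk hNear b' hb' hab J _ b fun j hj => ?_
    obtain ⟨T, hT, rfl⟩ := Finset.mem_image.1 hj
    obtain ⟨hT1, rfl⟩ := Finset.mem_filter.1 hT
    exact hb T hT1
  have h3 : D.N ^ ((k : ℝ) + 2) * D.L ^ ((k : ℝ) + 2) = D.A.N ^ ((k : ℝ) + 2) := by
    rw [← Real.mul_rpow hN.le (by linarith [h.one_le_L])]
    congr 1
    unfold Asm.L
    field_simp
  unfold PFam.bud
  show D.N ^ ((k : ℝ) + 2) * ∑ T ∈ Wd, f T ≤ C * D.Ca ^ p * Wt * (D.A.N ^ ((k : ℝ) + 2) * ∑ T' ∈ D.s, g T')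
  have hNk : 0 ≤ D.N ^ ((k : ℝ) + 2) := Real.rpow_nonneg hN.le _
  have hLk : 0 ≤ D.L ^ ((k : ℝ) + 2) := Real.rpow_nonneg (by linarith [h.one_le_L]) _
  calc D.N ^ ((k : ℝ) + 2) * ∑ T ∈ Wd, f T
      ≤ D.N ^ ((k : ℝ) + 2) * ∑ J ∈ Wd.image Prod.fst, C * D.Ca ^ p * Wt * (D.L ^ ((k : ℝ) + 2) * ∑ T' ∈ D.fib J, g T') := by
        rw [h1]
        exact mul_le_mul_of_nonneg_left (Finset.sum_le_sum h2) hNk
    _ = C * D.Ca ^ p * Wt * (D.A.N ^ ((k : ℝ) + 2) * ∑ J ∈ Wd.image Prod.fst, ∑ T' ∈ D.fib J, g T') := by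
        rw [← Finset.mul_sum, ← Finset.mul_sum, ← h3]
        ring
    _ ≤ _ := by
        have h4 := D.sum_fib_le (Wd.image Prod.fst) g hg0
        have h5 : 0 ≤ D.A.N ^ ((k : ℝ) + 2) := h3 ▸ mul_nonneg hNk hLk
        have h6 : 0 ≤ D.Ca ^ p := Real.rpow_nonneg hCa _
        gcongr

/-- **L-PKA-S6** **S6: the lossless `L²` form** `∑_{T ∈ Wd} N^(k+2) amp_T² ≤ C Ca² ∑_{T'} N'^(k+2) a_{T'}²`.
(`asm_hier` with `p = 2`, `Q = 0`, `W = ⊤`, `b' = 1`, `b T = sqrt (smp 0 1 T)`… any admissible `b`; `x^(2-2) = 1`; `Wt` from `pkw_two ⊤ (clsCh K C₁) C₂` (`P = 0`, `r = (k+1)/2`), `pkw_near_top`; unfold `PFam.bud`, `PFam.en`.) -/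
theorem asm_l2 (k : ℕ) (K : PCls) {Cs C₁ : ℝ} (hC₁ : 0 ≤ C₁) (hP' : (k : ℝ) + 1 < K.P') (hCs : (k : ℝ) + 1 < Cs * 2) :
    ∃ C : ℝ, 0 ≤ C ∧ ∀ (ι κ : Type) (D : Asm k ι κ) (a : ι → ℝ) (m₁ : ℕ) (ρχ Cχ Mχ : ℝ), D.Cs = Cs → D.Ok K a C₁ m₁ ρχ Cχ Mχ →
      ∀ Wd : Finset (κ × PLat k), D.par.en Wd D.amp ≤ C * D.Ca ^ 2 * D.A.en D.s a := by
  obtain ⟨C, hC, hh⟩ := asm_hier k (p := 2) (Q := 0) (Cs := Cs) (C₁ := C₁) le_rfl le_rfl hC₁ (by simpa using hCs)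
  obtain ⟨Wt, hWt, hPk⟩ := pkw_two (⊤ : Submodule ℝ (E k)) (Asm.clsCh K C₁) 0 (P := 0) (r := ((k : ℝ) + 1) / 2) le_rfl hP' (by positivity)
  refine ⟨C * Wt, mul_nonneg hC hWt, ?_⟩
  intro ι κ D a m₁ ρχ Cχ Mχ hD h Wd
  have hN' : 0 ≤ D.A.N := by linarith [h.inn.one_le]
  have hsm0 : ∀ T, 0 ≤ D.smp 0 (fun _ => 1) T := fun T => Finset.sum_nonneg fun T' _ => mul_nonneg (sq_nonneg _) (Real.rpow_nonneg (by have := D.A.d_nonneg T' (D.par.ctr T); linarith) _)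
  have := hh ι κ D K a m₁ ρχ Cχ Mχ ⊤ 0 Wt hD h hWt (hPk D.L h.one_le_L) (pkw_near_top D.A D.s le_rfl hN') (fun _ => 1) (fun _ _ => zero_le_one)
    (fun _ _ h1 => absurd h1 one_ne_zero) Wd (fun T => Real.sqrt (D.smp 0 (fun _ => 1) T)) (fun T _ => ⟨Real.sqrt_nonneg _, by rw [Real.sq_sqrt (hsm0 T)]⟩)
  unfold PFam.bud at this
  unfold PFam.en
  simp only [sub_self, Real.rpow_zero, mul_one, Real.rpow_two] at this
  calc D.par.N ^ ((k : ℝ) + 2) * ∑ T ∈ Wd, D.amp T ^ 2 ≤ C * D.Ca ^ 2 * Wt * (D.A.N ^ ((k : ℝ) + 2) * ∑ T ∈ D.s, a T ^ 2) := this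
    _ = _ := by ring

/-- Stores the on-demand equation lemma of `platμ` in THIS module (rule 6 hygiene). -/
theorem pka_hier_forced : True := by
  have := @platμ.eq_1
  trivial

end Claimed.Agent.R257
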