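import Claimed.Agent.R257.Pk.AsmClo

/-!
# R257 / Pk / AsmJunk : S4 = the parent fields of large finite windows reproduce the child field on finite sets      (architect helper136)
-/

set_option autoImplicit false

namespace Claimed.Agent.R257

open MeasureTheory Metric Set
open scoped ENNReal

variable {k : ℕ} {ι κ : Type}

namespace Asm

variable {D : Asm k ι κ} {K : PCls} {a : ι → ℝ} {C₁ : ℝ} {m₁ : ℕ} {ρχ Cχ Mχ : ℝ}

/-- **L-PKA-JUNKID** the defect of a product window.  (`fld_caps`, `fld_fib`, `PFam.fld`, `PFam.pk`, `Finset.sum_product`, `Finset.mul_sum`, `ring`.) -/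
theorem junk_id (D : Asm k ι κ) (hN : D.N ≠ 0) (Fm : Finset (PLat k)) (z : ST k) :
    D.A.fld D.s z - D.par.fld (D.caps ×ˢ Fm) z
      = ∑ J ∈ D.caps, car (D.vc J) z * D.U J (natX D.N (D.vc J) z) * (1 - ∑ j ∈ Fm, D.χ (natX D.N (D.vc J) z - plat j)) := by
  classical
  rw [D.fld_caps z]
  unfold PFam.fld
  rw [Finset.sum_product, ← Finset.sum_sub_distrib]
  refine Finset.sum_congr rfl fun J _ => ?_
  have h1 : ∑ T ∈ D.fib J, D.A.pk T z = car (D.vc J) z * D.U J (natX D.N (D.vc J) z) := D.fld_fib hN J z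
  rw [h1, mul_sub, mul_one, Finset.mul_sum]
  congr 1
  refine Finset.sum_congr rfl fun j _ => ?_
  show car (D.vc J) z * (D.χ (natX D.N (D.vc J) z - plat j) * D.U J (natX D.N (D.vc J) z)) = _
  ring

/-- **L-PKA-JUNK** **S4: JUNK.**  (`junk_id`; `χ_pou` at the finitely many points `natX N (vc J) z`, `z ∈ Y`, `J ∈ caps`: `HasSum` = `Tendsto` along `atTop` of finsets, so `∀ᶠ Fm, ‖1 - ∑_{Fm} χ‖ ≤ δ'` (`Metric.tendsto_atTop`/`Filter.Tendsto.eventually`, `Filter.eventually_all_finset`, `Filter.eventually_atTop`),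
`δ' = δ / (1 + ∑_{T ∈ s} a T)`; `norm_car`, `Ok.U_le`, `∑_J ∑_{fib J} a = ∑_s a`.) -/
theorem Ok.junk (h : D.Ok K a C₁ m₁ ρχ Cχ Mχ) (Y : Finset (ST k)) {δ : ℝ} (hδ : 0 < δ) :
    ∃ Fm : Finset (PLat k), ∀ Fm' : Finset (PLat k), Fm ⊆ Fm' → ∀ z ∈ Y, ‖D.A.fld D.s z - D.par.fld (D.caps ×ˢ Fm') z‖ ≤ δ := by
  classical
  have hN := h.N_pos.ne'
  set S : ℝ := ∑ T ∈ D.s, a T with hS
  have hS0 : 0 ≤ S := Finset.sum_nonneg fun T hT => h.inn.amp_nonneg hT
  set δ' : ℝ := δ / (1 + S) with hδ'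
  have hδ'0 : 0 < δ' := by positivity
  have hev : ∀ z ∈ Y, ∀ J ∈ D.caps, ∀ᶠ Fm : Finset (PLat k) in Filter.atTop, ‖1 - ∑ j ∈ Fm, D.χ (natX D.N (D.vc J) z - plat j)‖ ≤ δ' := by
    intro z _ J _
    have h1 := h.χ_pou (natX D.N (D.vc J) z)
    have h2 := (Metric.tendsto_nhds.1 h1) δ' hδ'0
    filter_upwards [h2] with Fm hFm
    rw [← dist_eq_norm, dist_comm]
    exact hFm.le
  have hev2 : ∀ᶠ Fm : Finset (PLat k) in Filter.atTop, ∀ z ∈ Y, ∀ J ∈ D.caps, ‖1 - ∑ j ∈ Fm, D.χ (natX D.N (D.vc J) z - plat j)‖ ≤ δ' := by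
    rw [Filter.eventually_all_finset]
    intro z hz
    rw [Filter.eventually_all_finset]
    exact hev z hz
  obtain ⟨Fm, hFm⟩ := Filter.eventually_atTop.1 hev2
  refine ⟨Fm, fun Fm' hsub z hz => ?_⟩
  rw [D.junk_id hN]
  have hsum : ∑ J ∈ D.caps, ∑ T ∈ D.fib J, a T = S := by
    unfold Asm.caps Asm.fib
    exact Finset.sum_fiberwise_of_maps_to (fun T hT => Finset.mem_image_of_mem D.π hT) _
  calc ‖∑ J ∈ D.caps, car (D.vc J) z * D.U J (natX D.N (D.vc J) z) * (1 - ∑ j ∈ Fm', D.χ (natX D.N (D.vc J) z - plat j))‖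
      ≤ ∑ J ∈ D.caps, ‖car (D.vc J) z * D.U J (natX D.N (D.vc J) z) * (1 - ∑ j ∈ Fm', D.χ (natX D.N (D.vc J) z - plat j))‖ := norm_sum_le _ _
    _ ≤ ∑ J ∈ D.caps, (∑ T ∈ D.fib J, a T) * δ' := by
        refine Finset.sum_le_sum fun J hJ => ?_
        rw [norm_mul, norm_mul, norm_car, one_mul]
        exact mul_le_mul (h.U_le J _) (hFm Fm' hsub z hz J hJ) (norm_nonneg _) ((norm_nonneg _).trans (h.U_le J 0))
    _ = S * δ' := by rw [← Finset.sum_mul, hsum]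
    _ ≤ δ := by
        rw [hδ', mul_div_assoc', div_le_iff₀ (by positivity)]
        nlinarith

end Asm

end Claimed.Agent.R257
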