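import Claimed.Agent.R257.Pk.AsmClo
import Claimed.Agent.R257.PK2.NcDefs

/-!
# R257 / Pk / AsmStd : THE STANDARD ASSEMBLY  (PK2/Plan.lean, NC step 2)        (helper12)

Caps = a maximal `1/N`-separated subfamily of the child labels (`BD.exists_net`): `κ = ι`, `vc = A.v`, `C₁ = 1`, `m₁ = 3^k`; the centres of the caps are child labels, so the radius `C₀` of the frequency region does NOT grow.
* `PFam.In.of_freq`, `PFam.In.amp_mono`     change of the frequency radius, larger amplitudes   (`PFam.In.mono`, `PFam.scl`: `PK2/NcDefs.lean`)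
* `asm_std`                                 existence of the standard assembly
* `Asm.Ok.par_in_std`                       the parent family is in the class `⟨ρs, Mχ - Cs, K.C₀, 3^k * 3^(k+1)⟩` as soon as `ρχ + 2 + 3 K.ρ / L ≤ ρs`: for `ρs ≥ 2 (ρχ + 2)` and `L ≥ 6` the class with `ρ = ρs` REPRODUCES ITSELF.
-/

set_option autoImplicit false

namespace Claimed.Agent.R257

open MeasureTheory Metric Set

variable {k : ℕ} {ι κ : Type}

theorem PFam.In.of_freq {A : PFam k ι} {s : Finset ι} {K : PCls} {a : ι → ℝ} (h : A.In s K a) {C₀ : ℝ} (hC : ∀ T ∈ s, ‖A.v T‖ ≤ C₀) :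
    A.In s ⟨K.ρ, K.P', C₀, K.m₀⟩ a :=
  ⟨h.one_le, h.fs, h.decay, hC, h.mult⟩

/-- larger amplitudes -/
theorem PFam.In.amp_mono {A : PFam k ι} {s : Finset ι} {K : PCls} {a a' : ι → ℝ} (h : A.In s K a) (ha : ∀ T ∈ s, a T ≤ a' T) : A.In s K a' := by
  refine ⟨h.one_le, h.fs, fun T hT X => (h.decay T hT X).trans ?_, h.freq, h.mult⟩
  apply mul_le_mul_of_nonneg_right (ha T hT)
  have := norm_nonneg (X - A.u T)
  positivity

/-- **the standard assembly** -/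
theorem asm_std {A : PFam k ι} {s : Finset ι} {K : PCls} {a : ι → ℝ} (h : A.In s K a) {N : ℝ} (hN : 1 ≤ N) (hNA : N ≤ A.N)
    {χ : ST k → ℂ} {ρχ Cχ Mχ : ℝ} (hfs : BD.FS (closedBall (0 : ST k) ρχ) χ) (hdec : ∀ X, ‖χ X‖ ≤ Cχ * (1 + ‖X‖) ^ (-Mχ))
    (hpou : ∀ X, HasSum (fun m : PLat k => χ (X - plat m)) 1) {Ca Cs : ℝ} (hCa : Cχ ≤ Ca) (hCs : 0 ≤ Cs) (hρ : 0 ≤ K.ρ) (hP' : 0 ≤ K.P') :
    ∃ π : ι → ι, (∀ T ∈ s, π T ∈ s) ∧ (⟨A, s, N, π, A.v, χ, Ca, Cs⟩ : Asm k ι ι).Ok K a 1 (3 ^ k) ρχ Cχ Mχ := by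
  classical
  have hN0 : 0 < N := by linarith
  obtain ⟨π, h1, h2⟩ := BD.exists_net s A.v (σ := 1 / N) (by positivity)
  refine ⟨π, fun T hT => (h1 T hT).1, ⟨h, hN, hNA, fun T hT => (h1 T hT).2.1, fun ξ t ht hh => ?_, hfs, hdec, hpou, hCa, hCs, zero_le_one, hρ, hP'⟩⟩
  have hsep : ∀ J ∈ t, ∀ J' ∈ t, J ≠ J' → 1 / N < ‖A.v J - A.v J'‖ := fun J hJ J' hJ' hne => by
    obtain ⟨θ, hθ, rfl⟩ := Finset.mem_image.1 (ht hJ)
    obtain ⟨θ', hθ', rfl⟩ := Finset.mem_image.1 (ht hJ')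
    exact h2 θ hθ θ' hθ' hne
  have hinj : Set.InjOn A.v t := fun J hJ J' hJ' e => by
    by_contra hne
    have := hsep J hJ J' hJ' hne
    rw [e, sub_self, norm_zero] at this
    have : 0 < 1 / N := by positivity
    linarith
  have hcard := BD.card_le_of_sep (A := 1) (r := 1 / N) zero_le_one (by positivity) (t.image A.v) (N⁻¹ • ξ) (fun c hc => ?_) (fun c hc c' hc' hne => ?_)
  · rw [Finset.card_image_of_injOn hinj, finrank_euclideanSpace_fin] at hcard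
    have : ((t.card : ℕ) : ℝ) ≤ ((3 ^ k : ℕ) : ℝ) := by
      push_cast
      refine hcard.trans (le_of_eq ?_)
      norm_num
    exact_mod_cast this
  · obtain ⟨J, hJ, rfl⟩ := Finset.mem_image.1 hc
    have e : A.v J - N⁻¹ • ξ = N⁻¹ • (N • A.v J - ξ) := by
      rw [smul_sub, smul_smul, inv_mul_cancel₀ hN0.ne', one_smul]
    rw [e, norm_smul, norm_inv, Real.norm_of_nonneg hN0.le, one_mul, one_div]
    have := hh J hJ
    calc N⁻¹ * ‖N • A.v J - ξ‖ ≤ N⁻¹ * 1 := by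
          apply mul_le_mul_of_nonneg_left this (by positivity)
      _ = N⁻¹ := mul_one _
  · obtain ⟨J, hJ, rfl⟩ := Finset.mem_image.1 hc
    obtain ⟨J', hJ', rfl⟩ := Finset.mem_image.1 hc'
    exact (hsep J hJ J' hJ' fun e => hne (by rw [e])).le

/-- the parent class of the standard assembly -/
theorem Asm.Ok.par_in_std {D : Asm k ι ι} {K : PCls} {a : ι → ℝ} {ρχ Cχ Mχ : ℝ} (h : D.Ok K a 1 (3 ^ k) ρχ Cχ Mχ) (hvc : D.vc = D.A.v) (hπ : ∀ T ∈ D.s, D.π T ∈ D.s)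
    {ρs : ℝ} (hρs : ρχ + 2 + 3 * K.ρ / D.L ≤ ρs) (Wd : Finset (ι × PLat k)) (hW : ∀ T ∈ Wd, T.1 ∈ D.caps) :
    D.par.In Wd ⟨ρs, Mχ - D.Cs, K.C₀, 3 ^ k * 3 ^ (k + 1)⟩ D.amp := by
  classical
  have h1 := (h.par_in Wd hW).of_freq (C₀ := K.C₀) fun T hT => by
    obtain ⟨θ, hθ, e⟩ := Finset.mem_image.1 (hW T hT)
    show ‖D.vc T.1‖ ≤ K.C₀
    rw [hvc, ← e]
    exact h.inn.freq _ (hπ θ hθ)
  refine h1.mono ?_ le_rfl le_rfl le_rfl
  show ρχ + 1 + 1 ^ 2 + K.ρ * (1 + 2 * 1) / D.L ≤ ρs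
  have : K.ρ * (1 + 2 * 1) / D.L = 3 * K.ρ / D.L := by ring
  rw [this]
  linarith

end Claimed.Agent.R257
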