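import Claimed.Agent.R257.Pk.Asm
import Claimed.Agent.Lib.BD.Ker
import Claimed.Agent.R257.Infra.Alg

/-!
# R257 / Pk / Loc : THE LATTICE PARTITION OF UNITY BY BAND LIMITED FUNCTIONS  (PK2/Plan.lean, section LOC)        (helper12)

`pk_loc` : there is `χ : ST k → ℂ` with Fourier support in `closedBall 0 1`, rapidly decreasing, with `∑_{m ∈ ℤ^{k+1}} χ (X - plat m) = 1` for every `X`.     Consumers: `Asm.Ok` (`χ_fs`, `χ_dec`, `χ_pou`), `Tree.TCls`.
CONSTRUCTION (no Poisson summation): `χ X = ∫_{y ∈ cell} Kf (X - y) dy`, `cell = [0,1)^{k+1}`, `Kf` band limited, rapidly decreasing, `∫ Kf = 1`.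
Every `sorry` is a leaf `L-LOC-*`: prove IN PLACE, statements verbatim, auxiliary lemmas directly above, prefix `pk_loc_`.
-/

set_option autoImplicit false

namespace Claimed.Agent.R257

open MeasureTheory Metric Set

variable {k : ℕ}

/-- the half-open unit cell of the lattice -/
def pkCell (k : ℕ) : Set (ST k) := {y | (∀ i, 0 ≤ y.1 i ∧ y.1 i < 1) ∧ 0 ≤ y.2 ∧ y.2 < 1}

/-- a continuous rapidly decreasing function on space-time is integrable -/
theorem pk_loc_int {K : ST k → ℂ} (hKc : Continuous K) (hdec : ∀ M : ℝ, ∃ C : ℝ, ∀ y, ‖K y‖ ≤ C * (1 + ‖y‖) ^ (-M)) : Integrable K := by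
  have := BD.wt_haar (V := E k)
  obtain ⟨C, hC⟩ := hdec ((Module.finrank ℝ (ST k) : ℝ) + 1)
  have h1 : Integrable (fun y : ST k => C * (1 + ‖y‖) ^ (-((Module.finrank ℝ (ST k) : ℝ) + 1))) :=
    (integrable_one_add_norm (by linarith)).const_mul C
  exact h1.mono' hKc.aestronglyMeasurable (Filter.Eventually.of_forall hC)

/-- **L-LOC-KER.**  `(φ₁, K₁, c₁)`, `(φ₂, K₂, c₂)` of `BD.exists_bump_pair` on `E k` and on `ℝ` with `r₁ = 1/2`, `r₂ = 1`;  `Kf y = c₁ c₂ K₁ y.1 K₂ y.2`.   CLONE of the first half of the proof of `BD.exists_eta` (`Lib/BD/Ker.lean` l.279-387).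
`FS`: density `g w = c₁ c₂ φ₁ w.1 φ₂ w.2` (continuous, compact support: integrable, `bde_int_phi`, `Integrable.mul_prod`), `ch (pr y w) = ch ⟪y.1,w.1⟫ ch (y.2 w.2)` (`bde_ch_add`), `integral_prod_mul`, `Measure.volume_eq_prod`; `g = 0` off `closedBall 0 1` (sup norm).
Integrable: `BD.bde_int_K` for `K₁`, `K₂`, `Integrable.mul_prod`, `Measure.volume_eq_prod`.   Decay: for `M ≥ 0`: `(1+‖y.1‖)^(-M) (1+|y.2|)^(-M) ≤ (1+‖y‖)^(-M)` (`‖y‖ = max`); for `M < 0` use the bound with `M = 0`.     `∫ Kf = (c₁ ∫ K₁)(c₂ ∫ K₂) = φ₁ 0 φ₂ 0 = 1` (last clause of `exists_bump_pair` at `w = 0`, `ch 0 = 1`). -/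
theorem pk_loc_ker (k : ℕ) : ∃ Kf : ST k → ℂ, Integrable Kf ∧ BD.FS (closedBall (0 : ST k) 1) Kf ∧ (∀ M : ℝ, ∃ C : ℝ, ∀ y, ‖Kf y‖ ≤ C * (1 + ‖y‖) ^ (-M)) ∧ ∫ y, Kf y = 1 := by
  have := BD.wt_haar (V := E k)
  obtain ⟨η₀, g1, g2, g3, -⟩ := BD.exists_eta (E k)
  obtain ⟨η, hη⟩ : ∃ η : ST k → ℂ, η = fun y => η₀ ((2 : ℝ)⁻¹ • (y - 0)) := ⟨_, rfl⟩
  have h1 : BD.FS (closedBall (0 : ST k) (1 / 2)) η := hη ▸ g1.dilate two_pos 0
  have h2 : ∀ y, ‖y‖ ≤ 1 → 1 ≤ ‖η y‖ := by
    intro y hy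
    rw [hη]
    refine g2 _ ?_
    rw [sub_zero, norm_smul, Real.norm_of_nonneg (by norm_num)]
    linarith
  have h3 : ∀ M : ℝ, ∃ C : ℝ, ∀ y, ‖η y‖ ≤ C * (1 + ‖y‖) ^ (-M) := by
    intro M
    obtain ⟨C, hC⟩ := g3 (max M 0)
    have hC0 : 0 ≤ C := by
      have := hC 0
      simp only [norm_zero, add_zero, Real.one_rpow, mul_one] at this
      exact (norm_nonneg _).trans this
    refine ⟨C * 2 ^ (max M 0), fun y => ?_⟩
    rw [hη]
    refine (hC _).trans ?_
    rw [sub_zero, norm_smul, Real.norm_of_nonneg (by norm_num : (0 : ℝ) ≤ 2⁻¹), mul_assoc]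
    refine mul_le_mul_of_nonneg_left ?_ hC0
    have hy := norm_nonneg y
    have a1 : (1 + 2⁻¹ * ‖y‖) ^ (-(max M 0)) ≤ 2 ^ (max M 0) * (1 + ‖y‖) ^ (-(max M 0)) := by
      rw [Real.rpow_neg (by positivity), Real.rpow_neg (by positivity), ← div_eq_mul_inv, le_div_iff₀ (by positivity), inv_mul_le_iff₀ (by positivity),
        ← Real.mul_rpow (by positivity) (by positivity)]
      exact Real.rpow_le_rpow (by positivity) (by linarith) (le_max_right _ _)
    refine a1.trans (mul_le_mul_of_nonneg_left ?_ (by positivity))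
    exact Real.rpow_le_rpow_of_exponent_le (by linarith) (neg_le_neg (le_max_left M 0))
  have hK0 : BD.FS (closedBall (0 : ST k) 1) (fun y => η y * (starRingEnd ℂ) (η y)) := by
    refine (h1.mul (BD.orthx_FS_conj h1)).mono ?_
    rintro _ ⟨w, hw, _, ⟨w', hw', rfl⟩, rfl⟩
    rw [mem_closedBall_zero_iff] at hw hw' ⊢
    calc ‖w + -w'‖ ≤ ‖w‖ + ‖-w'‖ := norm_add_le _ _
      _ ≤ 1 := by rw [norm_neg]; linarith
  have hdec0 : ∀ M : ℝ, ∃ C : ℝ, ∀ y, ‖η y * (starRingEnd ℂ) (η y)‖ ≤ C * (1 + ‖y‖) ^ (-M) := by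
    intro M
    obtain ⟨C, hC⟩ := h3 M
    obtain ⟨C', hC'⟩ := h3 0
    refine ⟨C * C', fun y => ?_⟩
    rw [norm_mul, RCLike.norm_conj]
    have a := hC y
    have b := hC' y
    rw [neg_zero, Real.rpow_zero, mul_one] at b
    calc ‖η y‖ * ‖η y‖ ≤ (C * (1 + ‖y‖) ^ (-M)) * C' := mul_le_mul a b (norm_nonneg _) ((norm_nonneg _).trans a)
      _ = _ := by ring
  have hint := pk_loc_int hK0.continuous hdec0
  have e0 : ∀ y, η y * (starRingEnd ℂ) (η y) = ((‖η y‖ ^ 2 : ℝ) : ℂ) := fun y => by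
    rw [Complex.mul_conj, Complex.normSq_eq_norm_sq]
  have hintR : Integrable fun y => ‖η y‖ ^ 2 := by
    have := hint.norm
    refine this.congr (Filter.Eventually.of_forall fun y => ?_)
    simp only
    rw [norm_mul, RCLike.norm_conj, sq]
  have hpos : 0 < ∫ y, ‖η y‖ ^ 2 := by
    rw [integral_pos_iff_support_of_nonneg (fun y => by positivity) hintR]
    refine lt_of_lt_of_le (Metric.measure_ball_pos volume (0 : ST k) one_pos) (measure_mono fun y hy => ?_)
    rw [mem_ball_zero_iff] at hy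
    have := h2 y hy.le
    rw [Function.mem_support]
    positivity
  set I : ℝ := ∫ y, ‖η y‖ ^ 2 with hI
  have eI : ∫ y, η y * (starRingEnd ℂ) (η y) = (I : ℂ) := by
    simp only [e0]
    exact integral_ofReal
  refine ⟨fun y => ((I⁻¹ : ℝ) : ℂ) * (η y * (starRingEnd ℂ) (η y)), hint.const_mul _, hK0.const_mul _, fun M => ?_, ?_⟩
  · obtain ⟨C, hC⟩ := hdec0 M
    refine ⟨I⁻¹ * C, fun y => ?_⟩
    rw [norm_mul, Complex.norm_real, Real.norm_of_nonneg (inv_nonneg.2 hpos.le), mul_assoc]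
    exact mul_le_mul_of_nonneg_left (hC y) (inv_nonneg.2 hpos.le)
  · rw [integral_const_mul, eI, ← Complex.ofReal_mul, inv_mul_cancel₀ hpos.ne', Complex.ofReal_one]

theorem pk_loc_cell_eq (k : ℕ) : pkCell k = cube (0 : PLat k) := by
  unfold pkCell cube
  simp only [Prod.fst_zero, Prod.snd_zero, Pi.zero_apply, Int.cast_zero, zero_add]

theorem pk_loc_mem_cube (m : PLat k) (y : ST k) : y + plat m ∈ cube m ↔ y ∈ cube (0 : PLat k) := by
  unfold cube plat
  simp only [Set.mem_ofPred_eq, Prod.fst_add, Prod.snd_add, PiLp.add_apply, Prod.fst_zero, Prod.snd_zero, Pi.zero_apply, Int.cast_zero, zero_add]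
  constructor
  · rintro ⟨h1, h2, h3⟩
    exact ⟨fun i => ⟨by linarith [(h1 i).1], by linarith [(h1 i).2]⟩, by linarith, by linarith⟩
  · rintro ⟨h1, h2, h3⟩
    exact ⟨fun i => ⟨by linarith [(h1 i).1], by linarith [(h1 i).2]⟩, by linarith, by linarith⟩

/-- **L-LOC-CELL** (1).  (`measurableSet_setOf`, finite intersections: `MeasurableSet.iInter`/`measurableSet_le`, `measurableSet_lt`; the coordinate maps `y ↦ y.1 i` are continuous (`fun_prop` / `EuclideanSpace.proj`).) -/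
theorem pk_loc_cell_meas (k : ℕ) : MeasurableSet (pkCell k) := by
  rw [pk_loc_cell_eq]
  exact inf_cube_measurable _

/-- **L-LOC-CELL** (2).  (`‖y.1‖ ≤ ∑ i, |y.1 i| ≤ k` (`EuclideanSpace.norm_eq` + `Real.sqrt_le_…`, or `PiLp.norm_le_…`, or `norm_sum_le` on `EuclideanSpace.basisFun` as in `pka_round`), `|y.2| ≤ 1`, sup norm.) -/
theorem pk_loc_cell_bdd {y : ST k} (hy : y ∈ pkCell k) : ‖y‖ ≤ (k : ℝ) + 1 := by
  rw [pk_loc_cell_eq] at hy
  have hz : (0 : ST k) ∈ cube (0 : PLat k) := by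
    unfold cube
    simp
  have h1 := inf_cube_subset_ball (0 : PLat k) hz hy
  rw [mem_closedBall, dist_zero_right] at h1
  have h2 : Real.sqrt k ≤ k := by
    rw [Real.sqrt_le_self_iff]
    rcases Nat.eq_zero_or_pos k with h | h
    · left; exact_mod_cast h
    · right; exact_mod_cast h
  linarith

/-- **L-LOC-CELL** (3).  (`m.1 i = ⌊X.1 i⌋`, `m.2 = ⌊X.2⌋`; `Int.floor_le`, `Int.lt_floor_add_one`; uniqueness: `Int.floor_eq_iff`.) -/
theorem pk_loc_cell_tile (X : ST k) : ∃! m : PLat k, X - plat m ∈ pkCell k := by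
  have e : ∀ m : PLat k, X - plat m ∈ pkCell k ↔ X ∈ cube m := fun m => by
    rw [pk_loc_cell_eq, ← pk_loc_mem_cube m (X - plat m), sub_add_cancel]
  simp only [e]
  exact inf_cube_partition X

theorem pk_loc_cell_vol (k : ℕ) : volume (pkCell k) ≠ ⊤ := by
  have h : pkCell k ⊆ closedBall (0 : ST k) ((k : ℝ) + 1) := fun y hy => by
    rw [mem_closedBall, dist_zero_right]
    exact pk_loc_cell_bdd hy
  exact ((measure_mono h).trans_lt measure_closedBall_lt_top).ne

/-- **L-LOC-AVG.**  Averages of translates keep the Fourier support.   With `g` the density of `F`: new density `g' w = g w * ∫ y in Q, BD.ch (-BD.pr y w)`;  `‖g' w‖ ≤ ‖g w‖ * (volume Q).toReal` (`norm_integral_le_of_norm_le_const`/`norm_setIntegral_le_of_norm_le_const`, `BD.bde_norm_ch`);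
measurability of `w ↦ ∫ y in Q, ch (-pr y w)`: `StronglyMeasurable.integral_prod_right'` (the integrand is continuous in `(w,y)`: `BD.orthx_continuous_pr`, `BD.bde_ch_cont`), so `g'` is integrable (`Integrable.mono'`/`Integrable.bdd_mul`);
identity: `∫ y in Q, ∫ w, ch (pr (X - y) w) g w = ∫ w, ∫ y in Q, …` (`integral_integral_swap`; the integrand has norm `‖g w‖`, integrable on `(volume.restrict Q).prod volume` because `volume Q < ∞`: `Integrable.mono'` of `(integrable_const 1).mul_prod hg`-type), `pr (X - y) w = pr X w - pr y w`, `bde_ch_add`, `integral_const_mul`. -/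
theorem pk_loc_avg {S : Set (ST k)} {F : ST k → ℂ} (hF : BD.FS S F) {Q : Set (ST k)} (hQ : MeasurableSet Q) (hvol : volume Q ≠ ⊤) :
    BD.FS S (fun X => ∫ y in Q, F (X - y)) := by
  obtain ⟨g, hg, hg0, hKg⟩ := hF
  have : IsFiniteMeasure (volume.restrict Q) := ⟨by rw [Measure.restrict_apply_univ]; exact lt_top_iff_ne_top.2 hvol⟩
  have hcont : Continuous fun p : ST k × ST k => BD.ch (-(BD.pr p.2 p.1)) := by
    unfold BD.ch BD.pr
    fun_prop
  have hnorm : ∀ θ : ℝ, ‖BD.ch θ‖ = 1 := fun θ => BD.norm_ch θ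
  refine ⟨fun w => (∫ y in Q, BD.ch (-(BD.pr y w))) * g w, ?_, fun w hw => by simp only [hg0 w hw, mul_zero], fun X => ?_⟩
  · refine hg.bdd_mul (c := (volume Q).toReal) ?_ ?_
    · exact (hcont.stronglyMeasurable.integral_prod_right (ν := volume.restrict Q)).aestronglyMeasurable
    · refine Filter.Eventually.of_forall fun w => ?_
      refine (norm_integral_le_integral_norm _).trans ?_
      simp only [hnorm, integral_const, smul_eq_mul, mul_one, measureReal_restrict_apply_univ]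
      exact le_rfl
  · have hsw : Integrable (Function.uncurry fun (y w : ST k) => BD.ch (BD.pr (X - y) w) * g w) ((volume.restrict Q).prod volume) := by
      have h1 : Integrable (fun p : ST k × ST k => (1 : ℂ) * g p.2) ((volume.restrict Q).prod volume) :=
        (integrable_const (1 : ℂ)).mul_prod hg
      have hc2 : Continuous fun p : ST k × ST k => BD.ch (BD.pr (X - p.1) p.2) := by
        unfold BD.ch BD.pr
        fun_prop
      have h2 := h1.bdd_mul (c := 1) hc2.aestronglyMeasurable (Filter.Eventually.of_forall fun p => (hnorm _).le)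
      refine h2.congr (Filter.Eventually.of_forall fun p => ?_)
      simp only [Function.uncurry, one_mul]
    calc ∫ y in Q, F (X - y) = ∫ y in Q, ∫ w, BD.ch (BD.pr (X - y) w) * g w := by simp only [hKg]
      _ = ∫ w, ∫ y in Q, BD.ch (BD.pr (X - y) w) * g w := integral_integral_swap hsw
      _ = ∫ w, BD.ch (BD.pr X w) * ((∫ y in Q, BD.ch (-(BD.pr y w))) * g w) := by
          refine integral_congr_ae (Filter.Eventually.of_forall fun w => ?_)
          simp only
          rw [← mul_assoc, ← integral_const_mul, ← integral_mul_const]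
          refine integral_congr_ae (Filter.Eventually.of_forall fun y => ?_)
          simp only
          congr 1
          rw [← BD.bdu_ch_add]
          congr 1
          unfold BD.pr
          simp only [Prod.fst_sub, Prod.snd_sub, inner_sub_left]
          ring

theorem pk_loc_avg_dec {K : ST k → ℂ} {Q : Set (ST k)} (hQf : volume Q ≠ ⊤) {r : ℝ} (hr : 0 ≤ r) (hQr : ∀ y ∈ Q, ‖y‖ ≤ r)
    {M C : ℝ} (hM : 0 ≤ M) (hC : ∀ y, ‖K y‖ ≤ C * (1 + ‖y‖) ^ (-M)) (X : ST k) :
    ‖∫ y in Q, K (X - y)‖ ≤ C * (1 + r) ^ M * (volume Q).toReal * (1 + ‖X‖) ^ (-M) := by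
  have hC0 : 0 ≤ C := by
    have := hC 0
    simp only [norm_zero, add_zero, Real.one_rpow, mul_one] at this
    exact (norm_nonneg _).trans this
  have h1 : ∀ y ∈ Q, ‖K (X - y)‖ ≤ C * ((1 + r) ^ M * (1 + ‖X‖) ^ (-M)) := by
    intro y hy
    refine (hC _).trans (mul_le_mul_of_nonneg_left ?_ hC0)
    have h2 : 1 + ‖X‖ ≤ (1 + r) * (1 + ‖X - y‖) := by
      have e : X = (X - y) + y := by abel
      have h3 := norm_add_le (X - y) y
      rw [← e] at h3
      have h4 := hQr y hy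
      have h5 := norm_nonneg (X - y)
      nlinarith
    rw [Real.rpow_neg (by positivity), Real.rpow_neg (by positivity), ← div_eq_mul_inv, le_div_iff₀ (by positivity), inv_mul_le_iff₀ (by positivity),
      ← Real.mul_rpow (by positivity) (by positivity), mul_comm]
    exact Real.rpow_le_rpow (by positivity) h2 hM
  refine (norm_setIntegral_le_of_norm_le_const (lt_top_iff_ne_top.2 hQf) h1).trans (le_of_eq ?_)
  unfold Measure.real
  ring

/-- **L-LOC-DEC.**  (`M ≥ 0`: `‖∫ y in Q, Kf (X - y)‖ ≤ sup * (volume Q).toReal` (`norm_setIntegral_le_of_norm_le_const`), `1 + ‖X‖ ≤ (1 + r)(1 + ‖X - y‖)` for `‖y‖ ≤ r`, so `(1+‖X-y‖)^(-M) ≤ (1+r)^M (1+‖X‖)^(-M)`;  `M < 0`: use the case `M = 0`.) -/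
theorem pk_loc_dec {Kf : ST k → ℂ} (hK : ∀ M : ℝ, ∃ C : ℝ, ∀ y, ‖Kf y‖ ≤ C * (1 + ‖y‖) ^ (-M)) {Q : Set (ST k)} (hvol : volume Q ≠ ⊤) {r : ℝ} (hr : ∀ y ∈ Q, ‖y‖ ≤ r) :
    ∀ M : ℝ, ∃ C : ℝ, 0 ≤ C ∧ ∀ X, ‖∫ y in Q, Kf (X - y)‖ ≤ C * (1 + ‖X‖) ^ (-M) := by
  intro M
  obtain ⟨C, hC⟩ := hK (max M 0)
  have hC0 : 0 ≤ C := by
    have := hC 0
    simp only [norm_zero, add_zero, Real.one_rpow, mul_one] at this
    exact (norm_nonneg _).trans this
  refine ⟨C * (1 + max r 0) ^ (max M 0) * (volume Q).toReal, by positivity, fun X => ?_⟩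
  have h4 := pk_loc_avg_dec hvol (r := max r 0) (le_max_right _ _) (fun y hy => (hr y hy).trans (le_max_left _ _)) (le_max_right M 0) hC X
  refine h4.trans (mul_le_mul_of_nonneg_left ?_ (by positivity))
  exact Real.rpow_le_rpow_of_exponent_le (by linarith [norm_nonneg X]) (neg_le_neg (le_max_left M 0))

/-- **L-LOC-POU.**  `s m := {y | y - plat m ∈ pkCell k}`: measurable (`pk_loc_cell_meas`, preimage under a continuous map), pairwise disjoint and `⋃ m, s m = univ` (`pk_loc_cell_tile`); `f y = Kf (X - y)` integrable (`Integrable.comp_sub_left`);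
`hasSum_integral_iUnion` gives `HasSum (fun m => ∫ y in s m, Kf (X - y)) (∫ y, Kf (X - y))`;   `∫ y, Kf (X - y) = ∫ Kf` (`integral_sub_left_eq_self`);
`∫ y in s m, Kf (X - y) = ∫ y in pkCell k, Kf (X - plat m - y)`: substitution `y ↦ y + plat m` (`(measurePreserving_add_right volume (plat m)).setIntegral_preimage_emb (measurableEmbedding_addRight _)`, or indicators + `integral_add_right_eq_self`), `X - (y + plat m) = X - plat m - y`. -/
theorem pk_loc_pou {Kf : ST k → ℂ} (hi : Integrable Kf) (h1 : ∫ y, Kf y = 1) (X : ST k) :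
    HasSum (fun m : PLat k => ∫ y in pkCell k, Kf (X - plat m - y)) 1 := by
  have hsm : ∀ m : PLat k, MeasurableSet ((fun y : ST k => y - plat m) ⁻¹' pkCell k) := fun m =>
    (measurable_id.sub_const (plat m)) (pk_loc_cell_meas k)
  have hdisj : Pairwise (Function.onFun Disjoint fun m : PLat k => (fun y : ST k => y - plat m) ⁻¹' pkCell k) := by
    intro m m' hne
    exact Set.disjoint_left.2 fun y hy hy' => hne ((pk_loc_cell_tile y).unique hy hy')
  have hun : (⋃ m : PLat k, (fun y : ST k => y - plat m) ⁻¹' pkCell k) = univ := by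
    refine Set.eq_univ_of_forall fun y => ?_
    obtain ⟨m, hm, -⟩ := pk_loc_cell_tile y
    exact Set.mem_iUnion.2 ⟨m, hm⟩
  have hf : Integrable (fun y => Kf (X - y)) := hi.comp_sub_left X
  have hs := hasSum_integral_iUnion hsm hdisj (f := fun y => Kf (X - y)) (μ := volume) (by
    rw [hun]
    exact hf.integrableOn)
  rw [hun, setIntegral_univ, integral_sub_left_eq_self Kf volume X, h1] at hs
  have key : ∀ m : PLat k, ∫ y in (fun y : ST k => y - plat m) ⁻¹' pkCell k, Kf (X - y) = ∫ y in pkCell k, Kf (X - plat m - y) := by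
    intro m
    have h := (measurePreserving_sub_right (volume : Measure (ST k)) (plat m)).setIntegral_preimage_emb
      (MeasurableEquiv.subRight (plat m)).measurableEmbedding (fun z => Kf (X - plat m - z)) (pkCell k)
    simp only [sub_sub_sub_cancel_right] at h
    exact h
  simpa only [key] using hs

/-- **LOC: the lattice partition of unity** -/
theorem pk_loc (k : ℕ) : ∃ χ : ST k → ℂ, BD.FS (closedBall (0 : ST k) 1) χ ∧ (∀ M : ℝ, ∃ C : ℝ, 0 ≤ C ∧ ∀ X, ‖χ X‖ ≤ C * (1 + ‖X‖) ^ (-M)) ∧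
    ∀ X, HasSum (fun m : PLat k => χ (X - plat m)) 1 := by
  obtain ⟨Kf, hi, hfs, hdec, h1⟩ := pk_loc_ker k
  exact ⟨fun X => ∫ y in pkCell k, Kf (X - y), pk_loc_avg hfs (pk_loc_cell_meas k) (pk_loc_cell_vol k),
    pk_loc_dec hdec (pk_loc_cell_vol k) (fun _ hy => pk_loc_cell_bdd hy), fun X => pk_loc_pou hi h1 X⟩

/-- Stores the on-demand equation lemma of `pkCell` in THIS module (rule 6 hygiene). -/
theorem pk_loc_forced : True := by
  have := @pkCell.eq_1
  trivial

end Claimed.Agent.R257
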