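import Claimed.Agent.R257.Pk.AsmHier
import Claimed.Agent.R257.Pk.Loc

/-!
# R257 / Pk / AsmLoc : THE LOCAL `L²` STEP OF THE ASSEMBLY (H frame.tex l.1199-1231, "no aspect-ratio loss")      (helper136; I prove this file myself, no leaves)

`E_par(z) = ∑_{T ∈ Wd} amp_T² w^{(P)}_T(z)`, `E_ch(z) = ∑_{T' ∈ s} a_{T'}² w^{(P)}_{T'}(z)`, child scale `N' = D.A.N`, parent scale `N = D.N ≤ N'`.
* `asm_l2_loc`   `∫ E_par(z) wt E N' (z - z₁) dz ≤ C Ca² ∫ E_ch(z) wt E N' (z - z₁) dz`     all `z₁`, SAME `P`, SAME `E ≥ 0`, `C` independent of `N`, `N'`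
* `asm_l2_wt`    the same with `wt E R`, every `R ≥ N'`
* `asm_l2_ball`  `∫_{closedBall z₀ N'} E_par ≤ C Ca² N'^(k+1) E_ch(z₀)`
PROOF: (i) `asm_loc_repro` reproduction (`BD.loc_const_ball`) + lattice sums: `E_par,J(z) ≤ C Ca² ∫ (1+|Y|)^(-P) |U_J(X_J z + Y)|² dY`;  (ii) `pk_l2_loc` local orthogonality of a family at its own scale (`BD.orth` for the slots, Cauchy in a slot);
(iii) `pk_conv_int` = continuous form of `pk_conv` (no loss of exponent);  Tonelli.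
-/

set_option autoImplicit false

namespace Claimed.Agent.R257

open MeasureTheory Metric Set
open scoped ENNReal

variable {k : ℕ} {ι κ : Type}

theorem pkc_cont_w {α : Type} [TopologicalSpace α] {f : α → ST k} (hf : Continuous f) (P : ℝ) : Continuous fun y => (1 + ‖f y‖) ^ P := by
  have h1 : Continuous fun y => 1 + ‖f y‖ := continuous_const.add hf.norm
  exact h1.rpow_const fun y => Or.inl (by have := norm_nonneg (f y); positivity)

/-- decomposition of an integral along the lattice -/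
theorem pkc_lintegral_lat (f : ST k → ℝ≥0∞) (hf : Measurable f) : ∫⁻ Y, f Y = ∫⁻ y in pkCell k, ∑' m : PLat k, f (y + plat m) := by
  have := BD.wt_haar (V := E k)
  have hsm : ∀ m : PLat k, MeasurableSet ((fun y : ST k => y - plat m) ⁻¹' pkCell k) := fun m =>
    (measurable_id.sub_const (plat m)) (pk_loc_cell_meas k)
  have hdisj : Pairwise (Function.onFun Disjoint fun m : PLat k => (fun y : ST k => y - plat m) ⁻¹' pkCell k) := by
    intro m m' hne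
    exact Set.disjoint_left.2 fun y hy hy' => hne ((pk_loc_cell_tile y).unique hy hy')
  have hun : (⋃ m : PLat k, (fun y : ST k => y - plat m) ⁻¹' pkCell k) = univ := by
    refine Set.eq_univ_of_forall fun y => ?_
    obtain ⟨m, hm, -⟩ := pk_loc_cell_tile y
    exact Set.mem_iUnion.2 ⟨m, hm⟩
  have h1 := lintegral_iUnion (μ := volume) hsm hdisj f
  rw [hun, setLIntegral_univ] at h1
  have hm : ∀ m : PLat k, AEMeasurable (fun y : ST k => f (y + plat m)) (volume.restrict (pkCell k)) := fun m =>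
    (hf.comp (measurable_id.add_const (plat m))).aemeasurable
  rw [h1, lintegral_tsum hm]
  refine tsum_congr fun m => ?_
  have h := (measurePreserving_sub_right (volume : Measure (ST k)) (plat m)).setLIntegral_comp_preimage_emb
    (MeasurableEquiv.subRight (plat m)).measurableEmbedding (fun z => f (z + plat m)) (pkCell k)
  simp only [sub_add_cancel] at h
  exact h

theorem pkc_usep_shift (Fm : Finset (PLat k)) (w : ST k) [DecidableEq (ST k)] : USep (Fm.image fun m => w + plat m) := by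
  intro z hz z' hz' hne
  obtain ⟨m, _, rfl⟩ := Finset.mem_image.1 hz
  obtain ⟨m', _, rfl⟩ := Finset.mem_image.1 hz'
  have : m ≠ m' := fun h => hne (by rw [h])
  have h1 := pka_plat_sep this
  have e : w + plat m - (w + plat m') = plat m - plat m' := by abel
  rw [e]
  exact h1

/-- (iii) the continuous form of `pk_conv` -/
theorem pk_conv_int (k : ℕ) {P₁ P₂ : ℝ} (hP₂ : (k : ℝ) + 1 < P₂) (h12 : P₂ ≤ P₁) (hP₁ : (k : ℝ) + 2 ≤ P₁) (C₁ : ℝ) :
    ∃ C : ℝ, 0 ≤ C ∧ ∀ (L : ℝ) (v : E k) (u' X : ST k), 1 ≤ L → ‖v‖ ≤ C₁ →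
      ∫⁻ Y, ENNReal.ofReal ((1 + ‖Y‖) ^ (-P₁) * (1 + ‖natX L v (X + Y) - u'‖) ^ (-P₂)) ≤ ENNReal.ofReal (C * (1 + ‖natX L v X - u'‖) ^ (-P₂)) := by
  classical
  obtain ⟨C, hC, h⟩ := pk_conv k hP₂ h12 hP₁ C₁
  refine ⟨C * (volume (pkCell k)).toReal, by positivity, fun L v u' X hL hv => ?_⟩
  have hcont : Continuous fun Y : ST k => (1 + ‖Y‖) ^ (-P₁) * (1 + ‖natX L v (X + Y) - u'‖) ^ (-P₂) := by
    have h1 : Continuous fun Y : ST k => natX L v (X + Y) - u' := by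
      unfold natX
      fun_prop
    exact (pkc_cont_w continuous_id _).mul (pkc_cont_w h1 _)
  have hmeas : Measurable fun Y : ST k => ENNReal.ofReal ((1 + ‖Y‖) ^ (-P₁) * (1 + ‖natX L v (X + Y) - u'‖) ^ (-P₂)) :=
    ENNReal.measurable_ofReal.comp hcont.measurable
  rw [pkc_lintegral_lat _ hmeas]
  have hpt : ∀ y : ST k, ∑' m : PLat k, ENNReal.ofReal ((1 + ‖y + plat m‖) ^ (-P₁) * (1 + ‖natX L v (X + (y + plat m)) - u'‖) ^ (-P₂))
      ≤ ENNReal.ofReal (C * (1 + ‖natX L v X - u'‖) ^ (-P₂)) := by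
    intro y
    rw [ENNReal.tsum_eq_iSup_sum]
    refine iSup_le fun Fm => ?_
    rw [← ENNReal.ofReal_sum_of_nonneg (fun m _ => by positivity)]
    refine ENNReal.ofReal_le_ofReal ?_
    have h1 := h L v u' X (Fm.image fun m => (X + y) + plat m) hL hv (pkc_usep_shift Fm (X + y))
    rw [Finset.sum_image (fun m _ m' _ e => pka_plat_inj (add_left_cancel e))] at h1
    refine le_trans (le_of_eq (Finset.sum_congr rfl fun m _ => ?_)) h1
    have e1 : X - (X + y + plat m) = -(y + plat m) := by abel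
    have e2 : X + (y + plat m) = X + y + plat m := by abel
    rw [e1, norm_neg, e2]
  calc ∫⁻ y in pkCell k, ∑' m : PLat k, ENNReal.ofReal ((1 + ‖y + plat m‖) ^ (-P₁) * (1 + ‖natX L v (X + (y + plat m)) - u'‖) ^ (-P₂))
      ≤ ∫⁻ _y in pkCell k, ENNReal.ofReal (C * (1 + ‖natX L v X - u'‖) ^ (-P₂)) := lintegral_mono hpt
    _ = ENNReal.ofReal (C * (1 + ‖natX L v X - u'‖) ^ (-P₂)) * volume (pkCell k) := by
        rw [lintegral_const, Measure.restrict_apply_univ]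
    _ = _ := by
        rw [← ENNReal.ofReal_toReal (pk_loc_cell_vol k), ← ENNReal.ofReal_mul (by positivity), ENNReal.toReal_ofReal ENNReal.toReal_nonneg]
        congr 1
        ring

theorem pkc_enorm_sq (x : ℂ) : ‖x‖ₑ ^ (2 : ℝ) = ENNReal.ofReal (‖x‖ ^ 2) := by
  rw [← ofReal_norm, ENNReal.ofReal_rpow_of_nonneg (norm_nonneg _) (by norm_num), Real.rpow_two]

theorem pkc_w_mul_le {a b c M : ℝ} (ha : 0 ≤ a) (hb : 0 ≤ b) (hc : 0 ≤ c) (hM : 0 ≤ M) (h : c ≤ a + b) : (1 + a) ^ (-M) * (1 + b) ^ (-M) ≤ (1 + c) ^ (-M) := by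
  rw [← Real.mul_rpow (by positivity) (by positivity)]
  exact Real.rpow_le_rpow_of_nonpos (by positivity) (by nlinarith) (by linarith)

theorem pkc_w_peetre {a b c P : ℝ} (ha : 0 ≤ a) (hb : 0 ≤ b) (hc : 0 ≤ c) (hP : 0 ≤ P) (h : c ≤ a + b) : (1 + a) ^ (-P) ≤ (1 + b) ^ P * (1 + c) ^ (-P) := by
  rw [Real.rpow_neg (by positivity), Real.rpow_neg (by positivity), ← div_eq_mul_inv, le_div_iff₀ (by positivity), inv_mul_le_iff₀ (by positivity),
    ← Real.mul_rpow (by positivity) (by positivity)]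
  exact Real.rpow_le_rpow (by positivity) (by nlinarith) hP

theorem Asm.Ok.amp_rpow_le {D : Asm k ι κ} {K : PCls} {a : ι → ℝ} {C₁ : ℝ} {m₁ : ℕ} {ρχ Cχ Mχ : ℝ} (h : D.Ok K a C₁ m₁ ρχ Cχ Mχ) {p : ℝ} (hp0 : 0 < p) (T : κ × PLat k) :
    ENNReal.ofReal (D.amp T ^ p) ≤ ENNReal.ofReal (D.Ca ^ p) * ⨆ X, ENNReal.ofReal (‖D.U T.1 X‖ ^ p) * ENNReal.ofReal ((1 + ‖X - plat T.2‖) ^ (-(D.Cs * p))) := by
  have hCa := h.Ca_nonneg
  set Sup : ℝ≥0∞ := ⨆ X, ENNReal.ofReal (‖D.U T.1 X‖ ^ p) * ENNReal.ofReal ((1 + ‖X - plat T.2‖) ^ (-(D.Cs * p))) with hSup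
  by_cases htop : Sup = ⊤
  · by_cases hCa0 : D.Ca = 0
    · have : D.amp T = 0 := by unfold Asm.amp; rw [hCa0, zero_mul]
      rw [this, Real.zero_rpow hp0.ne', ENNReal.ofReal_zero]
      exact zero_le
    · rw [htop, ENNReal.mul_top]
      · exact le_top
      · have : 0 < D.Ca ^ p := Real.rpow_pos_of_pos (lt_of_le_of_ne hCa (Ne.symm hCa0)) _
        exact (ENNReal.ofReal_pos.2 this).ne'
  · set B : ℝ := Sup.toReal ^ (1 / p) with hB
    have hB0 : 0 ≤ B := Real.rpow_nonneg ENNReal.toReal_nonneg _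
    have hX : ∀ X, ‖D.U T.1 X‖ * (1 + ‖X - plat T.2‖) ^ (-D.Cs) ≤ B := by
      intro X
      have h1 : ENNReal.ofReal (‖D.U T.1 X‖ ^ p) * ENNReal.ofReal ((1 + ‖X - plat T.2‖) ^ (-(D.Cs * p))) ≤ Sup :=
        le_iSup (fun X => ENNReal.ofReal (‖D.U T.1 X‖ ^ p) * ENNReal.ofReal ((1 + ‖X - plat T.2‖) ^ (-(D.Cs * p)))) X
      have h2 : (‖D.U T.1 X‖ * (1 + ‖X - plat T.2‖) ^ (-D.Cs)) ^ p = ‖D.U T.1 X‖ ^ p * (1 + ‖X - plat T.2‖) ^ (-(D.Cs * p)) := by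
        rw [Real.mul_rpow (norm_nonneg _) (by positivity), ← Real.rpow_mul (by positivity)]
        congr 2
        ring
      rw [← ENNReal.ofReal_mul (by positivity), ← h2, ← ENNReal.ofReal_toReal htop] at h1
      have h3 := (ENNReal.ofReal_le_ofReal_iff ENNReal.toReal_nonneg).1 h1
      rw [hB]
      calc ‖D.U T.1 X‖ * (1 + ‖X - plat T.2‖) ^ (-D.Cs) = ((‖D.U T.1 X‖ * (1 + ‖X - plat T.2‖) ^ (-D.Cs)) ^ p) ^ (1 / p) := by
            rw [← Real.rpow_mul (by positivity), mul_one_div_cancel hp0.ne', Real.rpow_one]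
        _ ≤ _ := Real.rpow_le_rpow (by positivity) h3 (by positivity)
    have h4 := h.amp_le T hB0 hX
    have h5 : D.amp T ^ p ≤ D.Ca ^ p * Sup.toReal := by
      calc D.amp T ^ p ≤ (D.Ca * B) ^ p := Real.rpow_le_rpow (h.amp_nonneg _) h4 hp0.le
        _ = D.Ca ^ p * Sup.toReal := by
            rw [Real.mul_rpow hCa hB0, hB, ← Real.rpow_mul ENNReal.toReal_nonneg, one_div_mul_cancel hp0.ne', Real.rpow_one]
    calc ENNReal.ofReal (D.amp T ^ p) ≤ ENNReal.ofReal (D.Ca ^ p * Sup.toReal) := ENNReal.ofReal_le_ofReal h5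
      _ = _ := by rw [ENNReal.ofReal_mul (by positivity), ENNReal.ofReal_toReal htop]

/-- (i) reproduction: the parent envelope of one cap is dominated by a weighted `L²` average of the pre-cutoff field -/
theorem asm_loc_repro (k : ℕ) (ρ₁ : ℝ) {P Cs : ℝ} (hP : 0 ≤ P) (hCs : P + (k : ℝ) + 1 < 2 * Cs) :
    ∃ C : ℝ, 0 ≤ C ∧ ∀ (ι κ : Type) (D : Asm k ι κ) (K : PCls) (a : ι → ℝ) (C₁ : ℝ) (m₁ : ℕ) (ρχ Cχ Mχ : ℝ), D.Cs = Cs → D.Ok K a C₁ m₁ ρχ Cχ Mχ →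
      C₁ + C₁ ^ 2 + K.ρ * (1 + 2 * C₁) ≤ ρ₁ → ∀ (J : κ) (Fm : Finset (PLat k)) (X : ST k),
        ENNReal.ofReal (∑ j ∈ Fm, D.amp (J, j) ^ 2 * (1 + ‖X - plat j‖) ^ (-P))
          ≤ ENNReal.ofReal (C * D.Ca ^ 2) * ∫⁻ Y, ‖D.U J (X + Y)‖ₑ ^ (2 : ℝ) * ENNReal.ofReal ((1 + ‖Y‖) ^ (-P)) := by
  have hk : (0 : ℝ) ≤ k := Nat.cast_nonneg k
  have hdd : ((BD.dd (E k) : ℕ) : ℝ) < 2 * Cs := by
    rw [pk_dd]
    push_cast
    linarith
  obtain ⟨A₀, hA₀⟩ := BD.loc_const_ball (V := E k) ρ₁ (2 * Cs) 2 (by norm_num) hdd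
  obtain ⟨Cl, hCl, hlat⟩ := pka_lat_sum k (E₀ := 2 * Cs - P) (by linarith)
  refine ⟨max A₀ 0 * Cl, by positivity, ?_⟩
  intro ι κ D K a C₁ m₁ ρχ Cχ Mχ hD h hρ J Fm X
  have := BD.wt_haar (V := E k)
  set B := max A₀ 0 with hB
  have hB0 : 0 ≤ B := le_max_right _ _
  have hCs0 : 0 ≤ 2 * Cs := by linarith
  have hU : BD.FS (closedBall (0 : ST k) (ρ₁ / 1)) (D.U J) := by
    rw [div_one]
    refine (h.U_fs J).mono (closedBall_subset_closedBall ?_)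
    have : K.ρ * (1 + 2 * C₁) / D.L ≤ K.ρ * (1 + 2 * C₁) := div_le_self (mul_nonneg h.ρ_nonneg (by linarith [h.C₁_nonneg])) h.one_le_L
    linarith
  have hUm : Measurable fun X' => ‖D.U J X'‖ₑ ^ (2 : ℝ) := (hU.continuous.enorm.measurable).pow_const _
  have hrep : ∀ y, ‖D.U J y‖ₑ ^ (2 : ℝ) ≤ ENNReal.ofReal B * ∫⁻ X', ‖D.U J X'‖ₑ ^ (2 : ℝ) * ENNReal.ofReal ((1 + ‖X' - y‖) ^ (-(2 * Cs))) := by
    intro y
    have h1 := hA₀ 1 0 (D.U J) one_pos hU y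
    unfold BD.avp BD.wt at h1
    simp only [Real.one_rpow, ENNReal.ofReal_one, one_mul, div_one] at h1
    exact h1.trans (mul_le_mul_left (ENNReal.ofReal_le_ofReal (le_max_left _ _)) _)
  set I : PLat k → ℝ≥0∞ := fun j => ∫⁻ X', ‖D.U J X'‖ₑ ^ (2 : ℝ) * ENNReal.ofReal ((1 + ‖X' - plat j‖) ^ (-(2 * Cs))) with hI
  have hcell : ∀ j, ENNReal.ofReal (D.amp (J, j) ^ 2) ≤ ENNReal.ofReal (D.Ca ^ 2) * (ENNReal.ofReal B * I j) := by
    intro j
    have h1 := h.amp_rpow_le (p := 2) two_pos (J, j)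
    simp only [Real.rpow_two] at h1
    refine h1.trans (mul_le_mul_right (iSup_le fun y => ?_) _)
    rw [← pkc_enorm_sq, hD, mul_comm Cs 2]
    calc ‖D.U J y‖ₑ ^ (2 : ℝ) * ENNReal.ofReal ((1 + ‖y - plat j‖) ^ (-(2 * Cs)))
        ≤ (ENNReal.ofReal B * ∫⁻ X', ‖D.U J X'‖ₑ ^ (2 : ℝ) * ENNReal.ofReal ((1 + ‖X' - y‖) ^ (-(2 * Cs)))) * ENNReal.ofReal ((1 + ‖y - plat j‖) ^ (-(2 * Cs))) :=
          mul_le_mul_left (hrep y) _
      _ = ENNReal.ofReal B * ∫⁻ X', ‖D.U J X'‖ₑ ^ (2 : ℝ) * ENNReal.ofReal ((1 + ‖X' - y‖) ^ (-(2 * Cs))) * ENNReal.ofReal ((1 + ‖y - plat j‖) ^ (-(2 * Cs))) := by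
          rw [mul_assoc, lintegral_mul_const' _ _ ENNReal.ofReal_ne_top]
      _ ≤ ENNReal.ofReal B * I j := by
          refine mul_le_mul_right (lintegral_mono fun X' => ?_) _
          rw [mul_assoc, ← ENNReal.ofReal_mul (by positivity)]
          refine mul_le_mul_right (ENNReal.ofReal_le_ofReal ?_) _
          refine pkc_w_mul_le (norm_nonneg _) (norm_nonneg _) (norm_nonneg _) hCs0 ?_
          have e : X' - plat j = (X' - y) + (y - plat j) := by abel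
          rw [e]
          exact norm_add_le _ _
  have hsum : ∀ X' : ST k, ∑ j ∈ Fm, ENNReal.ofReal ((1 + ‖X' - plat j‖) ^ (-(2 * Cs))) * ENNReal.ofReal ((1 + ‖X - plat j‖) ^ (-P))
      ≤ ENNReal.ofReal (Cl * (1 + ‖X' - X‖) ^ (-P)) := by
    intro X'
    simp only [← ENNReal.ofReal_mul (Real.rpow_nonneg (add_nonneg zero_le_one (norm_nonneg _)) _)]
    rw [← ENNReal.ofReal_sum_of_nonneg (fun j _ => by positivity)]
    refine ENNReal.ofReal_le_ofReal ?_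
    calc ∑ j ∈ Fm, (1 + ‖X' - plat j‖) ^ (-(2 * Cs)) * (1 + ‖X - plat j‖) ^ (-P)
        ≤ ∑ j ∈ Fm, (1 + ‖X' - plat j‖) ^ (-(2 * Cs - P)) * (1 + ‖X' - X‖) ^ (-P) := by
          refine Finset.sum_le_sum fun j _ => ?_
          have h1 : (1 + ‖X - plat j‖) ^ (-P) ≤ (1 + ‖X' - plat j‖) ^ P * (1 + ‖X' - X‖) ^ (-P) := by
            refine pkc_w_peetre (norm_nonneg _) (norm_nonneg _) (norm_nonneg _) hP ?_
            have e : X' - X = (X' - plat j) - (X - plat j) := by abel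
            rw [e, add_comm]
            exact norm_sub_le _ _
          have e2 : (1 + ‖X' - plat j‖) ^ (-(2 * Cs - P)) = (1 + ‖X' - plat j‖) ^ (-(2 * Cs)) * (1 + ‖X' - plat j‖) ^ P := by
            rw [← Real.rpow_add (by positivity)]
            congr 1
            ring
          rw [e2, mul_assoc]
          exact mul_le_mul_of_nonneg_left h1 (by positivity)
      _ = (∑ j ∈ Fm, (1 + ‖X' - plat j‖) ^ (-(2 * Cs - P))) * (1 + ‖X' - X‖) ^ (-P) := by rw [Finset.sum_mul]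
      _ ≤ _ := mul_le_mul_of_nonneg_right (hlat Fm X') (by positivity)
  have hwm : ∀ (w : ST k) (M : ℝ), Measurable fun X' : ST k => ENNReal.ofReal ((1 + ‖X' - w‖) ^ M) := fun w M =>
    ENNReal.measurable_ofReal.comp (pkc_cont_w (continuous_id.sub continuous_const) M).measurable
  rw [ENNReal.ofReal_sum_of_nonneg (fun j _ => by positivity)]
  calc ∑ j ∈ Fm, ENNReal.ofReal (D.amp (J, j) ^ 2 * (1 + ‖X - plat j‖) ^ (-P))
      ≤ ∑ j ∈ Fm, ENNReal.ofReal (D.Ca ^ 2) * (ENNReal.ofReal B * I j) * ENNReal.ofReal ((1 + ‖X - plat j‖) ^ (-P)) := by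
        refine Finset.sum_le_sum fun j _ => ?_
        rw [ENNReal.ofReal_mul (by positivity)]
        exact mul_le_mul_left (hcell j) _
    _ = ENNReal.ofReal (D.Ca ^ 2) * ENNReal.ofReal B *
          ∫⁻ X', ‖D.U J X'‖ₑ ^ (2 : ℝ) * ∑ j ∈ Fm, ENNReal.ofReal ((1 + ‖X' - plat j‖) ^ (-(2 * Cs))) * ENNReal.ofReal ((1 + ‖X - plat j‖) ^ (-P)) := by
        have hmj : ∀ j ∈ Fm, Measurable fun X' : ST k => ‖D.U J X'‖ₑ ^ (2 : ℝ) * (ENNReal.ofReal ((1 + ‖X' - plat j‖) ^ (-(2 * Cs))) * ENNReal.ofReal ((1 + ‖X - plat j‖) ^ (-P))) :=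
          fun j _ => hUm.mul ((hwm _ _).mul_const _)
        simp only [Finset.mul_sum]
        rw [lintegral_finsetSum _ hmj, Finset.mul_sum]
        refine Finset.sum_congr rfl fun j _ => ?_
        rw [hI]
        simp only
        rw [mul_assoc, mul_assoc, mul_assoc, ← lintegral_mul_const' _ _ ENNReal.ofReal_ne_top]
        congr 2
        refine lintegral_congr fun X' => ?_
        ring
    _ ≤ ENNReal.ofReal (D.Ca ^ 2) * ENNReal.ofReal B * ∫⁻ X', ‖D.U J X'‖ₑ ^ (2 : ℝ) * ENNReal.ofReal (Cl * (1 + ‖X' - X‖) ^ (-P)) :=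
        mul_le_mul_right (lintegral_mono fun X' => mul_le_mul_right (hsum X') _) _
    _ = ENNReal.ofReal (D.Ca ^ 2) * ENNReal.ofReal B * ∫⁻ Y, ‖D.U J (X + Y)‖ₑ ^ (2 : ℝ) * ENNReal.ofReal (Cl * (1 + ‖Y‖) ^ (-P)) := by
        rw [← lintegral_add_left_eq_self _ X]
        simp only [add_sub_cancel_left]
    _ = _ := by
        have e : ∀ Y : ST k, ‖D.U J (X + Y)‖ₑ ^ (2 : ℝ) * ENNReal.ofReal (Cl * (1 + ‖Y‖) ^ (-P)) = ENNReal.ofReal Cl * (‖D.U J (X + Y)‖ₑ ^ (2 : ℝ) * ENNReal.ofReal ((1 + ‖Y‖) ^ (-P))) := fun Y => by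
          rw [ENNReal.ofReal_mul hCl]
          ring
        simp only [e]
        rw [lintegral_const_mul' _ _ ENNReal.ofReal_ne_top, ENNReal.ofReal_mul (by positivity), ENNReal.ofReal_mul hB0]
        ring

/-- spatial Fourier support of one packet -/
theorem pkc_pk_fs_slab {ρ N : ℝ} (hN : 0 < N) (v : E k) {F : ST k → ℂ} (hF : BD.FS (closedBall (0 : ST k) ρ) F) :
    BD.FS {w : ST k | ‖w.1 - v‖ ≤ ρ / N} (fun z => car v z * F (natX N v z)) := by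
  have hi : 0 < N⁻¹ := inv_pos.2 hN
  have h1 := (hF.lin (-v) hi (pow_pos hi 2)).modulate (v, -‖v‖ ^ 2)
  have e : (fun z => car v z * F (natX N v z)) = fun z => BD.ch (BD.pr z (v, -‖v‖ ^ 2)) * F (BD.Lam (-v) N⁻¹ (N⁻¹ ^ 2) z) := by
    funext z
    congr 1
    · unfold car BD.ch BD.pr
      rw [mul_comm]
      congr 3
      ring
    · congr 1
      unfold natX BD.Lam
      ext1
      · simp only [smul_neg, sub_eq_add_neg]
      · simp only
        rw [inv_pow, div_eq_inv_mul]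
  rw [e]
  refine h1.mono ?_
  rintro _ ⟨_, ⟨w, hw, rfl⟩, rfl⟩
  rw [mem_closedBall_zero_iff] at hw
  show ‖((v, -‖v‖ ^ 2) + BD.LamT (-v) N⁻¹ (N⁻¹ ^ 2) w : ST k).1 - v‖ ≤ ρ / N
  unfold BD.LamT
  simp only [Prod.fst_add, add_sub_cancel_left]
  rw [norm_smul, Real.norm_of_nonneg hi.le, div_eq_inv_mul]
  exact mul_le_mul_of_nonneg_left ((norm_fst_le w).trans hw) hi.le

theorem PFam.sq_resc (A : PFam k ι) {Kp : ℝ} (hK : Kp ≠ 0) (v₀ : E k) (P : ℝ) (s : Finset ι) (b : ι → ℝ) (z : ST k) :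
    (A.resc Kp v₀).sq P s b (natX Kp v₀ z) = A.sq P s b z := by
  unfold PFam.sq
  exact Finset.sum_congr rfl fun T _ => by rw [A.w_resc hK]

theorem PFam.In.fld_cont {A : PFam k ι} {s : Finset ι} {K : PCls} {a : ι → ℝ} (h : A.In s K a) : Continuous (A.fld s) := by
  have hN0 : 0 < A.N := lt_of_lt_of_le one_pos h.one_le
  unfold PFam.fld
  exact continuous_finsetSum _ fun T hT => (pkc_pk_fs_slab hN0 (A.v T) (h.fs T hT)).continuous

theorem PFam.sq_cont (A : PFam k ι) (P : ℝ) (s : Finset ι) (b : ι → ℝ) : Continuous (A.sq P s b) := by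
  unfold PFam.sq PFam.w PFam.d
  refine continuous_finsetSum _ fun T _ => continuous_const.mul ?_
  have h1 : Continuous fun z : ST k => 1 + ‖natX A.N (A.v T) z - A.u T‖ := by
    unfold natX
    fun_prop
  exact h1.rpow_const fun y => Or.inl (by have := norm_nonneg (natX A.N (A.v T) y - A.u T); positivity)

/-- (ii) local `L²` orthogonality of a family at its own scale, same weight on both sides -/
theorem pk_l2_loc (k : ℕ) (ρ : ℝ) {P P' Ew : ℝ} (hP : P + (k : ℝ) + 1 < 2 * P') (hE : 0 ≤ Ew) :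
    ∃ C : ℝ, 0 ≤ C ∧ ∀ (ι : Type) (A : PFam k ι) (s : Finset ι) (K : PCls) (a : ι → ℝ), A.In s K a → K.ρ ≤ ρ → P' ≤ K.P' → ∀ z₁ : ST k,
      ∫⁻ z, ‖A.fld s z‖ₑ ^ (2 : ℝ) * BD.wt Ew A.N (z - z₁) ≤ ENNReal.ofReal (C * K.m₀) * ∫⁻ z, ENNReal.ofReal (A.sq P s a z) * BD.wt Ew A.N (z - z₁) := by
  classical
  obtain ⟨Cc, hCc, hcau⟩ := pk_cauchy k hP 1
  obtain ⟨C₂, hC₂⟩ : ∃ C₂ : ℝ, C₂ = max (|ρ| + 1) (3 ^ k) := ⟨_, rfl⟩
  have hC₂0 : 0 ≤ C₂ := by rw [hC₂]; positivity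
  obtain ⟨A₁, hA₁⟩ := BD.orth (V := E k) C₂ Ew hC₂0 hE
  refine ⟨max A₁ 0 * Cc, by positivity, ?_⟩
  intro ι A s K a h hρ hP' z₁
  have hN := h.one_le
  have hN0 : 0 < A.N := by linarith
  obtain ⟨π, h1, h2⟩ := BD.exists_net s A.v (σ := 1 / A.N) (by positivity)
  obtain ⟨D, hD⟩ : ∃ D : Asm k ι ι, D = ⟨A, s, A.N, π, A.v, 0, 0, 0⟩ := ⟨_, rfl⟩
  have hDA : D.A = A := by rw [hD]
  have hDs : D.s = s := by rw [hD]
  have hDπ : D.π = π := by rw [hD]
  have hnear : ∀ J, ∀ T ∈ D.fib J, ‖A.v T - A.v J‖ ≤ 1 / A.N := by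
    intro J T hT
    obtain ⟨hT1, hT2⟩ := D.mem_fib.1 hT
    rw [hDs] at hT1
    rw [hDπ] at hT2
    rw [← hT2]
    exact (h1 T hT1).2.1
  have hfibs : ∀ J, D.fib J ⊆ s := fun J => hDs ▸ D.fib_subset J
  have hfs : ∀ J ∈ D.caps, BD.FS {w : ST k | ‖w.1 - A.v J‖ ≤ C₂ / A.N} (fun z => A.fld (D.fib J) z) := by
    intro J _
    unfold PFam.fld
    refine BD.FS.sum _ fun T hT => ?_
    refine (pkc_pk_fs_slab hN0 (A.v T) (h.fs T (hfibs J hT))).mono ?_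
    intro w hw
    have hw' : ‖w.1 - A.v T‖ ≤ K.ρ / A.N := hw
    show ‖w.1 - A.v J‖ ≤ C₂ / A.N
    have e : w.1 - A.v J = (w.1 - A.v T) + (A.v T - A.v J) := by abel
    rw [e]
    refine (norm_add_le _ _).trans ?_
    have h3 := hnear J T hT
    have h4 : K.ρ / A.N + 1 / A.N ≤ C₂ / A.N := by
      rw [← add_div]
      refine div_le_div_of_nonneg_right ?_ hN0.le
      rw [hC₂]
      exact le_trans (by linarith [le_abs_self ρ]) (le_max_left _ _)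
    linarith
  have hmult : ∀ ξ : E k, ∀ t ⊆ D.caps, (∀ j ∈ t, ‖A.v j - ξ‖ ≤ 1 / A.N) → (t.card : ℝ) ≤ C₂ := by
    intro ξ t ht hh
    have hsep : ∀ J ∈ t, ∀ J' ∈ t, J ≠ J' → 1 / A.N < ‖A.v J - A.v J'‖ := fun J hJ J' hJ' hne => by
      have hJ1 := ht hJ
      have hJ2 := ht hJ'
      unfold Asm.caps at hJ1 hJ2
      rw [hDs, hDπ] at hJ1 hJ2
      obtain ⟨θ, hθ, rfl⟩ := Finset.mem_image.1 hJ1
      obtain ⟨θ', hθ', rfl⟩ := Finset.mem_image.1 hJ2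
      exact h2 θ hθ θ' hθ' hne
    have hinj : Set.InjOn A.v t := fun J hJ J' hJ' e => by
      by_contra hne
      have := hsep J hJ J' hJ' hne
      rw [e, sub_self, norm_zero] at this
      have : 0 < 1 / A.N := by positivity
      linarith
    have hcard := BD.card_le_of_sep (A := 1) (r := 1 / A.N) zero_le_one (by positivity) (t.image A.v) ξ (fun c hc => ?_) (fun c hc c' hc' hne => ?_)
    · rw [Finset.card_image_of_injOn hinj, finrank_euclideanSpace_fin] at hcard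
      refine hcard.trans ?_
      rw [hC₂]
      refine le_trans (le_of_eq ?_) (le_max_right _ _)
      norm_num
    · obtain ⟨J, hJ, rfl⟩ := Finset.mem_image.1 hc
      rw [one_mul]
      exact hh J hJ
    · obtain ⟨J, hJ, rfl⟩ := Finset.mem_image.1 hc
      obtain ⟨J', hJ', rfl⟩ := Finset.mem_image.1 hc'
      exact (hsep J hJ J' hJ' fun e => hne (by rw [e])).le
  have horth := hA₁ A.N ι D.caps A.v (fun J z => A.fld (D.fib J) z) hN0 hfs hmult z₁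
  have hcaps : ∀ z, ∑ J ∈ D.caps, A.fld (D.fib J) z = A.fld s z := fun z => by
    have := D.fld_caps z
    rw [hDA, hDs] at this
    exact this.symm
  simp only [hcaps] at horth
  unfold BD.avp at horth
  rw [← Finset.mul_sum, ← mul_assoc, mul_comm (ENNReal.ofReal A₁), mul_assoc] at horth
  have hc0 : ENNReal.ofReal (A.N ^ (-((BD.dd (E k) : ℕ) : ℝ))) ≠ 0 := (ENNReal.ofReal_pos.2 (Real.rpow_pos_of_pos hN0 _)).ne'
  have horth2 := (ENNReal.mul_le_mul_iff_right hc0 ENNReal.ofReal_ne_top).1 horth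
  -- Cauchy in every slot
  have hslot : ∀ J z, ‖A.fld (D.fib J) z‖ ^ 2 ≤ Cc * K.m₀ * A.sq P (D.fib J) a z := by
    intro J z
    have hin : (A.resc A.N (A.v J)).In (D.fib J) ⟨K.ρ, K.P', 1, K.m₀⟩ a :=
      PFam.In.resc (h.subset (hfibs J)) hN0 le_rfl (A.v J) (hnear J)
    have h3 := hcau ι (A.resc A.N (A.v J)) (D.fib J) ⟨K.ρ, K.P', 1, K.m₀⟩ a hin hP' le_rfl (natX A.N (A.v J) z)
    rw [A.sq_resc hN0.ne'] at h3
    have e1 : (A.resc A.N (A.v J)).N = 1 := by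
      show A.N / A.N = 1
      exact div_self hN0.ne'
    rw [e1, one_pow, mul_one] at h3
    have e2 : ‖A.fld (D.fib J) z‖ = ‖(A.resc A.N (A.v J)).fld (D.fib J) (natX A.N (A.v J) z)‖ := by
      rw [A.fld_resc hN0.ne' (A.v J), norm_mul, norm_car, one_mul]
    rw [e2]
    exact h3
  have hsqsum : ∀ z, ∑ J ∈ D.caps, A.sq P (D.fib J) a z = A.sq P s a z := by
    intro z
    unfold PFam.sq Asm.caps Asm.fib
    rw [hDs, hDπ]
    exact Finset.sum_fiberwise_of_maps_to (fun T hT => Finset.mem_image_of_mem π hT) _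
  have hwm : Measurable fun z : ST k => BD.wt Ew A.N (z - z₁) := (BD.measurable_wt Ew A.N).comp (measurable_id.sub_const z₁)
  have hm₀ : (0 : ℝ) ≤ K.m₀ := Nat.cast_nonneg _
  calc ∫⁻ z, ‖A.fld s z‖ₑ ^ (2 : ℝ) * BD.wt Ew A.N (z - z₁)
      ≤ ENNReal.ofReal A₁ * ∑ J ∈ D.caps, ∫⁻ z, ‖A.fld (D.fib J) z‖ₑ ^ (2 : ℝ) * BD.wt Ew A.N (z - z₁) := horth2
    _ ≤ ENNReal.ofReal (max A₁ 0) * ∑ J ∈ D.caps, ∫⁻ z, ENNReal.ofReal (Cc * K.m₀) * (ENNReal.ofReal (A.sq P (D.fib J) a z) * BD.wt Ew A.N (z - z₁)) := by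
        refine mul_le_mul' (ENNReal.ofReal_le_ofReal (le_max_left _ _)) (Finset.sum_le_sum fun J _ => lintegral_mono fun z => ?_)
        rw [← mul_assoc, ← ENNReal.ofReal_mul (by positivity), pkc_enorm_sq]
        exact mul_le_mul_left (ENNReal.ofReal_le_ofReal (hslot J z)) _
    _ = ENNReal.ofReal (max A₁ 0) * (ENNReal.ofReal (Cc * K.m₀) * ∫⁻ z, ENNReal.ofReal (A.sq P s a z) * BD.wt Ew A.N (z - z₁)) := by
        congr 1
        simp only [lintegral_const_mul' _ _ ENNReal.ofReal_ne_top]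
        have hmJ : ∀ J ∈ D.caps, Measurable fun z : ST k => ENNReal.ofReal (A.sq P (D.fib J) a z) * BD.wt Ew A.N (z - z₁) :=
          fun J _ => (ENNReal.measurable_ofReal.comp (A.sq_cont P (D.fib J) a).measurable).mul hwm
        rw [← Finset.mul_sum, ← lintegral_finsetSum _ hmJ]
        congr 1
        refine lintegral_congr fun z => ?_
        rw [← Finset.sum_mul, ← ENNReal.ofReal_sum_of_nonneg (fun J _ => pkw_sq_nonneg A P (D.fib J) a z), hsqsum]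
    _ = _ := by
        rw [← mul_assoc, ← ENNReal.ofReal_mul (le_max_right _ _)]
        congr 2
        ring

theorem natX_add (N : ℝ) (v : E k) (z z' : ST k) : natX N v (z + z') = natX N v z + natX N v z' := by
  unfold natX
  ext1
  · simp only [Prod.fst_add, Prod.snd_add, mul_add, add_smul, smul_add, smul_sub]
    abel
  · simp only [Prod.snd_add, add_div]

theorem pkc_natI_cont (N : ℝ) (v : E k) : Continuous (natI N v) := by
  unfold natI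
  fun_prop

/-- the local `L²` step for one cap -/
theorem asm_l2_loc_cap (k : ℕ) (K : PCls) {P Cs C₁ Ew : ℝ} (hP : (k : ℝ) + 2 ≤ P) (hCs : P + (k : ℝ) + 1 < 2 * Cs) (hP' : P + (k : ℝ) + 1 < 2 * K.P') (hE : 0 ≤ Ew) :
    ∃ C : ℝ, 0 ≤ C ∧ ∀ (ι κ : Type) (D : Asm k ι κ) (a : ι → ℝ) (m₁ : ℕ) (ρχ Cχ Mχ : ℝ), D.Cs = Cs → D.Ok K a C₁ m₁ ρχ Cχ Mχ →
      ∀ (J : κ) (Fm : Finset (PLat k)) (z₁ : ST k),
        ∫⁻ z, ENNReal.ofReal (∑ j ∈ Fm, D.amp (J, j) ^ 2 * (1 + ‖natX D.N (D.vc J) z - plat j‖) ^ (-P)) * BD.wt Ew D.A.N (z - z₁)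
          ≤ ENNReal.ofReal (C * D.Ca ^ 2) * ∫⁻ z, ENNReal.ofReal (D.A.sq P (D.fib J) a z) * BD.wt Ew D.A.N (z - z₁) := by
  have hk : (0 : ℝ) ≤ k := Nat.cast_nonneg k
  have hP0 : 0 ≤ P := by linarith
  obtain ⟨Cr, hCr, hrep⟩ := asm_loc_repro k (C₁ + C₁ ^ 2 + K.ρ * (1 + 2 * C₁)) hP0 hCs
  obtain ⟨Co, hCo, horth⟩ := pk_l2_loc k K.ρ (P := P) (P' := K.P') hP' hE
  obtain ⟨Cc, hCc, hconv⟩ := pk_conv_int k (P₁ := P) (P₂ := P) (by linarith) le_rfl hP C₁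
  refine ⟨Cr * (Co * K.m₀) * Cc, by positivity, ?_⟩
  intro ι κ D a m₁ ρχ Cχ Mχ hD h J Fm z₁
  have := BD.wt_haar (V := E k)
  have hN := h.N_pos
  have hin : D.A.In (D.fib J) K a := h.inn.subset (D.fib_subset J)
  have hVc : Continuous (D.A.fld (D.fib J)) := hin.fld_cont
  have hSc : Continuous (D.A.sq P (D.fib J) a) := D.A.sq_cont P (D.fib J) a
  have hζc : Continuous (natI D.N (D.vc J)) := pkc_natI_cont _ _
  obtain ⟨ζ, hζ⟩ : ∃ ζ : ST k → ST k, ζ = natI D.N (D.vc J) := ⟨_, rfl⟩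
  rw [← hζ] at hζc
  obtain ⟨q, hq⟩ : ∃ q : ST k → ℝ≥0∞, q = fun Y => ENNReal.ofReal ((1 + ‖Y‖) ^ (-P)) := ⟨_, rfl⟩
  have hqm : Measurable q := by
    rw [hq]
    exact ENNReal.measurable_ofReal.comp (pkc_cont_w continuous_id _).measurable
  obtain ⟨w, hw⟩ : ∃ w : ST k → ℝ≥0∞, w = fun z => BD.wt Ew D.A.N (z - z₁) := ⟨_, rfl⟩
  have hwm : Measurable w := by
    rw [hw]
    exact (BD.measurable_wt Ew D.A.N).comp (measurable_id.sub_const z₁)
  have hXζ : ∀ z Y, natX D.N (D.vc J) (z + ζ Y) = natX D.N (D.vc J) z + Y := fun z Y => by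
    rw [natX_add, hζ, natX_natI hN.ne']
  -- step a
  have ha : ∀ z, ENNReal.ofReal (∑ j ∈ Fm, D.amp (J, j) ^ 2 * (1 + ‖natX D.N (D.vc J) z - plat j‖) ^ (-P))
      ≤ ENNReal.ofReal (Cr * D.Ca ^ 2) * ∫⁻ Y, ‖D.A.fld (D.fib J) (z + ζ Y)‖ₑ ^ (2 : ℝ) * q Y := by
    intro z
    refine (hrep ι κ D K a C₁ m₁ ρχ Cχ Mχ hD h le_rfl J Fm (natX D.N (D.vc J) z)).trans (le_of_eq ?_)
    congr 1
    refine lintegral_congr fun Y => ?_
    rw [hq]
    congr 2
    rw [← ofReal_norm, ← ofReal_norm, D.fld_fib hN.ne' J (z + ζ Y), norm_mul, norm_car, one_mul, hXζ]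
  -- step (ii')
  have hb : ∀ Y, ∫⁻ z, ‖D.A.fld (D.fib J) (z + ζ Y)‖ₑ ^ (2 : ℝ) * w z ≤ ENNReal.ofReal (Co * K.m₀) * ∫⁻ z, ENNReal.ofReal (D.A.sq P (D.fib J) a (z + ζ Y)) * w z := by
    intro Y
    have h1 := horth ι D.A (D.fib J) K a hin le_rfl le_rfl (z₁ + ζ Y)
    rw [← lintegral_add_right_eq_self _ (ζ Y), ← lintegral_add_right_eq_self (fun z => ENNReal.ofReal (D.A.sq P (D.fib J) a z) * BD.wt Ew D.A.N (z - (z₁ + ζ Y))) (ζ Y)] at h1
    simp only [add_sub_add_right_eq_sub] at h1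
    rw [hw]
    exact h1
  -- step c
  have hc : ∀ z, ∫⁻ Y, ENNReal.ofReal (D.A.sq P (D.fib J) a (z + ζ Y)) * q Y ≤ ENNReal.ofReal (Cc * D.A.sq P (D.fib J) a z) := by
    intro z
    have e1 : ∀ Y, ENNReal.ofReal (D.A.sq P (D.fib J) a (z + ζ Y)) * q Y
        = ∑ T ∈ D.fib J, ENNReal.ofReal (a T ^ 2) * ENNReal.ofReal ((1 + ‖Y‖) ^ (-P) * (1 + ‖natX D.L (D.N • (D.A.v T - D.vc J)) (natX D.N (D.vc J) z + Y) - D.A.u T‖) ^ (-P)) := by
      intro Y
      unfold PFam.sq PFam.w PFam.d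
      rw [hq, ENNReal.ofReal_sum_of_nonneg (fun T _ => by positivity), Finset.sum_mul]
      refine Finset.sum_congr rfl fun T _ => ?_
      rw [pk_two_scale hN (D.vc J) (D.A.v T), hXζ, ENNReal.ofReal_mul (by positivity), ENNReal.ofReal_mul (by positivity)]
      unfold Asm.L
      ring
    simp only [e1]
    have hmT : ∀ T ∈ D.fib J, Measurable fun Y : ST k => ENNReal.ofReal (a T ^ 2) * ENNReal.ofReal ((1 + ‖Y‖) ^ (-P) * (1 + ‖natX D.L (D.N • (D.A.v T - D.vc J)) (natX D.N (D.vc J) z + Y) - D.A.u T‖) ^ (-P)) := by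
      intro T _
      refine Measurable.const_mul (ENNReal.measurable_ofReal.comp (Continuous.measurable ?_)) _
      have h1 : Continuous fun Y : ST k => natX D.L (D.N • (D.A.v T - D.vc J)) (natX D.N (D.vc J) z + Y) - D.A.u T := by
        unfold natX
        fun_prop
      exact (pkc_cont_w continuous_id _).mul (pkc_cont_w h1 _)
    rw [lintegral_finsetSum _ hmT]
    unfold PFam.sq
    have hnn : ∀ T ∈ D.fib J, 0 ≤ Cc * (a T ^ 2 * D.A.w P T z) := fun T _ =>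
      mul_nonneg hCc (mul_nonneg (sq_nonneg _) (Real.rpow_nonneg (by have := D.A.d_nonneg T z; linarith) _))
    rw [Finset.mul_sum, ENNReal.ofReal_sum_of_nonneg hnn]
    refine Finset.sum_le_sum fun T hT => ?_
    rw [lintegral_const_mul' _ _ ENNReal.ofReal_ne_top]
    have hT' := D.mem_fib.1 hT
    have hv : ‖D.N • (D.A.v T - D.vc J)‖ ≤ C₁ := by
      have h2 := h.near T hT'.1
      rw [hT'.2] at h2
      exact pk_two_scale_norm hN h2
    have h3 := hconv D.L (D.N • (D.A.v T - D.vc J)) (D.A.u T) (natX D.N (D.vc J) z) h.one_le_L hv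
    refine (mul_le_mul_right h3 _).trans (le_of_eq ?_)
    rw [← ENNReal.ofReal_mul (by positivity)]
    congr 1
    unfold PFam.w PFam.d
    rw [pk_two_scale hN (D.vc J) (D.A.v T)]
    unfold Asm.L
    ring
  -- measurability on the product
  have hGm : Measurable (Function.uncurry fun (z Y : ST k) => ‖D.A.fld (D.fib J) (z + ζ Y)‖ₑ ^ (2 : ℝ) * q Y * w z) := by
    refine Measurable.mul (Measurable.mul ?_ (hqm.comp measurable_snd)) (hwm.comp measurable_fst)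
    exact ((hVc.comp (continuous_fst.add (hζc.comp continuous_snd))).enorm.measurable).pow_const _
  have hHm : Measurable (Function.uncurry fun (Y z : ST k) => ENNReal.ofReal (D.A.sq P (D.fib J) a (z + ζ Y)) * q Y * w z) := by
    refine Measurable.mul (Measurable.mul ?_ (hqm.comp measurable_fst)) (hwm.comp measurable_snd)
    exact ENNReal.measurable_ofReal.comp (hSc.comp (continuous_snd.add (hζc.comp continuous_fst))).measurable
  have hw' : ∀ z, BD.wt Ew D.A.N (z - z₁) = w z := fun z => by rw [hw]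
  simp only [hw']
  calc ∫⁻ z, ENNReal.ofReal (∑ j ∈ Fm, D.amp (J, j) ^ 2 * (1 + ‖natX D.N (D.vc J) z - plat j‖) ^ (-P)) * w z
      ≤ ∫⁻ z, ENNReal.ofReal (Cr * D.Ca ^ 2) * ∫⁻ Y, ‖D.A.fld (D.fib J) (z + ζ Y)‖ₑ ^ (2 : ℝ) * q Y * w z := by
        refine lintegral_mono fun z => ?_
        refine (mul_le_mul_left (ha z) _).trans (le_of_eq ?_)
        by_cases hwt : w z = ⊤
        · exfalso
          rw [hw] at hwt
          exact ENNReal.ofReal_ne_top hwt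
        · rw [mul_assoc, lintegral_mul_const' _ _ hwt]
    _ = ENNReal.ofReal (Cr * D.Ca ^ 2) * ∫⁻ Y, ∫⁻ z, ‖D.A.fld (D.fib J) (z + ζ Y)‖ₑ ^ (2 : ℝ) * q Y * w z := by
        rw [lintegral_const_mul' _ _ ENNReal.ofReal_ne_top, lintegral_lintegral_swap hGm.aemeasurable]
    _ ≤ ENNReal.ofReal (Cr * D.Ca ^ 2) * ∫⁻ Y, ENNReal.ofReal (Co * K.m₀) * ∫⁻ z, ENNReal.ofReal (D.A.sq P (D.fib J) a (z + ζ Y)) * q Y * w z := by
        refine mul_le_mul_right (lintegral_mono fun Y => ?_) _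
        have hqt : q Y ≠ ⊤ := by rw [hq]; exact ENNReal.ofReal_ne_top
        have e1 : ∀ z, ‖D.A.fld (D.fib J) (z + ζ Y)‖ₑ ^ (2 : ℝ) * q Y * w z = q Y * (‖D.A.fld (D.fib J) (z + ζ Y)‖ₑ ^ (2 : ℝ) * w z) := fun z => by ring
        have e2 : ∀ z, ENNReal.ofReal (D.A.sq P (D.fib J) a (z + ζ Y)) * q Y * w z = q Y * (ENNReal.ofReal (D.A.sq P (D.fib J) a (z + ζ Y)) * w z) := fun z => by ring
        simp only [e1, e2]
        rw [lintegral_const_mul' _ _ hqt, lintegral_const_mul' _ _ hqt, mul_left_comm]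
        exact mul_le_mul_right (hb Y) _
    _ = ENNReal.ofReal (Cr * D.Ca ^ 2) * (ENNReal.ofReal (Co * K.m₀) * ∫⁻ z, ∫⁻ Y, ENNReal.ofReal (D.A.sq P (D.fib J) a (z + ζ Y)) * q Y * w z) := by
        rw [lintegral_const_mul' _ _ ENNReal.ofReal_ne_top, lintegral_lintegral_swap hHm.aemeasurable]
    _ ≤ ENNReal.ofReal (Cr * D.Ca ^ 2) * (ENNReal.ofReal (Co * K.m₀) * ∫⁻ z, ENNReal.ofReal (Cc * D.A.sq P (D.fib J) a z) * w z) := by
        refine mul_le_mul_right (mul_le_mul_right (lintegral_mono fun z => ?_) _) _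
        have hwt : w z ≠ ⊤ := by rw [hw]; exact ENNReal.ofReal_ne_top
        rw [lintegral_mul_const' _ _ hwt]
        exact mul_le_mul_left (hc z) _
    _ = _ := by
        have e : ∀ z, ENNReal.ofReal (Cc * D.A.sq P (D.fib J) a z) * w z = ENNReal.ofReal Cc * (ENNReal.ofReal (D.A.sq P (D.fib J) a z) * w z) := fun z => by
          rw [ENNReal.ofReal_mul hCc, mul_assoc]
        simp only [e]
        rw [lintegral_const_mul' _ _ ENNReal.ofReal_ne_top, ← mul_assoc, ← mul_assoc, ← ENNReal.ofReal_mul (by positivity), ← ENNReal.ofReal_mul (by positivity)]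
        congr 2
        ring

/-- a weight at the scale `R` is comparable with the average of its translates by a weight of a smaller scale `r` -/
theorem pkc_wt_two (k : ℕ) {Ew : ℝ} (hE : 0 ≤ Ew) :
    ∃ c₁ c₂ : ℝ, 0 ≤ c₁ ∧ 0 ≤ c₂ ∧ ∀ (r R : ℝ) (x : ST k), 0 < r → r ≤ R →
      BD.wt Ew R x ≤ ENNReal.ofReal (c₁ * r ^ (-((k : ℝ) + 1))) * ∫⁻ y, BD.wt (Ew + k + 2) r (x - y) * BD.wt Ew R y ∧
      ENNReal.ofReal (r ^ (-((k : ℝ) + 1))) * ∫⁻ y, BD.wt (Ew + k + 2) r (x - y) * BD.wt Ew R y ≤ ENNReal.ofReal c₂ * BD.wt Ew R x := by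
  have := BD.wt_haar (V := E k)
  have hk : (0 : ℝ) ≤ k := Nat.cast_nonneg k
  have hdd : ((BD.dd (E k) : ℕ) : ℝ) = (k : ℝ) + 1 := by
    rw [pk_dd]
    push_cast
    rfl
  obtain ⟨cv, hcv, hvol⟩ := BD.wt_vol_ball (V := E k)
  obtain ⟨ci, hci, hint⟩ := BD.exists_lintegral_wt (V := E k) (E := (k : ℝ) + 2) (by rw [hdd]; linarith)
  refine ⟨2 ^ (Ew + k + 2) * 2 ^ Ew * cv⁻¹, ci, by positivity, hci.le, fun r R x hr hrR => ⟨?_, ?_⟩⟩
  · have hR : 0 < R := lt_of_lt_of_le hr hrR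
    have hlow : ∀ y ∈ closedBall x r, ENNReal.ofReal ((2 : ℝ) ^ (-(Ew + k + 2))) * (ENNReal.ofReal ((2 : ℝ) ^ (-Ew)) * BD.wt Ew R x) ≤ BD.wt (Ew + k + 2) r (x - y) * BD.wt Ew R y := by
      intro y hy
      rw [mem_closedBall, dist_eq_norm] at hy
      have h1 : ENNReal.ofReal ((1 + 1 : ℝ) ^ (-(Ew + k + 2))) ≤ BD.wt (Ew + k + 2) r (x - y) :=
        BD.wt_ge_of_le (by linarith) hr (by rw [one_mul, norm_sub_rev]; exact hy)
      have h2 : ENNReal.ofReal ((1 + 1 : ℝ) ^ (-Ew)) ≤ BD.wt Ew R (y - x) :=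
        BD.wt_ge_of_le hE hR (by rw [one_mul]; exact hy.trans hrR)
      have h3 := BD.wt_peetre hE hR (y - x) x
      rw [sub_add_cancel] at h3
      have e2 : (1 + 1 : ℝ) = 2 := by norm_num
      rw [e2] at h1 h2
      exact mul_le_mul' h1 ((mul_le_mul_left h2 _).trans h3)
    have h4 : ENNReal.ofReal ((2 : ℝ) ^ (-(Ew + k + 2))) * (ENNReal.ofReal ((2 : ℝ) ^ (-Ew)) * BD.wt Ew R x) * ENNReal.ofReal (cv * r ^ ((k : ℝ) + 1))
        ≤ ∫⁻ y, BD.wt (Ew + k + 2) r (x - y) * BD.wt Ew R y := by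
      calc _ = ∫⁻ _y in closedBall x r, ENNReal.ofReal ((2 : ℝ) ^ (-(Ew + k + 2))) * (ENNReal.ofReal ((2 : ℝ) ^ (-Ew)) * BD.wt Ew R x) := by
            rw [lintegral_const, Measure.restrict_apply_univ, hvol x r hr, hdd]
        _ ≤ ∫⁻ y in closedBall x r, BD.wt (Ew + k + 2) r (x - y) * BD.wt Ew R y := setLIntegral_mono' measurableSet_closedBall hlow
        _ ≤ _ := setLIntegral_le_lintegral _ _
    refine le_trans (le_of_eq ?_) (mul_le_mul_right h4 _)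
    have hrk : 0 < r ^ ((k : ℝ) + 1) := Real.rpow_pos_of_pos hr _
    have e : ENNReal.ofReal (2 ^ (Ew + k + 2) * 2 ^ Ew * cv⁻¹ * r ^ (-((k : ℝ) + 1))) * (ENNReal.ofReal ((2 : ℝ) ^ (-(Ew + k + 2))) * (ENNReal.ofReal ((2 : ℝ) ^ (-Ew)) * BD.wt Ew R x) * ENNReal.ofReal (cv * r ^ ((k : ℝ) + 1)))
        = ENNReal.ofReal ((2 ^ (Ew + k + 2) * 2 ^ Ew * cv⁻¹ * r ^ (-((k : ℝ) + 1))) * (2 : ℝ) ^ (-(Ew + k + 2)) * (2 : ℝ) ^ (-Ew) * (cv * r ^ ((k : ℝ) + 1))) * BD.wt Ew R x := by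
      rw [ENNReal.ofReal_mul (p := (2 ^ (Ew + k + 2) * 2 ^ Ew * cv⁻¹ * r ^ (-((k : ℝ) + 1))) * (2 : ℝ) ^ (-(Ew + k + 2)) * (2 : ℝ) ^ (-Ew)) (by positivity),
        ENNReal.ofReal_mul (p := (2 ^ (Ew + k + 2) * 2 ^ Ew * cv⁻¹ * r ^ (-((k : ℝ) + 1))) * (2 : ℝ) ^ (-(Ew + k + 2))) (by positivity),
        ENNReal.ofReal_mul (p := (2 ^ (Ew + k + 2) * 2 ^ Ew * cv⁻¹ * r ^ (-((k : ℝ) + 1)))) (by positivity)]
      ring
    rw [e]
    have e3 : (2 ^ (Ew + k + 2) * 2 ^ Ew * cv⁻¹ * r ^ (-((k : ℝ) + 1))) * (2 : ℝ) ^ (-(Ew + k + 2)) * (2 : ℝ) ^ (-Ew) * (cv * r ^ ((k : ℝ) + 1)) = 1 := by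
      rw [Real.rpow_neg (by norm_num : (0 : ℝ) ≤ 2) (Ew + k + 2), Real.rpow_neg (by norm_num : (0 : ℝ) ≤ 2) Ew, Real.rpow_neg hr.le]
      have h5 : (0 : ℝ) < 2 ^ (Ew + k + 2) := by positivity
      have h6 : (0 : ℝ) < 2 ^ Ew := by positivity
      field_simp
    rw [e3, ENNReal.ofReal_one, one_mul]
  · have hR : 0 < R := lt_of_lt_of_le hr hrR
    have hpt : ∀ y, BD.wt (Ew + k + 2) r (x - y) * BD.wt Ew R y ≤ BD.wt Ew R x * BD.wt ((k : ℝ) + 2) r (x - y) := by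
      intro y
      unfold BD.wt
      rw [← ENNReal.ofReal_mul (by positivity), ← ENNReal.ofReal_mul (by positivity)]
      refine ENNReal.ofReal_le_ofReal ?_
      have hb : 0 ≤ ‖x - y‖ / r := by positivity
      have h1 : (1 + ‖y‖ / R) ^ (-Ew) ≤ (1 + ‖x - y‖ / R) ^ Ew * (1 + ‖x‖ / R) ^ (-Ew) := by
        refine pkc_w_peetre (by positivity) (by positivity) (by positivity) hE ?_
        rw [← add_div]
        refine div_le_div_of_nonneg_right ?_ hR.le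
        have e : x = y + (x - y) := by abel
        calc ‖x‖ = ‖y + (x - y)‖ := by rw [← e]
          _ ≤ _ := norm_add_le _ _
      have h2 : (1 + ‖x - y‖ / R) ^ Ew ≤ (1 + ‖x - y‖ / r) ^ Ew := by
        refine Real.rpow_le_rpow (by positivity) ?_ hE
        have : ‖x - y‖ / R ≤ ‖x - y‖ / r := div_le_div_of_nonneg_left (norm_nonneg _) hr hrR
        linarith
      have e2 : (1 + ‖x - y‖ / r) ^ (-(Ew + k + 2)) = (1 + ‖x - y‖ / r) ^ (-((k : ℝ) + 2)) * (1 + ‖x - y‖ / r) ^ (-Ew) := by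
        rw [← Real.rpow_add (by positivity)]
        congr 1
        ring
      have e3 : (1 + ‖x - y‖ / r) ^ (-Ew) * (1 + ‖x - y‖ / r) ^ Ew = 1 := by
        rw [← Real.rpow_add (by positivity), neg_add_cancel, Real.rpow_zero]
      calc (1 + ‖x - y‖ / r) ^ (-(Ew + k + 2)) * (1 + ‖y‖ / R) ^ (-Ew)
          ≤ (1 + ‖x - y‖ / r) ^ (-(Ew + k + 2)) * ((1 + ‖x - y‖ / r) ^ Ew * (1 + ‖x‖ / R) ^ (-Ew)) := by
            refine mul_le_mul_of_nonneg_left (h1.trans ?_) (by positivity)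
            exact mul_le_mul_of_nonneg_right h2 (by positivity)
        _ = (1 + ‖x - y‖ / r) ^ (-((k : ℝ) + 2)) * ((1 + ‖x - y‖ / r) ^ (-Ew) * (1 + ‖x - y‖ / r) ^ Ew) * (1 + ‖x‖ / R) ^ (-Ew) := by
            rw [e2]
            ring
        _ = _ := by
            rw [e3]
            ring
    calc ENNReal.ofReal (r ^ (-((k : ℝ) + 1))) * ∫⁻ y, BD.wt (Ew + k + 2) r (x - y) * BD.wt Ew R y
        ≤ ENNReal.ofReal (r ^ (-((k : ℝ) + 1))) * ∫⁻ y, BD.wt Ew R x * BD.wt ((k : ℝ) + 2) r (x - y) := mul_le_mul_right (lintegral_mono hpt) _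
      _ = ENNReal.ofReal (r ^ (-((k : ℝ) + 1))) * (BD.wt Ew R x * ENNReal.ofReal (ci * r ^ ((k : ℝ) + 1))) := by
          have hwt : BD.wt Ew R x ≠ ⊤ := ENNReal.ofReal_ne_top
          rw [lintegral_const_mul' _ _ hwt, lintegral_sub_left_eq_self (fun y => BD.wt ((k : ℝ) + 2) r y) x, hint r hr, hdd]
      _ = _ := by
          rw [mul_left_comm, ← ENNReal.ofReal_mul (by positivity), mul_comm]
          congr 2
          rw [Real.rpow_neg hr.le]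
          have hrk : 0 < r ^ ((k : ℝ) + 1) := Real.rpow_pos_of_pos hr _
          field_simp

/-- transfer of a weighted inequality from the scale `r` to every scale `R ≥ r` -/
theorem pkc_wt_transfer (k : ℕ) {Ew : ℝ} (hE : 0 ≤ Ew) :
    ∃ c : ℝ, 0 ≤ c ∧ ∀ (r R : ℝ) (F G : ST k → ℝ≥0∞) (B : ℝ≥0∞), 0 < r → r ≤ R → Measurable F → Measurable G →
      (∀ z₂, ∫⁻ z, F z * BD.wt (Ew + k + 2) r (z - z₂) ≤ B * ∫⁻ z, G z * BD.wt (Ew + k + 2) r (z - z₂)) →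
      ∀ z₁, ∫⁻ z, F z * BD.wt Ew R (z - z₁) ≤ ENNReal.ofReal c * B * ∫⁻ z, G z * BD.wt Ew R (z - z₁) := by
  obtain ⟨c₁, c₂, hc₁, hc₂, h⟩ := pkc_wt_two k hE
  refine ⟨c₁ * c₂, by positivity, fun r R F G B hr hrR hF hG hFG z₁ => ?_⟩
  have hm1 : Measurable fun p : ST k × ST k => BD.wt (Ew + k + 2) r (p.1 - z₁ - p.2) :=
    (BD.measurable_wt _ _).comp ((measurable_fst.sub_const z₁).sub measurable_snd)
  have hm2 : Measurable fun p : ST k × ST k => BD.wt Ew R p.2 := (BD.measurable_wt _ _).comp measurable_snd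
  have hswap : ∀ H : ST k → ℝ≥0∞, Measurable H →
      ∫⁻ z, H z * ∫⁻ y, BD.wt (Ew + k + 2) r (z - z₁ - y) * BD.wt Ew R y = ∫⁻ y, BD.wt Ew R y * ∫⁻ z, H z * BD.wt (Ew + k + 2) r (z - (z₁ + y)) := by
    intro H hH
    have hmm : Measurable (Function.uncurry fun (z y : ST k) => H z * (BD.wt (Ew + k + 2) r (z - z₁ - y) * BD.wt Ew R y)) :=
      (hH.comp measurable_fst).mul (hm1.mul hm2)
    have e1 : ∀ z, H z * ∫⁻ y, BD.wt (Ew + k + 2) r (z - z₁ - y) * BD.wt Ew R y = ∫⁻ y, H z * (BD.wt (Ew + k + 2) r (z - z₁ - y) * BD.wt Ew R y) := fun z => by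
      rw [lintegral_const_mul]
      exact ((BD.measurable_wt _ _).comp (measurable_const.sub measurable_id)).mul (BD.measurable_wt _ _)
    simp only [e1]
    rw [lintegral_lintegral_swap hmm.aemeasurable]
    refine lintegral_congr fun y => ?_
    have hwt : BD.wt Ew R y ≠ ⊤ := ENNReal.ofReal_ne_top
    rw [← lintegral_const_mul' _ _ hwt]
    refine lintegral_congr fun z => ?_
    rw [sub_sub]
    ring
  set cr : ℝ≥0∞ := ENNReal.ofReal (r ^ (-((k : ℝ) + 1))) with hcr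
  have e0 : ENNReal.ofReal (c₁ * r ^ (-((k : ℝ) + 1))) = ENNReal.ofReal c₁ * cr := ENNReal.ofReal_mul hc₁
  calc ∫⁻ z, F z * BD.wt Ew R (z - z₁)
      ≤ ∫⁻ z, F z * (ENNReal.ofReal c₁ * cr * ∫⁻ y, BD.wt (Ew + k + 2) r (z - z₁ - y) * BD.wt Ew R y) :=
        lintegral_mono fun z => mul_le_mul_right (e0 ▸ (h r R (z - z₁) hr hrR).1) _
    _ = ENNReal.ofReal c₁ * cr * ∫⁻ z, F z * ∫⁻ y, BD.wt (Ew + k + 2) r (z - z₁ - y) * BD.wt Ew R y := by
        rw [← lintegral_const_mul' _ _ (ENNReal.mul_ne_top ENNReal.ofReal_ne_top ENNReal.ofReal_ne_top)]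
        refine lintegral_congr fun z => ?_
        ring
    _ = ENNReal.ofReal c₁ * cr * ∫⁻ y, BD.wt Ew R y * ∫⁻ z, F z * BD.wt (Ew + k + 2) r (z - (z₁ + y)) := by rw [hswap F hF]
    _ ≤ ENNReal.ofReal c₁ * cr * ∫⁻ y, BD.wt Ew R y * (B * ∫⁻ z, G z * BD.wt (Ew + k + 2) r (z - (z₁ + y))) :=
        mul_le_mul_right (lintegral_mono fun y => mul_le_mul_right (hFG (z₁ + y)) _) _
    _ = ENNReal.ofReal c₁ * cr * (B * ∫⁻ y, BD.wt Ew R y * ∫⁻ z, G z * BD.wt (Ew + k + 2) r (z - (z₁ + y))) := by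
        congr 1
        rw [← lintegral_const_mul'' _ ?_]
        · refine lintegral_congr fun y => ?_
          ring
        · refine ((BD.measurable_wt _ _).mul ?_).aemeasurable
          have hmm : Measurable (Function.uncurry fun (y z : ST k) => G z * BD.wt (Ew + k + 2) r (z - (z₁ + y))) :=
            (hG.comp measurable_snd).mul ((BD.measurable_wt _ _).comp (measurable_snd.sub (measurable_const.add measurable_fst)))
          exact hmm.lintegral_prod_right'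
    _ = ENNReal.ofReal c₁ * B * ∫⁻ z, G z * (cr * ∫⁻ y, BD.wt (Ew + k + 2) r (z - z₁ - y) * BD.wt Ew R y) := by
        rw [← hswap G hG]
        have e2 : ∀ z, G z * (cr * ∫⁻ y, BD.wt (Ew + k + 2) r (z - z₁ - y) * BD.wt Ew R y) = cr * (G z * ∫⁻ y, BD.wt (Ew + k + 2) r (z - z₁ - y) * BD.wt Ew R y) := fun z => by ring
        simp only [e2]
        rw [lintegral_const_mul' _ _ (ENNReal.ofReal_ne_top : cr ≠ ⊤)]
        ring
    _ ≤ ENNReal.ofReal c₁ * B * ∫⁻ z, G z * (ENNReal.ofReal c₂ * BD.wt Ew R (z - z₁)) :=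
        mul_le_mul_right (lintegral_mono fun z => mul_le_mul_right (h r R (z - z₁) hr hrR).2 _) _
    _ = _ := by
        have e2 : ∀ z, G z * (ENNReal.ofReal c₂ * BD.wt Ew R (z - z₁)) = ENNReal.ofReal c₂ * (G z * BD.wt Ew R (z - z₁)) := fun z => by ring
        simp only [e2]
        rw [lintegral_const_mul' _ _ ENNReal.ofReal_ne_top, ENNReal.ofReal_mul hc₁]
        ring

open scoped Classical in
theorem pkc_sum_fst {M : Type} [AddCommMonoid M] (Wd : Finset (κ × PLat k)) (f : κ × PLat k → M) :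
    ∑ T ∈ Wd, f T = ∑ J ∈ Wd.image Prod.fst, ∑ j ∈ (Wd.filter fun T => T.1 = J).image Prod.snd, f (J, j) := by
  rw [← Finset.sum_fiberwise_of_maps_to (fun T hT => Finset.mem_image_of_mem Prod.fst hT)]
  refine Finset.sum_congr rfl fun J _ => ?_
  rw [Finset.sum_image]
  · refine Finset.sum_congr rfl fun T hT => ?_
    have := (Finset.mem_filter.1 hT).2
    rw [← this]
  · intro T hT T' hT' e
    have e1 := (Finset.mem_filter.1 (Finset.mem_coe.1 hT)).2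
    have e2 := (Finset.mem_filter.1 (Finset.mem_coe.1 hT')).2
    exact Prod.ext (e1.trans e2.symm) e

/-- **THE LOCAL `L²` STEP**, weight at the child scale -/
theorem asm_l2_loc (k : ℕ) (K : PCls) {P Cs C₁ Ew : ℝ} (hP : (k : ℝ) + 2 ≤ P) (hCs : P + (k : ℝ) + 1 < 2 * Cs) (hP' : P + (k : ℝ) + 1 < 2 * K.P') (hE : 0 ≤ Ew) :
    ∃ C : ℝ, 0 ≤ C ∧ ∀ (ι κ : Type) (D : Asm k ι κ) (a : ι → ℝ) (m₁ : ℕ) (ρχ Cχ Mχ : ℝ), D.Cs = Cs → D.Ok K a C₁ m₁ ρχ Cχ Mχ →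
      ∀ (Wd : Finset (κ × PLat k)) (z₁ : ST k),
        ∫⁻ z, ENNReal.ofReal (D.par.sq P Wd D.amp z) * BD.wt Ew D.A.N (z - z₁)
          ≤ ENNReal.ofReal (C * D.Ca ^ 2) * ∫⁻ z, ENNReal.ofReal (D.A.sq P D.s a z) * BD.wt Ew D.A.N (z - z₁) := by
  classical
  obtain ⟨C, hC, hcap⟩ := asm_l2_loc_cap k K (C₁ := C₁) hP hCs hP' hE
  refine ⟨C, hC, ?_⟩
  intro ι κ D a m₁ ρχ Cχ Mχ hD h Wd z₁
  have hwm : Measurable fun z : ST k => BD.wt Ew D.A.N (z - z₁) := (BD.measurable_wt Ew D.A.N).comp (measurable_id.sub_const z₁)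
  obtain ⟨S, hS⟩ : ∃ S : κ → ST k → ℝ, S = fun J z => ∑ j ∈ (Wd.filter fun T => T.1 = J).image Prod.snd, D.amp (J, j) ^ 2 * (1 + ‖natX D.N (D.vc J) z - plat j‖) ^ (-P) := ⟨_, rfl⟩
  have hS0 : ∀ J z, 0 ≤ S J z := fun J z => by
    rw [hS]
    exact Finset.sum_nonneg fun j _ => by positivity
  have hSc : ∀ J, Continuous (S J) := fun J => by
    rw [hS]
    refine continuous_finsetSum _ fun j _ => continuous_const.mul ?_
    have h1 : Continuous fun z : ST k => natX D.N (D.vc J) z - plat j := by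
      unfold natX
      fun_prop
    exact pkc_cont_w h1 _
  have e1 : ∀ z, D.par.sq P Wd D.amp z = ∑ J ∈ Wd.image Prod.fst, S J z := fun z => by
    unfold PFam.sq
    rw [pkc_sum_fst Wd, hS]
    rfl
  have hmJ : ∀ J ∈ Wd.image Prod.fst, Measurable fun z : ST k => ENNReal.ofReal (S J z) * BD.wt Ew D.A.N (z - z₁) :=
    fun J _ => (ENNReal.measurable_ofReal.comp (hSc J).measurable).mul hwm
  have hmJ' : ∀ J ∈ Wd.image Prod.fst, Measurable fun z : ST k => ENNReal.ofReal (D.A.sq P (D.fib J) a z) * BD.wt Ew D.A.N (z - z₁) :=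
    fun J _ => (ENNReal.measurable_ofReal.comp (D.A.sq_cont P (D.fib J) a).measurable).mul hwm
  calc ∫⁻ z, ENNReal.ofReal (D.par.sq P Wd D.amp z) * BD.wt Ew D.A.N (z - z₁)
      = ∑ J ∈ Wd.image Prod.fst, ∫⁻ z, ENNReal.ofReal (S J z) * BD.wt Ew D.A.N (z - z₁) := by
        rw [← lintegral_finsetSum _ hmJ]
        refine lintegral_congr fun z => ?_
        rw [e1, ENNReal.ofReal_sum_of_nonneg (fun J _ => hS0 J z), Finset.sum_mul]
    _ ≤ ∑ J ∈ Wd.image Prod.fst, ENNReal.ofReal (C * D.Ca ^ 2) * ∫⁻ z, ENNReal.ofReal (D.A.sq P (D.fib J) a z) * BD.wt Ew D.A.N (z - z₁) := by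
        refine Finset.sum_le_sum fun J _ => ?_
        have := hcap ι κ D a m₁ ρχ Cχ Mχ hD h J ((Wd.filter fun T => T.1 = J).image Prod.snd) z₁
        rw [hS]
        exact this
    _ = ENNReal.ofReal (C * D.Ca ^ 2) * ∫⁻ z, ENNReal.ofReal (∑ J ∈ Wd.image Prod.fst, D.A.sq P (D.fib J) a z) * BD.wt Ew D.A.N (z - z₁) := by
        rw [← Finset.mul_sum, ← lintegral_finsetSum _ hmJ']
        congr 1
        refine lintegral_congr fun z => ?_
        rw [ENNReal.ofReal_sum_of_nonneg (fun J _ => pkw_sq_nonneg D.A P (D.fib J) a z), Finset.sum_mul]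
    _ ≤ _ := by
        refine mul_le_mul_right (lintegral_mono fun z => mul_le_mul_left (ENNReal.ofReal_le_ofReal ?_) _) _
        unfold PFam.sq
        exact D.sum_fib_le _ _ fun T _ => mul_nonneg (sq_nonneg _) (Real.rpow_nonneg (by have := D.A.d_nonneg T z; linarith) _)

/-- **THE LOCAL `L²` STEP**, weight at any scale `R ≥ N'` -/
theorem asm_l2_wt (k : ℕ) (K : PCls) {P Cs C₁ Ew : ℝ} (hP : (k : ℝ) + 2 ≤ P) (hCs : P + (k : ℝ) + 1 < 2 * Cs) (hP' : P + (k : ℝ) + 1 < 2 * K.P') (hE : 0 ≤ Ew) :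
    ∃ C : ℝ, 0 ≤ C ∧ ∀ (ι κ : Type) (D : Asm k ι κ) (a : ι → ℝ) (m₁ : ℕ) (ρχ Cχ Mχ : ℝ), D.Cs = Cs → D.Ok K a C₁ m₁ ρχ Cχ Mχ →
      ∀ (Wd : Finset (κ × PLat k)) (z₁ : ST k) (R : ℝ), D.A.N ≤ R →
        ∫⁻ z, ENNReal.ofReal (D.par.sq P Wd D.amp z) * BD.wt Ew R (z - z₁)
          ≤ ENNReal.ofReal (C * D.Ca ^ 2) * ∫⁻ z, ENNReal.ofReal (D.A.sq P D.s a z) * BD.wt Ew R (z - z₁) := by
  have hk : (0 : ℝ) ≤ k := Nat.cast_nonneg k
  obtain ⟨C, hC, hloc⟩ := asm_l2_loc k K (C₁ := C₁) (Ew := Ew + k + 2) hP hCs hP' (by linarith)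
  obtain ⟨c, hc, htr⟩ := pkc_wt_transfer k hE
  refine ⟨c * C, by positivity, ?_⟩
  intro ι κ D a m₁ ρχ Cχ Mχ hD h Wd z₁ R hR
  have hN' : 0 < D.A.N := lt_of_lt_of_le one_pos h.inn.one_le
  have h1 := htr D.A.N R (fun z => ENNReal.ofReal (D.par.sq P Wd D.amp z)) (fun z => ENNReal.ofReal (D.A.sq P D.s a z)) (ENNReal.ofReal (C * D.Ca ^ 2)) hN' hR
    (ENNReal.measurable_ofReal.comp (D.par.sq_cont P Wd D.amp).measurable) (ENNReal.measurable_ofReal.comp (D.A.sq_cont P D.s a).measurable)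
    (fun z₂ => hloc ι κ D a m₁ ρχ Cχ Mχ hD h Wd z₂) z₁
  refine h1.trans (le_of_eq ?_)
  rw [← ENNReal.ofReal_mul hc]
  congr 2
  ring

/-- **THE LOCAL `L²` STEP**, ball form -/
theorem asm_l2_ball (k : ℕ) (K : PCls) {P Cs C₁ : ℝ} (hP : (k : ℝ) + 2 ≤ P) (hCs : P + (k : ℝ) + 1 < 2 * Cs) (hP' : P + (k : ℝ) + 1 < 2 * K.P') :
    ∃ C : ℝ, 0 ≤ C ∧ ∀ (ι κ : Type) (D : Asm k ι κ) (a : ι → ℝ) (m₁ : ℕ) (ρχ Cχ Mχ : ℝ), D.Cs = Cs → D.Ok K a C₁ m₁ ρχ Cχ Mχ →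
      ∀ (Wd : Finset (κ × PLat k)) (z₀ : ST k),
        ∫⁻ z in closedBall z₀ D.A.N, ENNReal.ofReal (D.par.sq P Wd D.amp z) ≤ ENNReal.ofReal (C * D.Ca ^ 2 * D.A.N ^ (k + 1) * D.A.sq P D.s a z₀) := by
  have hk : (0 : ℝ) ≤ k := Nat.cast_nonneg k
  have hP0 : 0 ≤ P := by linarith
  have hdd : ((BD.dd (E k) : ℕ) : ℝ) = (k : ℝ) + 1 := by
    rw [pk_dd]
    push_cast
    rfl
  obtain ⟨C, hC, hloc⟩ := asm_l2_loc k K (C₁ := C₁) (Ew := P + k + 2) hP hCs hP' (by linarith)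
  obtain ⟨ci, hci, hint⟩ := BD.exists_lintegral_wt (V := E k) (E := (k : ℝ) + 2) (by rw [hdd]; linarith)
  refine ⟨2 ^ (P + k + 2) * C * ((1 + 2 * |K.C₀|) ^ P * ci), by positivity, ?_⟩
  intro ι κ D a m₁ ρχ Cχ Mχ hD h Wd z₀
  have := BD.wt_haar (V := E k)
  have hN' : 0 < D.A.N := lt_of_lt_of_le one_pos h.inn.one_le
  have hsq0 : 0 ≤ D.A.sq P D.s a z₀ := pkw_sq_nonneg D.A P D.s a z₀
  -- the ball is dominated by the weight
  have h1 : ∫⁻ z in closedBall z₀ D.A.N, ENNReal.ofReal (D.par.sq P Wd D.amp z)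
      ≤ ENNReal.ofReal (2 ^ (P + k + 2)) * ∫⁻ z, ENNReal.ofReal (D.par.sq P Wd D.amp z) * BD.wt (P + k + 2) D.A.N (z - z₀) := by
    rw [← lintegral_const_mul' _ _ ENNReal.ofReal_ne_top]
    refine le_trans (setLIntegral_mono' measurableSet_closedBall fun z hz => ?_) (setLIntegral_le_lintegral _ _)
    rw [mem_closedBall, dist_eq_norm] at hz
    have h2 : ENNReal.ofReal ((1 + 1 : ℝ) ^ (-(P + k + 2))) ≤ BD.wt (P + k + 2) D.A.N (z - z₀) :=
      BD.wt_ge_of_le (by linarith) hN' (by rw [one_mul]; exact hz)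
    have e2 : (1 + 1 : ℝ) = 2 := by norm_num
    rw [e2] at h2
    calc ENNReal.ofReal (D.par.sq P Wd D.amp z) = ENNReal.ofReal (2 ^ (P + k + 2)) * (ENNReal.ofReal (D.par.sq P Wd D.amp z) * ENNReal.ofReal ((2 : ℝ) ^ (-(P + k + 2)))) := by
          rw [mul_left_comm, ← ENNReal.ofReal_mul (by positivity), ← Real.rpow_add (by norm_num), add_neg_cancel, Real.rpow_zero, ENNReal.ofReal_one, mul_one]
      _ ≤ _ := mul_le_mul_right (mul_le_mul_right h2 _) _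
  -- the child envelope against the weight
  have h3 : ∫⁻ z, ENNReal.ofReal (D.A.sq P D.s a z) * BD.wt (P + k + 2) D.A.N (z - z₀)
      ≤ ENNReal.ofReal ((1 + 2 * |K.C₀|) ^ P * ci * D.A.N ^ (k + 1) * D.A.sq P D.s a z₀) := by
    have hpt : ∀ z, ENNReal.ofReal (D.A.sq P D.s a z) * BD.wt (P + k + 2) D.A.N (z - z₀)
        ≤ ENNReal.ofReal ((1 + 2 * |K.C₀|) ^ P * D.A.sq P D.s a z₀) * BD.wt ((k : ℝ) + 2) D.A.N (z - z₀) := by
      intro z
      unfold BD.wt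
      rw [← ENNReal.ofReal_mul (pkw_sq_nonneg _ _ _ _ _), ← ENNReal.ofReal_mul (by positivity)]
      refine ENNReal.ofReal_le_ofReal ?_
      have hx : 0 ≤ ‖z - z₀‖ / D.A.N := by positivity
      have h4 : D.A.sq P D.s a z ≤ ((1 + 2 * |K.C₀|) * (1 + ‖z - z₀‖ / D.A.N)) ^ P * D.A.sq P D.s a z₀ := by
        unfold PFam.sq
        rw [Finset.mul_sum]
        refine Finset.sum_le_sum fun T hT => ?_
        have h5 := h.inn.w_peetre hT hP0 z z₀
        have hC0 := h.inn.C₀_nonneg hT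
        have hw0 : 0 ≤ D.A.w P T z₀ := Real.rpow_nonneg (by have := D.A.d_nonneg T z₀; linarith) _
        have h6 : (1 + (1 + 2 * K.C₀) * ‖z₀ - z‖ / D.A.N) ^ P ≤ ((1 + 2 * |K.C₀|) * (1 + ‖z - z₀‖ / D.A.N)) ^ P := by
          refine Real.rpow_le_rpow (by positivity) ?_ hP0
          rw [abs_of_nonneg hC0, norm_sub_rev, mul_div_assoc]
          nlinarith
        calc a T ^ 2 * D.A.w P T z ≤ a T ^ 2 * (((1 + 2 * |K.C₀|) * (1 + ‖z - z₀‖ / D.A.N)) ^ P * D.A.w P T z₀) :=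
              mul_le_mul_of_nonneg_left (h5.trans (mul_le_mul_of_nonneg_right h6 hw0)) (sq_nonneg _)
          _ = _ := by ring
      have e3 : (1 + ‖z - z₀‖ / D.A.N) ^ (-(P + k + 2)) = (1 + ‖z - z₀‖ / D.A.N) ^ (-P) * (1 + ‖z - z₀‖ / D.A.N) ^ (-((k : ℝ) + 2)) := by
        rw [← Real.rpow_add (by positivity)]
        congr 1
        ring
      have e4 : (1 + ‖z - z₀‖ / D.A.N) ^ P * (1 + ‖z - z₀‖ / D.A.N) ^ (-P) = 1 := by
        rw [← Real.rpow_add (by positivity), add_neg_cancel, Real.rpow_zero]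
      calc D.A.sq P D.s a z * (1 + ‖z - z₀‖ / D.A.N) ^ (-(P + k + 2))
          ≤ (((1 + 2 * |K.C₀|) * (1 + ‖z - z₀‖ / D.A.N)) ^ P * D.A.sq P D.s a z₀) * (1 + ‖z - z₀‖ / D.A.N) ^ (-(P + k + 2)) :=
            mul_le_mul_of_nonneg_right h4 (by positivity)
        _ = (1 + 2 * |K.C₀|) ^ P * D.A.sq P D.s a z₀ * ((1 + ‖z - z₀‖ / D.A.N) ^ P * (1 + ‖z - z₀‖ / D.A.N) ^ (-P)) * (1 + ‖z - z₀‖ / D.A.N) ^ (-((k : ℝ) + 2)) := by
            rw [Real.mul_rpow (by positivity) (by positivity), e3]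
            ring
        _ = _ := by rw [e4, mul_one]
    refine (lintegral_mono hpt).trans (le_of_eq ?_)
    rw [lintegral_const_mul' _ _ ENNReal.ofReal_ne_top, lintegral_sub_right_eq_self (fun y => BD.wt ((k : ℝ) + 2) D.A.N y) z₀, hint D.A.N hN', hdd,
      ← ENNReal.ofReal_mul (by positivity)]
    congr 1
    have e5 : D.A.N ^ ((k : ℝ) + 1) = D.A.N ^ (k + 1) := by
      rw [← Real.rpow_natCast]
      push_cast
      rfl
    rw [e5]
    ring
  calc ∫⁻ z in closedBall z₀ D.A.N, ENNReal.ofReal (D.par.sq P Wd D.amp z)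
      ≤ ENNReal.ofReal (2 ^ (P + k + 2)) * ∫⁻ z, ENNReal.ofReal (D.par.sq P Wd D.amp z) * BD.wt (P + k + 2) D.A.N (z - z₀) := h1
    _ ≤ ENNReal.ofReal (2 ^ (P + k + 2)) * (ENNReal.ofReal (C * D.Ca ^ 2) * ENNReal.ofReal ((1 + 2 * |K.C₀|) ^ P * ci * D.A.N ^ (k + 1) * D.A.sq P D.s a z₀)) :=
        mul_le_mul_right ((hloc ι κ D a m₁ ρχ Cχ Mχ hD h Wd z₀).trans (mul_le_mul_right h3 _)) _
    _ = _ := by
        rw [← ENNReal.ofReal_mul (by positivity), ← ENNReal.ofReal_mul (by positivity)]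
        congr 1
        ring

end Claimed.Agent.R257
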