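import Claimed.Agent.R257.PK1.WOut

/-!
# R257 / Pk / Asm : THE ONE-STEP ASSEMBLY OPERATOR (H `p:hierarchy`, packets.tex l.820-940; PK2/Plan.lean sec. ASM)      DEFINITIONS      (architect helper136)

GENERAL FORM (not tied to any grid or tree): ANY child family `A` (scale `N' = A.N`, `A.In s K a`), ANY grouping `π : ι → κ` of the child labels into caps with centres `vc J`, `|v_{T'} - vc (π T')| ≤ C₁/N`, parent scale `1 ≤ N ≤ N'`, `L = N'/N`.
Parent cells `T = (J, j) ∈ κ × ℤ^{k+1}`; native centre `plat j`; localiser `χ(X - plat j)` in the native coordinates `X = natX N (vc J) z` of the cap.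
* `D.ch J`      the child family in the native coordinates of the cap `J` (`= A.resc N (vc J)`: scale `L`, labels `N (v - vc J)`, SAME centres and profiles)
* `D.U J X`     the pre-cutoff field of the cap `J` in these coordinates:  `A.fld (D.fib J) z = car (vc J) z * D.U J (natX N (vc J) z)`  (`Asm.fld_fib`)
* `D.par`       the parent family: scale `N`, label `vc J`, centre `plat j`, profile `χ(X - plat j) U_J(X)`
* `D.amp T`     the fresh amplitude `Ca sup_X |U_J X| (1 + |X - plat j|)^(-Cs)`   (H (p:parent-amplitude))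
* `D.smp Q b' T` the sampled child squares `∑_{T' ∈ J} b'_{T'}² w^{(Q)}_{T'}(z_T)`   (H (p:parent-weights))
* `D.Ok K a C₁ m₁ ρχ Cχ Mχ`  the hypotheses.
EXITS (files `Pk/Asm{Clo,Cau,Hier,Junk,Bg}.lean`): S1 `Asm.Ok.par_in` (closure of the class), S2 `asm_cauchy`, S3 `asm_hier` (H (p:hierarchy-equation), from ANY constant `PkwLe` at scale `L`, all `κ`-plane cases), S6 `asm_l2`, S4 `Asm.Ok.junk`, S5 `asm_bg`.
`PLat k`, `plat` are the same type and formula as `Tree.Lat`, `Tree.lat` (`rfl`).
-/

set_option autoImplicit false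

namespace Claimed.Agent.R257

open MeasureTheory Metric Set
open scoped ENNReal

variable {k : ℕ} {ι κ : Type}

/-- the lattice of native cells -/
abbrev PLat (k : ℕ) := (Fin k → ℤ) × ℤ

/-- the lattice point -/
noncomputable def plat (m : PLat k) : ST k := (WithLp.toLp 2 (fun i => (m.1 i : ℝ)), (m.2 : ℝ))

/-- the data of a one-step assembly -/
structure Asm (k : ℕ) (ι κ : Type) where
  /-- the child family -/
  A : PFam k ι
  /-- the child packets -/
  s : Finset ι
  /-- the parent scale -/
  N : ℝ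
  /-- assignment of the child packets to the parent caps -/
  π : ι → κ
  /-- centres of the parent caps -/
  vc : κ → E k
  /-- the localiser -/
  χ : ST k → ℂ
  /-- constant in the fresh amplitude -/
  Ca : ℝ
  /-- decay order in the weighted supremum -/
  Cs : ℝ

namespace Asm

variable (D : Asm k ι κ)

/-- the ratio of the scales -/
noncomputable def L : ℝ := D.A.N / D.N

open scoped Classical in
/-- the child packets of the cap `J` -/
noncomputable def fib (J : κ) : Finset ι := D.s.filter fun T => D.π T = J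

open scoped Classical in
/-- the occupied caps -/
noncomputable def caps : Finset κ := D.s.image D.π

/-- the child family in the native coordinates of the cap `J` -/
noncomputable def ch (J : κ) : PFam k ι := D.A.resc D.N (D.vc J)

/-- the pre-cutoff field of the cap `J` in the native coordinates of the cap -/
noncomputable def U (J : κ) (X : ST k) : ℂ := (D.ch J).fld (D.fib J) X

/-- the parent family -/
noncomputable def par : PFam k (κ × PLat k) where
  N := D.N
  v := fun T => D.vc T.1
  u := fun T => plat T.2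
  F := fun T X => D.χ (X - plat T.2) * D.U T.1 X

/-- the fresh amplitude -/
noncomputable def amp (T : κ × PLat k) : ℝ := D.Ca * ⨆ X, ‖D.U T.1 X‖ * (1 + ‖X - plat T.2‖) ^ (-D.Cs)

/-- the child squares of order `Q` sampled at the centre of the parent cell -/
noncomputable def smp (Q : ℝ) (b' : ι → ℝ) (T : κ × PLat k) : ℝ := ∑ T' ∈ D.fib T.1, b' T' ^ 2 * D.A.w Q T' (D.par.ctr T)

/-- the hypotheses of a one-step assembly -/
structure Ok (K : PCls) (a : ι → ℝ) (C₁ : ℝ) (m₁ : ℕ) (ρχ Cχ Mχ : ℝ) : Prop where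
  inn : D.A.In D.s K a
  one_le : 1 ≤ D.N
  le : D.N ≤ D.A.N
  /-- the child labels lie in their caps -/
  near : ∀ T ∈ D.s, ‖D.A.v T - D.vc (D.π T)‖ ≤ C₁ / D.N
  /-- bounded multiplicity of the centres of the caps at the scale `1/N` -/
  mult : ∀ (ξ : E k) (t : Finset κ), t ⊆ D.caps → (∀ J ∈ t, ‖D.N • D.vc J - ξ‖ ≤ 1) → t.card ≤ m₁
  χ_fs : BD.FS (closedBall (0 : ST k) ρχ) D.χ
  χ_dec : ∀ X, ‖D.χ X‖ ≤ Cχ * (1 + ‖X‖) ^ (-Mχ)
  χ_pou : ∀ X, HasSum (fun m : PLat k => D.χ (X - plat m)) 1
  Ca_ge : Cχ ≤ D.Ca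
  Cs_nonneg : 0 ≤ D.Cs
  C₁_nonneg : 0 ≤ C₁
  ρ_nonneg : 0 ≤ K.ρ
  P'_nonneg : 0 ≤ K.P'

/-- the class of the child family in the native coordinates of a cap -/
def clsCh (K : PCls) (C₁ : ℝ) : PCls := ⟨K.ρ, K.P', C₁, K.m₀⟩

/-- the class of the parent family -/
noncomputable def clsPar (K : PCls) (C₁ : ℝ) (m₁ : ℕ) (ρχ Mχ : ℝ) : PCls :=
  ⟨ρχ + C₁ + C₁ ^ 2 + K.ρ * (1 + 2 * C₁) / D.L, Mχ - D.Cs, K.C₀ + C₁, m₁ * 3 ^ (k + 1)⟩

end Asm

/-- Stores the on-demand equation lemmas of the definitions above in THIS module (rule 6 hygiene). -/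
theorem pka_forced : True := by
  have := @plat.eq_1; have := @Asm.L.eq_1; have := @Asm.fib.eq_1; have := @Asm.caps.eq_1; have := @Asm.ch.eq_1; have := @Asm.U.eq_1
  have := @Asm.par.eq_1; have := @Asm.amp.eq_1; have := @Asm.smp.eq_1; have := @Asm.clsCh.eq_1; have := @Asm.clsPar.eq_1
  trivial

end Claimed.Agent.R257
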