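import Claimed.Agent.R257.Pk.Api

/-!
# R257 / Pk / Conv : TWO-SCALE CONVOLUTION OF THE PACKET WEIGHTS  (H (p:convolution) + tail; PK2/Plan.lean, section CONV)        (helper12)

Parent cells: native centres `u` in a `1`-separated set `U` (for ONE parent label); child packet: relative scale `L ≥ 1`, relative label `‖v‖ ≤ C₁`, native centre `u'`.
* `pk_conv`       `∑_{u ∈ U} (1+‖X-u‖)^{-P₁} (1+‖natX L v u - u'‖)^{-P₂} ≤ C (1+‖natX L v X - u'‖)^{-P₂}`      (`k+1 < P₂ ≤ P₁`, `k+2 ≤ P₁`: NO loss of exponent)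
* `pk_conv_tail`  the same sum over `ϱ < ‖X-u‖` : `≤ C (ϱ^{-(P₁-k-1)} + L^{-(P₁-k-2)}) (…)`
* `pk_conv_two`, `pk_conv_two_tail`   the same for two absolute scales `N ≤ N'`, parent label `vc`, child label `‖v' - vc‖ ≤ C₁/N`, parent centres `natI N vc u`.
-/

set_option autoImplicit false

namespace Claimed.Agent.R257

open MeasureTheory Metric Set

variable {k : ℕ}

theorem pk_div_rpow_neg {x y : ℝ} (hx : 0 < x) (hy : 0 < y) (p : ℝ) : (x / y) ^ (-p) = y ^ p * x ^ (-p) := by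
  rw [Real.div_rpow hx.le hy.le, Real.rpow_neg hy.le, div_inv_eq_mul, mul_comm]

open scoped Classical in
/-- tail of the sum of `(1+‖z-z₀‖)^{-M}` over a `1`-separated set -/
theorem pk_usep_tail (k : ℕ) {M : ℝ} (hM : (k : ℝ) + 1 < M) :
    ∃ C : ℝ, 0 ≤ C ∧ ∀ (Y : Finset (ST k)), USep Y → ∀ (z₀ : ST k) (ϱ : ℝ), 1 ≤ ϱ →
      ∑ z ∈ Y.filter (fun z => ϱ < ‖z - z₀‖), (1 + ‖z - z₀‖) ^ (-M) ≤ C * ϱ ^ (-(M - k - 1)) := by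
  obtain ⟨C, hC, h⟩ := pk_usep_sum k hM
  refine ⟨2 ^ M * C, by positivity, fun Y hY z₀ ϱ hϱ => ?_⟩
  have hϱ0 : 0 < ϱ := by linarith
  have hk : (0 : ℝ) ≤ k := Nat.cast_nonneg k
  calc ∑ z ∈ Y.filter (fun z => ϱ < ‖z - z₀‖), (1 + ‖z - z₀‖) ^ (-M)
      ≤ ∑ z ∈ Y.filter (fun z => ϱ < ‖z - z₀‖), 2 ^ M * ϱ ^ (-M) * (1 + ‖z - z₀‖ / ϱ) ^ (-M) := by
        refine Finset.sum_le_sum fun z hz => ?_
        rw [Finset.mem_filter] at hz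
        have ht := hz.2
        have h1 : ϱ * (1 + ‖z - z₀‖ / ϱ) / 2 ≤ 1 + ‖z - z₀‖ := by
          have : ϱ * (1 + ‖z - z₀‖ / ϱ) = ϱ + ‖z - z₀‖ := by field_simp
          rw [this]; linarith
        have hpos : 0 < ϱ * (1 + ‖z - z₀‖ / ϱ) := by positivity
        calc (1 + ‖z - z₀‖) ^ (-M) ≤ (ϱ * (1 + ‖z - z₀‖ / ϱ) / 2) ^ (-M) :=
              Real.rpow_le_rpow_of_nonpos (by positivity) h1 (by linarith)
          _ = 2 ^ M * ϱ ^ (-M) * (1 + ‖z - z₀‖ / ϱ) ^ (-M) := by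
              rw [pk_div_rpow_neg hpos (by norm_num), Real.mul_rpow hϱ0.le (by positivity), mul_assoc]
    _ ≤ ∑ z ∈ Y, 2 ^ M * ϱ ^ (-M) * (1 + ‖z - z₀‖ / ϱ) ^ (-M) :=
        Finset.sum_le_sum_of_subset_of_nonneg (Finset.filter_subset _ _) fun z _ _ => by positivity
    _ = 2 ^ M * ϱ ^ (-M) * ∑ z ∈ Y, (1 + ‖z - z₀‖ / ϱ) ^ (-M) := by rw [Finset.mul_sum]
    _ ≤ 2 ^ M * ϱ ^ (-M) * (C * ϱ ^ (k + 1)) := by
        apply mul_le_mul_of_nonneg_left (h Y hY z₀ ϱ hϱ) (by positivity)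
    _ = 2 ^ M * C * ϱ ^ (-(M - k - 1)) := by
        have : ϱ ^ (-(M - k - 1)) = ϱ ^ (-M) * ϱ ^ (k + 1) := by
          rw [← Real.rpow_natCast ϱ (k + 1), ← Real.rpow_add hϱ0]
          congr 1
          push_cast
          ring
        rw [this]; ring

/-- the two classes of the convolution, term by term -/
theorem pk_conv_term {P₁ P₂ C₁ L : ℝ} (hP₁ : 0 ≤ P₁) (hP₂ : 0 ≤ P₂) (hL : 1 ≤ L) {v : E k} (hv : ‖v‖ ≤ C₁) (X u u' : ST k) :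
    (1 + ‖X - u‖) ^ (-P₁) * (1 + ‖natX L v u - u'‖) ^ (-P₂) ≤
      2 ^ P₂ * (1 + ‖natX L v X - u'‖) ^ (-P₂) * (1 + ‖X - u‖) ^ (-P₁)
      + (2 * (1 + 2 * C₁)) ^ P₁ * ((1 + ‖natX L v X - u'‖) * L) ^ (-P₁) * (1 + ‖natX L v u - u'‖) ^ (-P₂) := by
  have hL0 : 0 < L := by linarith
  have hC₁ : 0 ≤ C₁ := (norm_nonneg _).trans hv
  set a := 1 + ‖natX L v X - u'‖ with ha
  set b := 1 + ‖natX L v u - u'‖ with hb
  set t := ‖X - u‖ with ht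
  have ha1 : 1 ≤ a := by rw [ha]; linarith [norm_nonneg (natX L v X - u')]
  have hb1 : 1 ≤ b := by rw [hb]; linarith [norm_nonneg (natX L v u - u')]
  have ht0 : 0 ≤ t := norm_nonneg _
  have ha0 : 0 < a := by linarith
  have hb0 : 0 < b := by linarith
  by_cases h : a ≤ 2 * b
  · have h1 : b ^ (-P₂) ≤ 2 ^ P₂ * a ^ (-P₂) := by
      rw [← pk_div_rpow_neg ha0 (by norm_num)]
      exact Real.rpow_le_rpow_of_nonpos (by positivity) (by linarith) (by linarith)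
    have h2 : 0 ≤ (2 * (1 + 2 * C₁)) ^ P₁ * (a * L) ^ (-P₁) * b ^ (-P₂) := by positivity
    calc (1 + t) ^ (-P₁) * b ^ (-P₂) ≤ (1 + t) ^ (-P₁) * (2 ^ P₂ * a ^ (-P₂)) := by
          apply mul_le_mul_of_nonneg_left h1 (by positivity)
      _ = 2 ^ P₂ * a ^ (-P₂) * (1 + t) ^ (-P₁) := by ring
      _ ≤ _ := by linarith
  · push_neg at h
    have h1 : a - b ≤ ‖natX L v (X - u)‖ := by
      rw [natX_sub, ha, hb]
      have : ‖natX L v X - u'‖ ≤ ‖natX L v u - u'‖ + ‖natX L v X - natX L v u‖ := by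
        calc ‖natX L v X - u'‖ = ‖(natX L v u - u') + (natX L v X - natX L v u)‖ := by congr 1; abel
          _ ≤ _ := norm_add_le _ _
      linarith
    have h2 := pk_natX_norm_le hL v (X - u)
    have h3 : (1 + 2 * ‖v‖) * ‖X - u‖ / L ≤ (1 + 2 * C₁) * t / L := by
      apply div_le_div_of_nonneg_right _ hL0.le
      apply mul_le_mul_of_nonneg_right _ ht0
      linarith
    have h4 : a / 2 ≤ (1 + 2 * C₁) * t / L := by linarith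
    have h5 : a * L / (2 * (1 + 2 * C₁)) ≤ 1 + t := by
      rw [div_le_iff₀ (by positivity)]
      rw [le_div_iff₀ hL0] at h4
      nlinarith
    have h6 : (1 + t) ^ (-P₁) ≤ (2 * (1 + 2 * C₁)) ^ P₁ * (a * L) ^ (-P₁) := by
      rw [← pk_div_rpow_neg (by positivity) (by positivity)]
      exact Real.rpow_le_rpow_of_nonpos (by positivity) h5 (by linarith)
    have h7 : 0 ≤ 2 ^ P₂ * a ^ (-P₂) * (1 + t) ^ (-P₁) := by positivity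
    calc (1 + t) ^ (-P₁) * b ^ (-P₂) ≤ ((2 * (1 + 2 * C₁)) ^ P₁ * (a * L) ^ (-P₁)) * b ^ (-P₂) := by
          apply mul_le_mul_of_nonneg_right h6 (by positivity)
      _ ≤ _ := by linarith

/-- the second class, summed -/
theorem pk_conv_far {P₁ P₂ a L : ℝ} (k : ℕ) (h12 : P₂ ≤ P₁) (ha : 1 ≤ a) (hL : 1 ≤ L) :
    (a * L) ^ (-P₁) * L ^ (k + 2) ≤ L ^ (-(P₁ - k - 2)) * a ^ (-P₂) := by
  have ha0 : 0 < a := by linarith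
  have hL0 : 0 < L := by linarith
  have h1 : L ^ (-(P₁ - k - 2)) = L ^ (-P₁) * L ^ (k + 2) := by
    rw [← Real.rpow_natCast L (k + 2), ← Real.rpow_add hL0]
    congr 1
    push_cast
    ring
  have h2 : a ^ (-P₁) ≤ a ^ (-P₂) := Real.rpow_le_rpow_of_exponent_le ha (by linarith)
  rw [Real.mul_rpow ha0.le hL0.le, h1]
  calc a ^ (-P₁) * L ^ (-P₁) * L ^ (k + 2) ≤ a ^ (-P₂) * L ^ (-P₁) * L ^ (k + 2) := by gcongr
    _ = _ := by ring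

open scoped Classical in
/-- **(p:convolution), tail form** -/
theorem pk_conv_tail (k : ℕ) {P₁ P₂ : ℝ} (hP₂ : (k : ℝ) + 1 < P₂) (h12 : P₂ ≤ P₁) (C₁ : ℝ) :
    ∃ C : ℝ, 0 ≤ C ∧ ∀ (L : ℝ) (v : E k) (u' X : ST k) (U : Finset (ST k)) (ϱ : ℝ), 1 ≤ L → ‖v‖ ≤ C₁ → USep U → 1 ≤ ϱ →
      ∑ u ∈ U.filter (fun u => ϱ < ‖X - u‖), (1 + ‖X - u‖) ^ (-P₁) * (1 + ‖natX L v u - u'‖) ^ (-P₂)
        ≤ C * (ϱ ^ (-(P₁ - k - 1)) + L ^ (-(P₁ - k - 2))) * (1 + ‖natX L v X - u'‖) ^ (-P₂) := by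
  have hk : (0 : ℝ) ≤ k := Nat.cast_nonneg k
  obtain ⟨Cs, hCs, hs⟩ := pk_usep_tail k (M := P₁) (by linarith)
  obtain ⟨Ct, hCt, htb⟩ := pk_usep_tube k hP₂ C₁
  refine ⟨2 ^ P₂ * Cs + |2 * (1 + 2 * C₁)| ^ P₁ * Ct, by positivity, fun L v u' X U ϱ hL hv hU hϱ => ?_⟩
  have hC₁ : 0 ≤ C₁ := (norm_nonneg _).trans hv
  have habs : |2 * (1 + 2 * C₁)| = 2 * (1 + 2 * C₁) := abs_of_nonneg (by positivity)
  rw [habs]
  have hL0 : 0 < L := by linarith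
  have hϱ0 : 0 < ϱ := by linarith
  set a := 1 + ‖natX L v X - u'‖ with ha
  have ha1 : 1 ≤ a := by rw [ha]; linarith [norm_nonneg (natX L v X - u')]
  have ha0 : 0 < a := by linarith
  have e1 : ∑ u ∈ U.filter (fun u => ϱ < ‖X - u‖), (1 + ‖X - u‖) ^ (-P₁) ≤ Cs * ϱ ^ (-(P₁ - k - 1)) := by
    have := hs U hU X ϱ hϱ
    simpa only [norm_sub_rev] using this
  have e2 : ∑ u ∈ U.filter (fun u => ϱ < ‖X - u‖), (1 + ‖natX L v u - u'‖) ^ (-P₂) ≤ Ct * L ^ (k + 2) :=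
    (Finset.sum_le_sum_of_subset_of_nonneg (Finset.filter_subset _ _) fun z _ _ => by positivity).trans (htb U hU L v u' hL hv)
  calc ∑ u ∈ U.filter (fun u => ϱ < ‖X - u‖), (1 + ‖X - u‖) ^ (-P₁) * (1 + ‖natX L v u - u'‖) ^ (-P₂)
      ≤ ∑ u ∈ U.filter (fun u => ϱ < ‖X - u‖), (2 ^ P₂ * a ^ (-P₂) * (1 + ‖X - u‖) ^ (-P₁)
          + (2 * (1 + 2 * C₁)) ^ P₁ * (a * L) ^ (-P₁) * (1 + ‖natX L v u - u'‖) ^ (-P₂)) :=
        Finset.sum_le_sum fun u _ => pk_conv_term (by linarith) (by linarith) hL hv X u u'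
    _ = 2 ^ P₂ * a ^ (-P₂) * ∑ u ∈ U.filter (fun u => ϱ < ‖X - u‖), (1 + ‖X - u‖) ^ (-P₁)
          + (2 * (1 + 2 * C₁)) ^ P₁ * (a * L) ^ (-P₁) * ∑ u ∈ U.filter (fun u => ϱ < ‖X - u‖), (1 + ‖natX L v u - u'‖) ^ (-P₂) := by
        rw [Finset.sum_add_distrib, Finset.mul_sum, Finset.mul_sum]
    _ ≤ 2 ^ P₂ * a ^ (-P₂) * (Cs * ϱ ^ (-(P₁ - k - 1))) + (2 * (1 + 2 * C₁)) ^ P₁ * (a * L) ^ (-P₁) * (Ct * L ^ (k + 2)) := by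
        gcongr
    _ = 2 ^ P₂ * a ^ (-P₂) * (Cs * ϱ ^ (-(P₁ - k - 1))) + (2 * (1 + 2 * C₁)) ^ P₁ * Ct * ((a * L) ^ (-P₁) * L ^ (k + 2)) := by ring
    _ ≤ 2 ^ P₂ * a ^ (-P₂) * (Cs * ϱ ^ (-(P₁ - k - 1))) + (2 * (1 + 2 * C₁)) ^ P₁ * Ct * (L ^ (-(P₁ - k - 2)) * a ^ (-P₂)) := by
        have := pk_conv_far (P₁ := P₁) (P₂ := P₂) k h12 ha1 hL
        gcongr
    _ ≤ (2 ^ P₂ * Cs + (2 * (1 + 2 * C₁)) ^ P₁ * Ct) * (ϱ ^ (-(P₁ - k - 1)) + L ^ (-(P₁ - k - 2))) * a ^ (-P₂) := by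
        have p1 : 0 ≤ 2 ^ P₂ * Cs * L ^ (-(P₁ - k - 2)) * a ^ (-P₂) := by positivity
        have p2 : 0 ≤ (2 * (1 + 2 * C₁)) ^ P₁ * Ct * ϱ ^ (-(P₁ - k - 1)) * a ^ (-P₂) := by positivity
        nlinarith

/-- **(p:convolution)**: no loss of exponent -/
theorem pk_conv (k : ℕ) {P₁ P₂ : ℝ} (hP₂ : (k : ℝ) + 1 < P₂) (h12 : P₂ ≤ P₁) (hP₁ : (k : ℝ) + 2 ≤ P₁) (C₁ : ℝ) :
    ∃ C : ℝ, 0 ≤ C ∧ ∀ (L : ℝ) (v : E k) (u' X : ST k) (U : Finset (ST k)), 1 ≤ L → ‖v‖ ≤ C₁ → USep U →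
      ∑ u ∈ U, (1 + ‖X - u‖) ^ (-P₁) * (1 + ‖natX L v u - u'‖) ^ (-P₂) ≤ C * (1 + ‖natX L v X - u'‖) ^ (-P₂) := by
  have hk : (0 : ℝ) ≤ k := Nat.cast_nonneg k
  obtain ⟨Cs, hCs, hs⟩ := pk_usep_sum k (M := P₁) (by linarith)
  obtain ⟨Ct, hCt, htb⟩ := pk_usep_tube k hP₂ C₁
  refine ⟨2 ^ P₂ * Cs + |2 * (1 + 2 * C₁)| ^ P₁ * Ct, by positivity, fun L v u' X U hL hv hU => ?_⟩
  have hC₁ : 0 ≤ C₁ := (norm_nonneg _).trans hv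
  have habs : |2 * (1 + 2 * C₁)| = 2 * (1 + 2 * C₁) := abs_of_nonneg (by positivity)
  rw [habs]
  have hL0 : 0 < L := by linarith
  set a := 1 + ‖natX L v X - u'‖ with ha
  have ha1 : 1 ≤ a := by rw [ha]; linarith [norm_nonneg (natX L v X - u')]
  have ha0 : 0 < a := by linarith
  have e1 : ∑ u ∈ U, (1 + ‖X - u‖) ^ (-P₁) ≤ Cs := by
    have := hs U hU X 1 le_rfl
    simpa only [norm_sub_rev, div_one, one_pow, mul_one] using this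
  have e2 : ∑ u ∈ U, (1 + ‖natX L v u - u'‖) ^ (-P₂) ≤ Ct * L ^ (k + 2) := htb U hU L v u' hL hv
  have e3 : L ^ (-(P₁ - k - 2)) ≤ 1 := Real.rpow_le_one_of_one_le_of_nonpos hL (by linarith)
  calc ∑ u ∈ U, (1 + ‖X - u‖) ^ (-P₁) * (1 + ‖natX L v u - u'‖) ^ (-P₂)
      ≤ ∑ u ∈ U, (2 ^ P₂ * a ^ (-P₂) * (1 + ‖X - u‖) ^ (-P₁)
          + (2 * (1 + 2 * C₁)) ^ P₁ * (a * L) ^ (-P₁) * (1 + ‖natX L v u - u'‖) ^ (-P₂)) :=
        Finset.sum_le_sum fun u _ => pk_conv_term (by linarith) (by linarith) hL hv X u u'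
    _ = 2 ^ P₂ * a ^ (-P₂) * ∑ u ∈ U, (1 + ‖X - u‖) ^ (-P₁)
          + (2 * (1 + 2 * C₁)) ^ P₁ * (a * L) ^ (-P₁) * ∑ u ∈ U, (1 + ‖natX L v u - u'‖) ^ (-P₂) := by
        rw [Finset.sum_add_distrib, Finset.mul_sum, Finset.mul_sum]
    _ ≤ 2 ^ P₂ * a ^ (-P₂) * Cs + (2 * (1 + 2 * C₁)) ^ P₁ * (a * L) ^ (-P₁) * (Ct * L ^ (k + 2)) := by
        gcongr
    _ = 2 ^ P₂ * a ^ (-P₂) * Cs + (2 * (1 + 2 * C₁)) ^ P₁ * Ct * ((a * L) ^ (-P₁) * L ^ (k + 2)) := by ring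
    _ ≤ 2 ^ P₂ * a ^ (-P₂) * Cs + (2 * (1 + 2 * C₁)) ^ P₁ * Ct * (1 * a ^ (-P₂)) := by
        have := (pk_conv_far (P₁ := P₁) (P₂ := P₂) k h12 ha1 hL).trans (mul_le_mul_of_nonneg_right e3 (by positivity : 0 ≤ a ^ (-P₂)))
        gcongr
    _ = _ := by ring

/-! ## two absolute scales -/

theorem pk_two_scale {N N' : ℝ} (hN : 0 < N) (vc v' : E k) (z : ST k) :
    natX N' v' z = natX (N' / N) (N • (v' - vc)) (natX N vc z) := (natX_resc hN.ne' v' vc z).symm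

theorem pk_two_scale_ctr {N N' : ℝ} (hN : 0 < N) (vc v' : E k) (u : ST k) :
    natX N' v' (natI N vc u) = natX (N' / N) (N • (v' - vc)) u := by
  rw [pk_two_scale hN vc v', natX_natI hN.ne']

theorem pk_two_scale_norm {N C₁ : ℝ} (hN : 0 < N) {vc v' : E k} (h : ‖v' - vc‖ ≤ C₁ / N) : ‖N • (v' - vc)‖ ≤ C₁ := by
  rw [norm_smul, Real.norm_of_nonneg hN.le]
  rw [le_div_iff₀ hN] at h
  linarith

/-- (p:convolution) for a parent scale `N`, parent label `vc`, parent native centres `u ∈ U` (physical centres `natI N vc u`), and a child of scale `N' ≥ N`, label `v'` in the cap of `vc`, native centre `u'` -/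
theorem pk_conv_two (k : ℕ) {P₁ P₂ : ℝ} (hP₂ : (k : ℝ) + 1 < P₂) (h12 : P₂ ≤ P₁) (hP₁ : (k : ℝ) + 2 ≤ P₁) (C₁ : ℝ) :
    ∃ C : ℝ, 0 ≤ C ∧ ∀ (N N' : ℝ) (vc v' : E k) (u' z : ST k) (U : Finset (ST k)), 0 < N → N ≤ N' → ‖v' - vc‖ ≤ C₁ / N → USep U →
      ∑ u ∈ U, (1 + ‖natX N vc z - u‖) ^ (-P₁) * (1 + ‖natX N' v' (natI N vc u) - u'‖) ^ (-P₂) ≤ C * (1 + ‖natX N' v' z - u'‖) ^ (-P₂) := by
  obtain ⟨C, hC, h⟩ := pk_conv k hP₂ h12 hP₁ C₁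
  refine ⟨C, hC, fun N N' vc v' u' z U hN hNN hv hU => ?_⟩
  have := h (N' / N) (N • (v' - vc)) u' (natX N vc z) U (by rw [le_div_iff₀ hN]; linarith) (pk_two_scale_norm hN hv) hU
  simpa only [pk_two_scale_ctr hN vc v', ← pk_two_scale hN vc v'] using this

open scoped Classical in
theorem pk_conv_two_tail (k : ℕ) {P₁ P₂ : ℝ} (hP₂ : (k : ℝ) + 1 < P₂) (h12 : P₂ ≤ P₁) (C₁ : ℝ) :
    ∃ C : ℝ, 0 ≤ C ∧ ∀ (N N' : ℝ) (vc v' : E k) (u' z : ST k) (U : Finset (ST k)) (ϱ : ℝ), 0 < N → N ≤ N' → ‖v' - vc‖ ≤ C₁ / N → USep U → 1 ≤ ϱ →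
      ∑ u ∈ U.filter (fun u => ϱ < ‖natX N vc z - u‖), (1 + ‖natX N vc z - u‖) ^ (-P₁) * (1 + ‖natX N' v' (natI N vc u) - u'‖) ^ (-P₂)
        ≤ C * (ϱ ^ (-(P₁ - k - 1)) + (N' / N) ^ (-(P₁ - k - 2))) * (1 + ‖natX N' v' z - u'‖) ^ (-P₂) := by
  obtain ⟨C, hC, h⟩ := pk_conv_tail k hP₂ h12 C₁
  refine ⟨C, hC, fun N N' vc v' u' z U ϱ hN hNN hv hU hϱ => ?_⟩
  have := h (N' / N) (N • (v' - vc)) u' (natX N vc z) U ϱ (by rw [le_div_iff₀ hN]; linarith) (pk_two_scale_norm hN hv) hU hϱ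
  simpa only [pk_two_scale_ctr hN vc v', ← pk_two_scale hN vc v'] using this

end Claimed.Agent.R257
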