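import Claimed.Agent.R257.Pk.AsmClo
import Claimed.Agent.R257.Pk.Conv

/-!
# R257 / Pk / AsmCau : lattice sums and S2 = CAUCHY BOUND OF THE FRESH AMPLITUDES      (architect helper136)
API used: `Pk/Api.lean`, `Pk/Conv.lean` of helper12 (`PFam.In.sq_peetre`, `pk_cauchy`, `pk_usep_sum`, `pk_conv_two`).
-/

set_option autoImplicit false

namespace Claimed.Agent.R257

open MeasureTheory Metric Set
open scoped ENNReal

variable {k : ℕ} {ι κ : Type}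

/-- **L-PKA-PLATSEP** distinct lattice points are `1`-separated.  (If `m.2 ≠ m'.2`: `1 ≤ |(m.2 : ℝ) - m'.2|` (`Int.one_le_abs`, cast) `≤ ‖·‖` (`norm_snd_le`); else some `m.1 i ≠ m'.1 i`: `1 ≤ |(m.1 i : ℝ) - m'.1 i| ≤ ‖(plat m).1 - (plat m').1‖` (`PiLp.norm_apply_le`) `≤ ‖·‖` (`norm_fst_le`).) -/
theorem pka_plat_sep {m m' : PLat k} (h : m ≠ m') : 1 ≤ ‖plat m - plat m'‖ := by
  by_cases h2 : m.2 = m'.2
  · have h1 : m.1 ≠ m'.1 := fun e => h (Prod.ext e h2)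
    obtain ⟨i, hi⟩ := Function.ne_iff.1 h1
    have h3 : (1 : ℝ) ≤ |(m.1 i : ℝ) - (m'.1 i : ℝ)| := by
      have := Int.one_le_abs (sub_ne_zero.2 hi)
      exact_mod_cast this
    have h4 : |(m.1 i : ℝ) - (m'.1 i : ℝ)| ≤ ‖(plat m - plat m').1‖ := by
      have := PiLp.norm_apply_le (plat m - plat m').1 i
      simpa [plat] using this
    exact h3.trans (h4.trans (norm_fst_le _))
  · have h3 : (1 : ℝ) ≤ |(m.2 : ℝ) - (m'.2 : ℝ)| := by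
      have := Int.one_le_abs (sub_ne_zero.2 h2)
      exact_mod_cast this
    have h4 : |(m.2 : ℝ) - (m'.2 : ℝ)| ≤ ‖plat m - plat m'‖ := by
      have := norm_snd_le (plat m - plat m')
      simpa [plat] using this
    exact h3.trans h4

theorem pka_plat_inj : Function.Injective (plat : PLat k → ST k) := by
  intro m m' h
  by_contra hne
  have := pka_plat_sep hne
  rw [h, sub_self, norm_zero] at this
  linarith

open scoped Classical in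
theorem pka_usep_plat (Fm : Finset (PLat k)) : USep (Fm.image plat) := by
  intro z hz z' hz' hne
  obtain ⟨m, _, rfl⟩ := Finset.mem_image.1 hz
  obtain ⟨m', _, rfl⟩ := Finset.mem_image.1 hz'
  exact pka_plat_sep fun h => hne (by rw [h])

/-- lattice sums of a weight of order `> k+1`. -/
theorem pka_lat_sum (k : ℕ) {E₀ : ℝ} (hE : (k : ℝ) + 1 < E₀) :
    ∃ C : ℝ, 0 ≤ C ∧ ∀ (Fm : Finset (PLat k)) (X : ST k), ∑ j ∈ Fm, (1 + ‖X - plat j‖) ^ (-E₀) ≤ C := by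
  classical
  obtain ⟨C, hC, h⟩ := pk_usep_sum k hE
  refine ⟨C, hC, fun Fm X => ?_⟩
  have := h (Fm.image plat) (pka_usep_plat Fm) X 1 le_rfl
  rw [Finset.sum_image fun a _ b _ hab => pka_plat_inj hab] at this
  simpa only [norm_sub_rev, div_one, one_pow, mul_one] using this

/-- **L-PKA-S2** **S2: CAUCHY BOUND OF THE FRESH AMPLITUDES** `amp_T² ≤ C m₀ Ca² L^k ∑_{T' ∈ J} a_{T'}² w^{(Q)}_{T'}(z_T)`.
(`C₃` from `pk_cauchy k (P := Q) (P' := P') hQ C₁`, applied to `D.ch J`, class `clsCh K C₁` (`Ok.ch_in`): `‖U X‖² ≤ C₃ m₀ L^k sq_Q(X)`; `sq_Q(X) ≤ (1 + (1+2C₁)|plat j - X|/L)^Q sq_Q(plat j) ≤ ((1+2C₁)(1+|X - plat j|))^Q sq_Q(plat j)` (`PFam.In.sq_peetre`, `1 ≤ L`), `Asm.smp_eq`;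
so `‖U X‖ (1+|X-j|)^(-Cs) ≤ B := sqrt (C₃ m₀ (1+2C₁)^Q L^k smp)` because `Q ≤ 2 Cs`; `Ok.amp_le`; square.) -/
theorem asm_cauchy (k : ℕ) (C₁ : ℝ) {Q P' Cs : ℝ} (hQ0 : 0 ≤ Q) (hQ : Q + k + 1 < 2 * P') (hCs : Q ≤ 2 * Cs) :
    ∃ C : ℝ, 0 ≤ C ∧ ∀ (ι κ : Type) (D : Asm k ι κ) (K : PCls) (a : ι → ℝ) (m₁ : ℕ) (ρχ Cχ Mχ : ℝ), D.Cs = Cs → P' ≤ K.P' → D.Ok K a C₁ m₁ ρχ Cχ Mχ →
      ∀ T : κ × PLat k, D.amp T ^ 2 ≤ C * K.m₀ * D.Ca ^ 2 * D.L ^ k * D.smp Q a T := by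
  obtain ⟨C₃, hC₃, hc⟩ := pk_cauchy k (P := Q) (P' := P') hQ C₁
  refine ⟨C₃ * (1 + 2 * |C₁|) ^ Q, by positivity, fun ι κ D K a m₁ ρχ Cχ Mχ hD hP' h T => ?_⟩
  rw [abs_of_nonneg h.C₁_nonneg]
  have hC₁ := h.C₁_nonneg
  have hL := h.one_le_L
  have hL0 : 0 < D.L := by linarith
  have hsm : D.smp Q a T = (D.ch T.1).sq Q (D.fib T.1) a (plat T.2) := D.smp_eq h.N_pos.ne' Q a T
  have hsm0 : 0 ≤ D.smp Q a T := by rw [hsm]; exact pkw_sq_nonneg _ _ _ _ _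
  set B2 : ℝ := C₃ * K.m₀ * D.L ^ k * ((1 + 2 * C₁) ^ Q * D.smp Q a T) with hB2
  have hB20 : 0 ≤ B2 := by positivity
  have hX : ∀ X, ‖D.U T.1 X‖ * (1 + ‖X - plat T.2‖) ^ (-D.Cs) ≤ Real.sqrt B2 := fun X => by
    set t := ‖X - plat T.2‖ with ht
    have ht0 : 0 ≤ t := norm_nonneg _
    apply Real.le_sqrt_of_sq_le
    have h1 : ‖D.U T.1 X‖ ^ 2 ≤ C₃ * K.m₀ * D.L ^ k * (D.ch T.1).sq Q (D.fib T.1) a X :=
      hc ι (D.ch T.1) (D.fib T.1) (Asm.clsCh K C₁) a (h.ch_in T.1) hP' le_rfl X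
    have h2 : (D.ch T.1).sq Q (D.fib T.1) a X ≤ (1 + (1 + 2 * C₁) * ‖plat T.2 - X‖ / D.L) ^ Q * (D.ch T.1).sq Q (D.fib T.1) a (plat T.2) :=
      (h.ch_in T.1).sq_peetre hQ0 a X (plat T.2)
    have h3 : 1 + (1 + 2 * C₁) * ‖plat T.2 - X‖ / D.L ≤ (1 + 2 * C₁) * (1 + t) := by
      rw [norm_sub_rev, ← ht]
      have : (1 + 2 * C₁) * t / D.L ≤ (1 + 2 * C₁) * t := div_le_self (by positivity) hL
      nlinarith
    have h4 : (1 + (1 + 2 * C₁) * ‖plat T.2 - X‖ / D.L) ^ Q ≤ (1 + 2 * C₁) ^ Q * (1 + t) ^ Q := by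
      rw [← Real.mul_rpow (by positivity) (by positivity)]
      exact Real.rpow_le_rpow (by positivity) h3 hQ0
    have h5 : ‖D.U T.1 X‖ ^ 2 ≤ B2 * (1 + t) ^ Q := by
      calc ‖D.U T.1 X‖ ^ 2 ≤ C₃ * K.m₀ * D.L ^ k * (D.ch T.1).sq Q (D.fib T.1) a X := h1
        _ ≤ C₃ * K.m₀ * D.L ^ k * (((1 + 2 * C₁) ^ Q * (1 + t) ^ Q) * D.smp Q a T) := by
            apply mul_le_mul_of_nonneg_left _ (by positivity)
            rw [hsm]
            exact h2.trans (mul_le_mul_of_nonneg_right h4 (by rw [← hsm]; exact hsm0))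
        _ = B2 * (1 + t) ^ Q := by rw [hB2]; ring
    have h6 : ((1 + t) ^ (-D.Cs)) ^ 2 = (1 + t) ^ (-(2 * Cs)) := by
      rw [← Real.rpow_natCast ((1 + t) ^ (-D.Cs)) 2, ← Real.rpow_mul (by positivity), hD]
      congr 1
      push_cast
      ring
    have h7 : (1 + t) ^ Q * (1 + t) ^ (-(2 * Cs)) ≤ 1 := by
      rw [← Real.rpow_add (by positivity)]
      exact Real.rpow_le_one_of_one_le_of_nonpos (by linarith) (by linarith)
    calc (‖D.U T.1 X‖ * (1 + t) ^ (-D.Cs)) ^ 2 = ‖D.U T.1 X‖ ^ 2 * (1 + t) ^ (-(2 * Cs)) := by rw [mul_pow, h6]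
      _ ≤ (B2 * (1 + t) ^ Q) * (1 + t) ^ (-(2 * Cs)) := by
          apply mul_le_mul_of_nonneg_right h5 (by positivity)
      _ = B2 * ((1 + t) ^ Q * (1 + t) ^ (-(2 * Cs))) := by ring
      _ ≤ B2 * 1 := by apply mul_le_mul_of_nonneg_left h7 hB20
      _ = B2 := mul_one _
  have h8 := h.amp_le T (Real.sqrt_nonneg B2) hX
  have h9 := h.amp_nonneg T
  calc D.amp T ^ 2 ≤ (D.Ca * Real.sqrt B2) ^ 2 := by gcongr
    _ = D.Ca ^ 2 * B2 := by rw [mul_pow, Real.sq_sqrt hB20]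
    _ = _ := by rw [hB2]; ring

end Claimed.Agent.R257
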