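import Claimed.Agent.R257.Pk.Asm

/-!
# R257 / Pk / AsmClo : S1 = THE PARENT FAMILY BELONGS TO THE CLASS (closure), basic identities of the assembly      (architect helper136)
-/

set_option autoImplicit false

namespace Claimed.Agent.R257

open MeasureTheory Metric Set
open scoped ENNReal

variable {k : ℕ} {ι κ : Type}

/-- **L-PKA-PKFS** one packet of scale `N ≥ 1` has Fourier support in a fixed ball.
(`car v z = BD.ch (BD.pr z (v, -‖v‖^2))`, `natX N v = BD.Lam (-v) N⁻¹ (N⁻¹^2)`; `BD.FS.lin`, `BD.FS.modulate`, `BD.FS.mono`; for `‖w‖ ≤ ρ` (sup norm): `‖BD.LamT (-v) N⁻¹ (N⁻¹^2) w‖ ≤ ρ (1 + 2‖v‖)/N` (`N⁻¹^2 ≤ N⁻¹`, Cauchy-Schwarz), `‖(v, -‖v‖^2)‖ ≤ ‖v‖ + ‖v‖^2`.  Compare `pkw_fam` in `PK1/WOutB.lean`.) -/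
theorem pka_pk_fs {ρ N : ℝ} (hρ : 0 ≤ ρ) (hN : 1 ≤ N) (v : E k) {F : ST k → ℂ} (hF : BD.FS (closedBall (0 : ST k) ρ) F) :
    BD.FS (closedBall (0 : ST k) (‖v‖ + ‖v‖ ^ 2 + ρ * (1 + 2 * ‖v‖) / N)) (fun z => car v z * F (natX N v z)) := by
  have hN0 : 0 < N := lt_of_lt_of_le one_pos hN
  have hi : 0 < N⁻¹ := inv_pos.2 hN0
  have hi1 : N⁻¹ ≤ 1 := inv_le_one_of_one_le₀ hN
  have h1 := (hF.lin (-v) hi (pow_pos hi 2)).modulate (v, -‖v‖ ^ 2)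
  have e : (fun z => car v z * F (natX N v z)) = fun z => BD.ch (BD.pr z (v, -‖v‖ ^ 2)) * F (BD.Lam (-v) N⁻¹ (N⁻¹ ^ 2) z) := by
    funext z
    congr 1
    · unfold car BD.ch BD.pr
      rw [mul_comm]
      congr 3
      ring
    · congr 1
      unfold natX BD.Lam
      ext1
      · simp only [smul_neg, sub_eq_add_neg]
      · simp only
        rw [inv_pow, div_eq_inv_mul]
  rw [e]
  refine h1.mono ?_
  rintro _ ⟨_, ⟨w, hw, rfl⟩, rfl⟩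
  rw [mem_closedBall_zero_iff, Prod.norm_def, max_le_iff] at hw
  obtain ⟨hw1, hw2⟩ := hw
  rw [mem_closedBall_zero_iff]
  have hv := norm_nonneg v
  have hA : ‖((v, -‖v‖ ^ 2) : ST k)‖ ≤ ‖v‖ + ‖v‖ ^ 2 := by
    rw [Prod.norm_def, max_le_iff]
    refine ⟨by simp only; nlinarith, ?_⟩
    simp only [norm_neg, norm_pow, norm_norm]
    linarith
  have hB : ‖BD.LamT (-v) N⁻¹ (N⁻¹ ^ 2) w‖ ≤ ρ * (1 + 2 * ‖v‖) / N := by
    rw [div_eq_mul_inv]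
    unfold BD.LamT
    rw [Prod.norm_def, max_le_iff]
    constructor
    · simp only
      rw [norm_smul, Real.norm_of_nonneg hi.le, mul_comm]
      have : ‖w.1‖ ≤ ρ * (1 + 2 * ‖v‖) := by nlinarith
      exact mul_le_mul_of_nonneg_right this hi.le
    · simp only
      have h3 : |inner ℝ (-v) w.1| ≤ ‖v‖ * ρ := by
        refine (abs_real_inner_le_norm _ _).trans ?_
        rw [norm_neg]
        exact mul_le_mul_of_nonneg_left hw1 hv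
      have h4 : |w.2| ≤ ρ := hw2
      rw [Real.norm_eq_abs]
      calc |2 * N⁻¹ * inner ℝ (-v) w.1 + N⁻¹ ^ 2 * w.2| ≤ |2 * N⁻¹ * inner ℝ (-v) w.1| + |N⁻¹ ^ 2 * w.2| := abs_add_le _ _
        _ = 2 * N⁻¹ * |inner ℝ (-v) w.1| + N⁻¹ ^ 2 * |w.2| := by
            rw [abs_mul (2 * N⁻¹), abs_mul (N⁻¹ ^ 2), abs_of_nonneg (by positivity : 0 ≤ 2 * N⁻¹), abs_of_nonneg (by positivity : 0 ≤ N⁻¹ ^ 2)]
        _ ≤ 2 * N⁻¹ * (‖v‖ * ρ) + N⁻¹ * ρ := by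
            have : N⁻¹ ^ 2 ≤ N⁻¹ := by nlinarith
            gcongr
        _ = ρ * (1 + 2 * ‖v‖) * N⁻¹ := by ring
  exact (norm_add_le _ _).trans (add_le_add hA hB)

/-- **L-PKA-LATCARD** at most `3^(k+1)` lattice points in a unit box.  (Inject `t` into `Fintype.piFinset (fun i => Finset.Icc ⌈y i - 1⌉ ⌊y i + 1⌋) ×ˢ Finset.Icc ⌈τ - 1⌉ ⌊τ + 1⌋`; `|(m.1 i : ℝ) - y i| ≤ ‖toLp .. - y‖` (`EuclideanSpace.norm_eq`/`PiLp.norm_apply_le`); an interval `[x-1, x+1]` contains at most `3` integers (`Int.card_Icc`).) -/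
theorem pka_lat_card (t : Finset (PLat k)) (y : E k) (τ : ℝ) (h : ∀ m ∈ t, ‖(plat m).1 - y‖ ≤ 1 ∧ |(plat m).2 - τ| ≤ 1) : t.card ≤ 3 ^ (k + 1) := by
  classical
  have hI : ∀ x : ℝ, (Finset.Icc ⌈x - 1⌉ ⌊x + 1⌋).card ≤ 3 := by
    intro x
    rw [Int.card_Icc]
    have h1 : (⌊x + 1⌋ : ℝ) ≤ x + 1 := Int.floor_le _
    have h2 : x - 1 ≤ (⌈x - 1⌉ : ℝ) := Int.le_ceil _
    have h3 : ((⌊x + 1⌋ - ⌈x - 1⌉ : ℤ) : ℝ) ≤ 2 := by push_cast; linarith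
    have h4 : ⌊x + 1⌋ - ⌈x - 1⌉ ≤ 2 := by exact_mod_cast h3
    omega
  have hsub : t ⊆ (Fintype.piFinset fun i => Finset.Icc ⌈y i - 1⌉ ⌊y i + 1⌋) ×ˢ Finset.Icc ⌈τ - 1⌉ ⌊τ + 1⌋ := by
    intro m hm
    obtain ⟨h1, h2⟩ := h m hm
    rw [Finset.mem_product, Fintype.mem_piFinset]
    constructor
    · intro i
      have h3 : |(m.1 i : ℝ) - y i| ≤ 1 := by
        have := PiLp.norm_apply_le ((plat m).1 - y) i
        rw [Real.norm_eq_abs] at this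
        exact this.trans h1
      rw [abs_le] at h3
      rw [Finset.mem_Icc]
      exact ⟨Int.ceil_le.2 (by linarith), Int.le_floor.2 (by linarith)⟩
    · have h3 : |(m.2 : ℝ) - τ| ≤ 1 := h2
      rw [abs_le] at h3
      rw [Finset.mem_Icc]
      exact ⟨Int.ceil_le.2 (by linarith), Int.le_floor.2 (by linarith)⟩
  refine (Finset.card_le_card hsub).trans ?_
  rw [Finset.card_product, Fintype.card_piFinset, pow_succ]
  refine Nat.mul_le_mul ?_ (hI τ)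
  calc ∏ i : Fin k, (Finset.Icc ⌈y i - 1⌉ ⌊y i + 1⌋).card ≤ ∏ _i : Fin k, 3 := Finset.prod_le_prod' fun i _ => hI (y i)
    _ = 3 ^ k := by simp

namespace Asm

variable {D : Asm k ι κ} {K : PCls} {a : ι → ℝ} {C₁ : ℝ} {m₁ : ℕ} {ρχ Cχ Mχ : ℝ}

theorem Ok.N_pos (h : D.Ok K a C₁ m₁ ρχ Cχ Mχ) : 0 < D.N := lt_of_lt_of_le one_pos h.one_le

theorem Ok.one_le_L (h : D.Ok K a C₁ m₁ ρχ Cχ Mχ) : 1 ≤ D.L := by
  unfold Asm.L
  rw [le_div_iff₀ h.N_pos, one_mul]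
  exact h.le

theorem fib_subset (D : Asm k ι κ) (J : κ) : D.fib J ⊆ D.s := by
  classical
  exact Finset.filter_subset _ _

theorem mem_fib (D : Asm k ι κ) {J : κ} {T : ι} : T ∈ D.fib J ↔ T ∈ D.s ∧ D.π T = J := by
  classical
  exact Finset.mem_filter

theorem Ok.Cχ_nonneg (h : D.Ok K a C₁ m₁ ρχ Cχ Mχ) : 0 ≤ Cχ := by
  have := h.χ_dec 0
  simp only [norm_zero, add_zero, Real.one_rpow, mul_one] at this
  exact (norm_nonneg _).trans this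

theorem Ok.Ca_nonneg (h : D.Ok K a C₁ m₁ ρχ Cχ Mχ) : 0 ≤ D.Ca := h.Cχ_nonneg.trans h.Ca_ge

/-- the child family of a cap, in the native coordinates of the cap, is a family of scale `L` of the class `clsCh K C₁`. -/
theorem Ok.ch_in (h : D.Ok K a C₁ m₁ ρχ Cχ Mχ) (J : κ) : (D.ch J).In (D.fib J) (clsCh K C₁) a := by
  refine PFam.In.resc (h.inn.subset (D.fib_subset J)) h.N_pos h.le (D.vc J) fun T hT => ?_
  have hT' := D.mem_fib.1 hT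
  have := h.near T hT'.1
  rwa [hT'.2] at this

theorem fld_fib (D : Asm k ι κ) (hN : D.N ≠ 0) (J : κ) (z : ST k) : D.A.fld (D.fib J) z = car (D.vc J) z * D.U J (natX D.N (D.vc J) z) :=
  D.A.fld_resc hN (D.vc J) (D.fib J) z

theorem fld_caps (D : Asm k ι κ) (z : ST k) : D.A.fld D.s z = ∑ J ∈ D.caps, D.A.fld (D.fib J) z := by
  classical
  unfold PFam.fld Asm.caps Asm.fib
  exact (Finset.sum_fiberwise_of_maps_to (fun T hT => Finset.mem_image_of_mem D.π hT) _).symm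

/-- the sampled squares are the square envelope of the child family in cap coordinates at the lattice point. (`PFam.w_resc`, `natX_natI`.) -/
theorem smp_eq (D : Asm k ι κ) (hN : D.N ≠ 0) (Q : ℝ) (b' : ι → ℝ) (T : κ × PLat k) : D.smp Q b' T = (D.ch T.1).sq Q (D.fib T.1) b' (plat T.2) := by
  unfold Asm.smp PFam.sq Asm.ch
  refine Finset.sum_congr rfl fun T' _ => ?_
  rw [← D.A.w_resc hN (D.vc T.1) Q T' (D.par.ctr T)]
  congr 2
  exact natX_natI hN _ _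

/-- **L-PKA-UFS** (`PFam.fld`, `BD.FS.sum`, `pka_pk_fs` at scale `L`, label `N (v - vc J)` of norm `≤ C₁` (`Ok.ch_in … .freq`), `BD.FS.mono` (monotone in `‖v‖`).) -/
theorem Ok.U_fs (h : D.Ok K a C₁ m₁ ρχ Cχ Mχ) (J : κ) : BD.FS (closedBall (0 : ST k) (C₁ + C₁ ^ 2 + K.ρ * (1 + 2 * C₁) / D.L)) (D.U J) := by
  have hin := h.ch_in J
  have hL := h.one_le_L
  have hL0 : 0 < D.L := lt_of_lt_of_le one_pos hL
  unfold Asm.U PFam.fld
  refine BD.FS.sum _ fun T hT => ?_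
  have h1 := pka_pk_fs h.ρ_nonneg (show 1 ≤ (D.ch J).N from hin.one_le) ((D.ch J).v T) (hin.fs T hT)
  have h2 : ‖(D.ch J).v T‖ ≤ C₁ := hin.freq T hT
  refine h1.mono (closedBall_subset_closedBall ?_)
  have h3 := norm_nonneg ((D.ch J).v T)
  have h4 : (D.ch J).N = D.L := rfl
  rw [h4]
  have h5 := h.ρ_nonneg
  show _ ≤ C₁ + C₁ ^ 2 + K.ρ * (1 + 2 * C₁) / D.L
  gcongr

/-- **L-PKA-ULE** (`norm_sum_le`, `norm_car`, `In.decay`, `(1+x)^(-P') ≤ 1`.) -/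
theorem Ok.U_le (h : D.Ok K a C₁ m₁ ρχ Cχ Mχ) (J : κ) (X : ST k) : ‖D.U J X‖ ≤ ∑ T ∈ D.fib J, a T := by
  have hin := h.ch_in J
  unfold Asm.U PFam.fld
  refine (norm_sum_le _ _).trans (Finset.sum_le_sum fun T hT => ?_)
  unfold PFam.pk
  rw [norm_mul, norm_car, one_mul]
  refine (hin.decay T hT _).trans ?_
  have h1 : (1 + ‖natX (D.ch J).N ((D.ch J).v T) X - (D.ch J).u T‖) ^ (-(clsCh K C₁).P') ≤ 1 :=
    Real.rpow_le_one_of_one_le_of_nonpos (by linarith [norm_nonneg (natX (D.ch J).N ((D.ch J).v T) X - (D.ch J).u T)]) (neg_nonpos.2 h.P'_nonneg)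
  exact mul_le_of_le_one_right (hin.amp_nonneg hT) h1

/-- (`Ok.U_le`, `(1+x)^(-Cs) ≤ 1`.) -/
theorem Ok.U_bdd (h : D.Ok K a C₁ m₁ ρχ Cχ Mχ) (T : κ × PLat k) : BddAbove (range fun X => ‖D.U T.1 X‖ * (1 + ‖X - plat T.2‖) ^ (-D.Cs)) := by
  refine ⟨∑ T' ∈ D.fib T.1, a T', ?_⟩
  rintro _ ⟨X, rfl⟩
  have h1 : (1 + ‖X - plat T.2‖) ^ (-D.Cs) ≤ 1 :=
    Real.rpow_le_one_of_one_le_of_nonpos (by linarith [norm_nonneg (X - plat T.2)]) (neg_nonpos.2 h.Cs_nonneg)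
  exact (mul_le_of_le_one_right (norm_nonneg _) h1).trans (h.U_le T.1 X)

/-- (`le_ciSup (Ok.U_bdd ..)`, `Ok.Ca_nonneg`.) -/
theorem Ok.le_amp (h : D.Ok K a C₁ m₁ ρχ Cχ Mχ) (T : κ × PLat k) (X : ST k) : D.Ca * (‖D.U T.1 X‖ * (1 + ‖X - plat T.2‖) ^ (-D.Cs)) ≤ D.amp T := by
  exact mul_le_mul_of_nonneg_left (le_ciSup (h.U_bdd T) X) h.Ca_nonneg

/-- (`Real.iSup_le`/`ciSup_le`.) -/
theorem Ok.amp_le (h : D.Ok K a C₁ m₁ ρχ Cχ Mχ) (T : κ × PLat k) {B : ℝ} (hB : 0 ≤ B) (hX : ∀ X, ‖D.U T.1 X‖ * (1 + ‖X - plat T.2‖) ^ (-D.Cs) ≤ B) : D.amp T ≤ D.Ca * B := by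
  exact mul_le_mul_of_nonneg_left (ciSup_le hX) h.Ca_nonneg

theorem Ok.amp_nonneg (h : D.Ok K a C₁ m₁ ρχ Cχ Mχ) (T : κ × PLat k) : 0 ≤ D.amp T := by
  refine le_trans ?_ (h.le_amp T 0)
  have := h.Ca_nonneg
  positivity

/-- **L-PKA-PARIN** **S1: CLOSURE.**  Every finite set of parent cells over occupied caps is a family of the class `D.clsPar …` with the fresh amplitudes.
(`fs`: `BD.FS.mul` of `BD.FS.shift` of `χ_fs` and `Ok.U_fs`; `closedBall 0 r + closedBall 0 r' ⊆ closedBall 0 (r + r')`.   `decay`: `‖χ(X-j)‖ ‖U X‖ ≤ Cχ (1+|X-j|)^(-Mχ) ‖U X‖ = Cχ (‖U X‖ (1+|X-j|)^(-Cs)) (1+|X-j|)^(-(Mχ-Cs)) ≤ amp (1+|X-j|)^(-(Mχ-Cs))` (`Ok.le_amp`, `Ca_ge`, `Real.rpow_add`).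
`freq`: `J = π T'`, `‖vc J‖ ≤ ‖v T'‖ + C₁/N ≤ C₀ + C₁`.   `mult`: `Finset.card_le_mul_card_image` for `Prod.fst`: the image is `≤ m₁` (`Ok.mult`), every fibre `≤ 3^(k+1)` (`pka_lat_card` with `y := y - (2 τ N) • vc J`).) -/
theorem Ok.par_in (h : D.Ok K a C₁ m₁ ρχ Cχ Mχ) (Wd : Finset (κ × PLat k)) (hW : ∀ T ∈ Wd, T.1 ∈ D.caps) :
    D.par.In Wd (D.clsPar K C₁ m₁ ρχ Mχ) D.amp := by
  classical
  have hN := h.N_pos
  refine ⟨h.one_le, fun T _ => ?_, fun T _ X => ?_, fun T hT => ?_, fun ξ y τ t ht hh => ?_⟩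
  · have h1 := (h.χ_fs.shift (-plat T.2)).mul (h.U_fs T.1)
    simp only [← sub_eq_add_neg] at h1
    refine h1.mono ?_
    rintro _ ⟨w, hw, w', hw', rfl⟩
    rw [mem_closedBall_zero_iff] at hw hw' ⊢
    refine (norm_add_le _ _).trans ?_
    show _ ≤ ρχ + C₁ + C₁ ^ 2 + K.ρ * (1 + 2 * C₁) / D.L
    linarith
  · show ‖D.χ (X - plat T.2) * D.U T.1 X‖ ≤ D.amp T * (1 + ‖X - plat T.2‖) ^ (-(Mχ - D.Cs))
    have hp : 0 < 1 + ‖X - plat T.2‖ := by positivity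
    have e : (1 + ‖X - plat T.2‖) ^ (-Mχ) = (1 + ‖X - plat T.2‖) ^ (-D.Cs) * (1 + ‖X - plat T.2‖) ^ (-(Mχ - D.Cs)) := by
      rw [← Real.rpow_add hp]
      congr 1
      ring
    rw [norm_mul]
    calc ‖D.χ (X - plat T.2)‖ * ‖D.U T.1 X‖ ≤ (Cχ * (1 + ‖X - plat T.2‖) ^ (-Mχ)) * ‖D.U T.1 X‖ :=
          mul_le_mul_of_nonneg_right (h.χ_dec _) (norm_nonneg _)
      _ = Cχ * (‖D.U T.1 X‖ * (1 + ‖X - plat T.2‖) ^ (-D.Cs)) * (1 + ‖X - plat T.2‖) ^ (-(Mχ - D.Cs)) := by rw [e]; ring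
      _ ≤ D.Ca * (‖D.U T.1 X‖ * (1 + ‖X - plat T.2‖) ^ (-D.Cs)) * (1 + ‖X - plat T.2‖) ^ (-(Mχ - D.Cs)) := by
          have := h.Ca_ge
          gcongr
      _ ≤ D.amp T * (1 + ‖X - plat T.2‖) ^ (-(Mχ - D.Cs)) := by
          have := h.le_amp T X
          gcongr
  · show ‖D.vc T.1‖ ≤ K.C₀ + C₁
    obtain ⟨T', hT', e⟩ := Finset.mem_image.1 (hW T hT)
    have h1 := h.near T' hT'
    rw [e] at h1
    have h2 := h.inn.freq T' hT'
    have h3 : C₁ / D.N ≤ C₁ := div_le_self h.C₁_nonneg h.one_le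
    have h4 : D.vc T.1 = D.A.v T' - (D.A.v T' - D.vc T.1) := by abel
    rw [h4]
    refine (norm_sub_le _ _).trans ?_
    linarith
  · show t.card ≤ m₁ * 3 ^ (k + 1)
    have h1 : (t.image Prod.fst).card ≤ m₁ := by
      refine h.mult ξ _ ?_ ?_
      · intro J hJ
        obtain ⟨T, hT, rfl⟩ := Finset.mem_image.1 hJ
        exact hW T (ht hT)
      · intro J hJ
        obtain ⟨T, hT, rfl⟩ := Finset.mem_image.1 hJ
        exact (hh T hT).1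
    have h2 : ∀ J ∈ t.image Prod.fst, (t.filter fun T => T.1 = J).card ≤ 3 ^ (k + 1) := by
      intro J _
      have h3 : ((t.filter fun T => T.1 = J).image Prod.snd).card = (t.filter fun T => T.1 = J).card := by
        refine Finset.card_image_of_injOn ?_
        intro T hT T' hT' e
        have e1 := (Finset.mem_filter.1 (Finset.mem_coe.1 hT)).2
        have e2 := (Finset.mem_filter.1 (Finset.mem_coe.1 hT')).2
        exact Prod.ext (e1.trans e2.symm) e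
      rw [← h3]
      refine pka_lat_card _ (y - (2 * τ * D.N) • D.vc J) τ fun m hm => ?_
      obtain ⟨T, hT, rfl⟩ := Finset.mem_image.1 hm
      obtain ⟨hT1, rfl⟩ := Finset.mem_filter.1 hT
      obtain ⟨-, h5, h6⟩ := hh T hT1
      refine ⟨?_, h5⟩
      have e : (plat T.2).1 - (y - (2 * τ * D.N) • D.vc T.1) = (plat T.2).1 + (2 * τ * D.N) • D.vc T.1 - y := by abel
      rw [e]
      exact h6
    calc t.card ≤ 3 ^ (k + 1) * (t.image Prod.fst).card := Finset.card_le_mul_card_image _ _ h2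
      _ ≤ 3 ^ (k + 1) * m₁ := Nat.mul_le_mul_left _ h1
      _ = m₁ * 3 ^ (k + 1) := Nat.mul_comm _ _

end Asm

end Claimed.Agent.R257
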